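import Vale.Agent.P028.Sel.Overlap
import Vale.Agent.P028.Gcd.Plain

/-!
# Arbitrary shifts under the divergence of `∑ φ(q) ψ(q)^{1+η}/q`
-/

open MeasureTheory Set Finset

namespace Vale.Agent.P028.Sel

noncomputable section

open Gcd (rho msr tot mass level quo)

lemma card_cell_ge (γ : ℝ) (q M i : ℕ) (hi : i < M) (hq : 2 * M ≤ q) :
    (q : ℝ) / M / 2 ≤ ((cell γ q M i).card : ℝ) := by
  have hMR : (0 : ℝ) < M := by exact_mod_cast (by omega : 0 < M)
  have hqR : (0 : ℝ) < q := by exact_mod_cast (by omega : 0 < q)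
  set A : ℝ := q * i / M - γ with hA
  have hL : 2 ≤ (q : ℝ) / M := by
    rw [le_div_iff₀ hMR]; exact_mod_cast hq
  have hsub : Finset.Ico ⌈A⌉ ⌈A + q / M⌉ ⊆ cell γ q M i := by
    intro a ha
    obtain ⟨h1, h2⟩ := Finset.mem_Ico.1 ha
    have h1' : A ≤ (a : ℝ) := (Int.le_ceil A).trans (by exact_mod_cast h1)
    have h2' : (a : ℝ) < A + q / M := Int.lt_ceil.1 h2
    have hA0 : -γ ≤ A := by
      have : 0 ≤ (q : ℝ) * i / M := by positivity
      rw [hA]; linarith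
    have hA1 : A + q / M ≤ q - γ := by
      have : (i : ℝ) + 1 ≤ M := by exact_mod_cast hi
      have e : (q : ℝ) * i / M + q / M = q * ((i + 1) / M) := by ring
      have : (q : ℝ) * ((i + 1) / M) ≤ q :=
        mul_le_of_le_one_right hqR.le ((div_le_one hMR).2 this)
      rw [hA]; linarith
    refine Finset.mem_filter.2 ⟨?_, ?_, ?_⟩
    · rw [idx, Finset.mem_Icc]
      constructor
      · have : ⌊-γ⌋ ≤ a := Int.cast_le.1 ((Int.floor_le (-γ)).trans (hA0.trans h1'))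
        omega
      · have : a ≤ ⌊(q : ℝ) - γ⌋ := Int.le_floor.2 (h2'.le.trans hA1)
        omega
    · rw [div_le_div_iff₀ hMR hqR]
      have := mul_le_mul_of_nonneg_right h1' hMR.le
      rw [hA, sub_mul, div_mul_cancel₀ _ hMR.ne'] at this
      linarith
    · rw [div_lt_div_iff₀ hqR hMR]
      have := mul_lt_mul_of_pos_right h2' hMR
      rw [hA, add_mul, sub_mul, div_mul_cancel₀ _ hMR.ne', div_mul_cancel₀ _ hMR.ne'] at this
      linarith
  have h := Finset.card_le_card hsub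
  rw [Int.card_Ico] at h
  have hh : ((⌈A + q / M⌉ - ⌈A⌉).toNat : ℝ) ≤ ((cell γ q M i).card : ℝ) := by exact_mod_cast h
  have h3 : ((⌈A + q / M⌉ - ⌈A⌉ : ℤ) : ℝ) ≤ ((⌈A + q / M⌉ - ⌈A⌉).toNat : ℝ) := by
    exact_mod_cast Int.self_le_toNat _
  have h4 := Int.le_ceil (A + q / M)
  have h5 := Int.ceil_lt_add_one A
  push_cast at h3
  linarith

lemma equi_const (γ : ℕ → ℝ) : Equi γ (fun q _ => rho q) := by
  refine ⟨1 / 2, by norm_num, fun M hM => ⟨2 * M, fun q hq i hi => ?_⟩⟩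
  rw [Finset.sum_const, nsmul_eq_mul]
  refine (le_of_eq ?_).trans
    (mul_le_mul_of_nonneg_right (card_cell_ge (γ q) q M i hi hq) (Gcd.rho_nonneg q))
  ring

lemma exists_dyadic {P : ℝ} {l : ℕ} (h1 : P < 1) (hl : (1 / 2 : ℝ) ^ (l + 1) < P) :
    ∃ i, i ≤ l ∧ (1 / 2 : ℝ) ^ (i + 1) < P ∧ P ≤ (1 / 2 : ℝ) ^ i := by
  classical
  have hex : ∃ i : ℕ, (1 / 2 : ℝ) ^ (i + 1) < P := ⟨l, hl⟩
  refine ⟨Nat.find hex, Nat.find_min' hex hl, Nat.find_spec hex, ?_⟩
  rcases h : Nat.find hex with _ | n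
  · simpa using h1.le
  · exact not_lt.1 (Nat.find_min hex (show n < Nat.find hex by omega))

/-- Pairs inside one dyadic band. -/
theorem band_pairs {ε : ℝ} (hε : 0 < ε) (hε' : ε ≤ 1 / 4) :
    ∃ C : ℝ, 0 < C ∧ ∀ (δ : ℕ → ℝ) (F : Finset ℕ) (l : ℕ), (∀ q, 0 ≤ δ q) → 0 ∉ F →
      (∀ q ∈ F, (1 / 2 : ℝ) ^ (l + 1) < δ q) →
      ∑ q ∈ F, ∑ q' ∈ F, msr δ q * msr δ q' *
          (1 + 1 / max ((quo q' q : ℝ) * δ q) ((quo q q' : ℝ) * δ q')) ≤
        C * (tot (msr δ) F ^ 2 +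
          ((2 : ℝ) ^ ε) ^ (2 * l) * (tot (msr δ) F * tot (msr δ) F) ^ (1 / 2 + ε)) := by
  classical
  obtain ⟨C, hC, hplain⟩ := Gcd.plain_bound (τ := 1) (K := 0) hε hε' one_pos le_rfl
  set G : ℝ := (2 : ℝ) ^ ε with hG
  have hG1 : 1 < G := Real.one_lt_rpow (by norm_num) hε
  refine ⟨2 + 2 * C * (G / (G - 1)) ^ 2, by positivity, fun δ F l hδ h0 hF => ?_⟩
  set μ := msr δ
  set S := tot μ F
  have hμ : ∀ q, 0 ≤ μ q := Gcd.msr_nonneg hδ
  set R := range (l + 1)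
  have hpair : ∀ q ∈ F, ∀ q' ∈ F, μ q * μ q' *
      (1 + 1 / max ((quo q' q : ℝ) * δ q) ((quo q q' : ℝ) * δ q')) ≤
      2 * (μ q * μ q') + ∑ i ∈ R, ∑ j ∈ R, 2 * ((2 : ℝ) ^ i * 2 ^ j) ^ (1 / 2 : ℝ) *
        (μ q * μ q' * level 1 0 ((1 / 2) ^ i) ((1 / 2) ^ j) δ δ q q') := by
    intro q hq q' hq'
    set P := (quo q' q : ℝ) * δ q with hP
    set Q := (quo q q' : ℝ) * δ q' with hQ
    have hμμ : 0 ≤ μ q * μ q' := mul_nonneg (hμ q) (hμ q')
    have hsum0 : ∀ i ∈ R, ∀ j ∈ R, 0 ≤ 2 * ((2 : ℝ) ^ i * 2 ^ j) ^ (1 / 2 : ℝ) *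
        (μ q * μ q' * level 1 0 ((1 / 2) ^ i) ((1 / 2) ^ j) δ δ q q') := fun i _ j _ =>
      mul_nonneg (by positivity) (mul_nonneg hμμ (Gcd.level_nonneg le_rfl _ _ _ _))
    by_cases hmax : 1 ≤ max P Q
    · have : 1 / max P Q ≤ 1 := (div_le_one (lt_of_lt_of_le one_pos hmax)).2 hmax
      have := Finset.sum_nonneg fun i hi => Finset.sum_nonneg fun j hj => hsum0 i hi j hj
      nlinarith [mul_le_mul_of_nonneg_left ‹1 / max P Q ≤ 1› hμμ]
    push Not at hmax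
    have hqne : q ≠ 0 := fun h => h0 (h ▸ hq)
    have hq'ne : q' ≠ 0 := fun h => h0 (h ▸ hq')
    have hPl : (1 / 2 : ℝ) ^ (l + 1) < P :=
      (hF q hq).trans_le (le_mul_of_one_le_left (hδ q) (by exact_mod_cast Gcd.quo_pos hq'ne))
    have hQl : (1 / 2 : ℝ) ^ (l + 1) < Q :=
      (hF q' hq').trans_le (le_mul_of_one_le_left (hδ q') (by exact_mod_cast Gcd.quo_pos hqne))
    obtain ⟨i, hi, hi1, hi2⟩ := exists_dyadic (lt_of_le_of_lt (le_max_left _ _) hmax) hPl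
    obtain ⟨j, hj, hj1, hj2⟩ := exists_dyadic (lt_of_le_of_lt (le_max_right _ _) hmax) hQl
    have hP0 : 0 < P := lt_trans (by positivity) hi1
    have hM0 : 0 < max P Q := lt_of_lt_of_le hP0 (le_max_left _ _)
    have hlev : level 1 0 ((1 / 2) ^ i) ((1 / 2) ^ j) δ δ q q' = 1 := by
      simp only [level]
      rw [if_pos ⟨hi2, hj2⟩]
      simp [Gcd.wt]
    have hpow : ((1 / 2 : ℝ) ^ (i + 1) * (1 / 2) ^ (j + 1)) ^ (1 / 2 : ℝ) ≤ max P Q := by
      calc _ ≤ (max P Q * max P Q) ^ (1 / 2 : ℝ) := Real.rpow_le_rpow (by positivity)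
            (mul_le_mul (hi1.le.trans (le_max_left _ _)) (hj1.le.trans (le_max_right _ _))
              (by positivity) hM0.le) (by norm_num)
        _ = _ := by rw [← Real.sqrt_eq_rpow, Real.sqrt_mul_self hM0.le]
    have hinv : 1 / max P Q ≤ 2 * ((2 : ℝ) ^ i * 2 ^ j) ^ (1 / 2 : ℝ) := by
      rw [div_le_iff₀ hM0]
      refine le_trans (le_of_eq ?_) (mul_le_mul_of_nonneg_left hpow (by positivity))
      rw [mul_assoc, ← Real.mul_rpow (by positivity) (by positivity)]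
      have : (2 : ℝ) ^ i * 2 ^ j * ((1 / 2 : ℝ) ^ (i + 1) * (1 / 2) ^ (j + 1)) = 1 / 4 := by
        have h1 : ∀ n : ℕ, (2 : ℝ) ^ n * (1 / 2 : ℝ) ^ (n + 1) = 1 / 2 := fun n => by
          rw [pow_succ, ← mul_assoc, ← mul_pow]; norm_num
        calc _ = ((2 : ℝ) ^ i * (1 / 2) ^ (i + 1)) * ((2 : ℝ) ^ j * (1 / 2) ^ (j + 1)) := by ring
          _ = _ := by rw [h1, h1]; norm_num
      rw [this, show (1 / 4 : ℝ) = (1 / 2) ^ (2 : ℝ) by norm_num,
        ← Real.rpow_mul (by norm_num)]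
      norm_num
    have hone : 2 * ((2 : ℝ) ^ i * 2 ^ j) ^ (1 / 2 : ℝ) * (μ q * μ q') ≤
        ∑ i ∈ R, ∑ j ∈ R, 2 * ((2 : ℝ) ^ i * 2 ^ j) ^ (1 / 2 : ℝ) *
          (μ q * μ q' * level 1 0 ((1 / 2) ^ i) ((1 / 2) ^ j) δ δ q q') := by
      refine le_trans ?_ (Finset.single_le_sum (fun i hi => Finset.sum_nonneg (hsum0 i hi))
        (Finset.mem_range.2 (by omega : i < l + 1)))
      refine le_trans ?_ (Finset.single_le_sum (hsum0 i (Finset.mem_range.2 (by omega)))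
        (Finset.mem_range.2 (by omega : j < l + 1)))
      rw [hlev, mul_one]
    calc μ q * μ q' * (1 + 1 / max P Q)
        = μ q * μ q' + μ q * μ q' * (1 / max P Q) := by ring
      _ ≤ 2 * (μ q * μ q') + 2 * ((2 : ℝ) ^ i * 2 ^ j) ^ (1 / 2 : ℝ) * (μ q * μ q') := by
          refine add_le_add (by linarith) ?_
          rw [mul_comm (2 * _) (μ q * μ q')]
          exact mul_le_mul_of_nonneg_left hinv hμμ
      _ ≤ _ := by linarith
  refine (Finset.sum_le_sum fun q hq => Finset.sum_le_sum fun q' hq' => hpair q hq q' hq').trans ?_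
  have hterm : ∀ i j : ℕ, 2 * ((2 : ℝ) ^ i * 2 ^ j) ^ (1 / 2 : ℝ) *
      mass μ μ (level 1 0 ((1 / 2) ^ i) ((1 / 2) ^ j) δ δ) F F ≤
      2 * C * (G ^ i * G ^ j) * (S * S) ^ (1 / 2 + ε) := by
    intro i j
    refine (mul_le_mul_of_nonneg_left (hplain δ δ _ _ hδ hδ (by positivity) (by positivity)
      F F h0 h0) (by positivity)).trans (le_of_eq ?_)
    have e : ((2 : ℝ) ^ i * 2 ^ j) ^ (1 / 2 : ℝ) *
        ((1 / 2 : ℝ) ^ i * (1 / 2) ^ j) ^ (1 / 2 - ε) = G ^ i * G ^ j := by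
      have h2 : (1 / 2 : ℝ) ^ i * (1 / 2) ^ j = ((2 : ℝ) ^ i * 2 ^ j)⁻¹ := by
        rw [mul_inv, ← inv_pow, ← inv_pow]; norm_num
      rw [h2, Real.inv_rpow (by positivity), ← Real.rpow_neg (by positivity),
        ← Real.rpow_add (by positivity), hG, ← pow_add, ← pow_add,
        ← Real.rpow_natCast ((2 : ℝ) ^ ε), ← Real.rpow_natCast (2 : ℝ),
        ← Real.rpow_mul (by norm_num), ← Real.rpow_mul (by norm_num)]
      push_cast
      ring_nf
    calc _ = 2 * C * (((2 : ℝ) ^ i * 2 ^ j) ^ (1 / 2 : ℝ) *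
          ((1 / 2 : ℝ) ^ i * (1 / 2) ^ j) ^ (1 / 2 - ε)) * (S * S) ^ (1 / 2 + ε) := by ring
      _ = _ := by rw [e]
  have hswap : ∑ q ∈ F, ∑ q' ∈ F, (2 * (μ q * μ q') + ∑ i ∈ R, ∑ j ∈ R,
      2 * ((2 : ℝ) ^ i * 2 ^ j) ^ (1 / 2 : ℝ) *
        (μ q * μ q' * level 1 0 ((1 / 2) ^ i) ((1 / 2) ^ j) δ δ q q')) =
      2 * S ^ 2 + ∑ i ∈ R, ∑ j ∈ R, 2 * ((2 : ℝ) ^ i * 2 ^ j) ^ (1 / 2 : ℝ) *
        mass μ μ (level 1 0 ((1 / 2) ^ i) ((1 / 2) ^ j) δ δ) F F := by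
    simp only [Finset.sum_add_distrib]
    congr 1
    · simp only [S, Gcd.tot, sq, Finset.mul_sum, Finset.sum_mul]
      rw [Finset.sum_comm]
    · simp only [Gcd.mass, Finset.mul_sum]
      refine (Finset.sum_congr rfl fun q _ => Finset.sum_comm).trans ?_
      rw [Finset.sum_comm]
      refine Finset.sum_congr rfl fun i _ => ?_
      refine (Finset.sum_congr rfl fun q _ => Finset.sum_comm).trans ?_
      rw [Finset.sum_comm]
  rw [hswap]
  have hgeo : ∑ i ∈ R, G ^ i ≤ G / (G - 1) * G ^ l := by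
    rw [geom_sum_eq hG1.ne', div_mul_eq_mul_div, ← pow_succ']
    exact div_le_div_of_nonneg_right (by linarith) (by linarith)
  have hgeo0 : 0 ≤ ∑ i ∈ R, G ^ i := Finset.sum_nonneg fun i _ => by positivity
  have hS0 : 0 ≤ (S * S) ^ (1 / 2 + ε) := Real.rpow_nonneg (mul_self_nonneg S) _
  calc 2 * S ^ 2 + _
      ≤ 2 * S ^ 2 + ∑ i ∈ R, ∑ j ∈ R, 2 * C * (G ^ i * G ^ j) * (S * S) ^ (1 / 2 + ε) :=
        add_le_add le_rfl (Finset.sum_le_sum fun i _ => Finset.sum_le_sum fun j _ => hterm i j)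
    _ = 2 * S ^ 2 + 2 * C * ((∑ i ∈ R, G ^ i) * ∑ j ∈ R, G ^ j) * (S * S) ^ (1 / 2 + ε) := by
        simp only [Finset.sum_mul, Finset.mul_sum]
        congr 1
        rw [Finset.sum_comm]
    _ ≤ 2 * S ^ 2 + 2 * C * ((G / (G - 1) * G ^ l) * (G / (G - 1) * G ^ l))
          * (S * S) ^ (1 / 2 + ε) := by
        gcongr
    _ = 2 * S ^ 2 + 2 * C * (G / (G - 1)) ^ 2 * (G ^ (2 * l) * (S * S) ^ (1 / 2 + ε)) := by
        rw [two_mul l, pow_add]; ring
    _ ≤ _ := by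
        have h1 : 0 ≤ 2 * C * (G / (G - 1)) ^ 2 := by positivity
        have h2 : 0 ≤ G ^ (2 * l) * (S * S) ^ (1 / 2 + ε) := by positivity
        nlinarith [mul_nonneg h1 (sq_nonneg S)]

open Classical in
/-- The band of `δ`: `2^{-(l+1)} < δ(q) ≤ 2^{-l}`. -/
def bandOf (δ : ℕ → ℝ) (q : ℕ) : ℕ :=
  if h : ∃ l : ℕ, (1 / 2 : ℝ) ^ (l + 1) < δ q then Nat.find h else 0

lemma bandOf_spec {δ : ℕ → ℝ} {q : ℕ} (h : 0 < δ q) (h1 : δ q < 1) :
    (1 / 2 : ℝ) ^ (bandOf δ q + 1) < δ q ∧ δ q ≤ (1 / 2 : ℝ) ^ bandOf δ q := by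
  classical
  obtain ⟨n, hn⟩ := exists_pow_lt_of_lt_one h (by norm_num : (1 / 2 : ℝ) < 1)
  have hex : ∃ l : ℕ, (1 / 2 : ℝ) ^ (l + 1) < δ q :=
    ⟨n, lt_of_le_of_lt (pow_le_pow_of_le_one (by norm_num) (by norm_num) n.le_succ) hn⟩
  rw [bandOf, dif_pos hex]
  refine ⟨Nat.find_spec hex, ?_⟩
  rcases hc : Nat.find hex with _ | k
  · simpa using h1.le
  · exact not_lt.1 (Nat.find_min hex (show k < Nat.find hex by omega))

/-- Selection of a heavy band. -/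
lemma exists_band {η : ℝ} (hη : 0 < η) (δ : ℕ → ℝ) (hδ : ∀ q, 0 ≤ δ q) (hδ1 : ∀ q, δ q ≤ 1 / 2)
    (h : ¬ Summable fun q : ℕ => rho q * δ q ^ (1 + η)) (N : ℕ) :
    ∃ (l : ℕ) (F : Finset ℕ), (∀ q ∈ F, N ≤ q) ∧ (∀ q ∈ F, (1 / 2 : ℝ) ^ (l + 1) < δ q) ∧
      ((2 : ℝ) ^ (η / 2)) ^ l ≤ tot (msr δ) F := by
  classical
  by_contra hcon
  push Not at hcon
  apply h
  set G : ℝ := (2 : ℝ) ^ (-(η / 2)) with hG
  have hG0 : 0 < G := by positivity
  have hG1 : G < 1 := Real.rpow_lt_one_of_one_lt_of_neg (by norm_num) (by linarith)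
  set f := fun q : ℕ => rho q * δ q ^ (1 + η)
  have hf0 : ∀ q, 0 ≤ f q := fun q => mul_nonneg (Gcd.rho_nonneg q) (Real.rpow_nonneg (hδ q) _)
  refine summable_of_sum_le (c := (∑ q ∈ range N, f q) + ∑' l : ℕ, G ^ l) hf0 fun u => ?_
  rw [← Finset.sum_filter_add_sum_filter_not u (fun q => q < N)]
  refine add_le_add ?_ ?_
  · exact Finset.sum_le_sum_of_subset_of_nonneg
      (fun q hq => Finset.mem_range.2 (Finset.mem_filter.1 hq).2) fun q _ _ => hf0 q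
  set V := u.filter (fun q => ¬ q < N)
  set L := bandOf δ
  calc ∑ q ∈ V, f q = ∑ q ∈ V.filter (fun q => 0 < δ q), f q := by
        refine (Finset.sum_subset (Finset.filter_subset _ _) fun q hq hq' => ?_).symm
        have : δ q = 0 := le_antisymm (not_lt.1 fun hp => hq' (Finset.mem_filter.2 ⟨hq, hp⟩)) (hδ q)
        simp [f, this, Real.zero_rpow (by linarith : (1 : ℝ) + η ≠ 0)]
    _ = ∑ l ∈ (V.filter (fun q => 0 < δ q)).image L,
          ∑ q ∈ V.filter (fun q => 0 < δ q) with L q = l, f q :=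
        (Finset.sum_fiberwise_of_maps_to (fun q hq => Finset.mem_image_of_mem L hq) f).symm
    _ ≤ ∑ l ∈ (V.filter (fun q => 0 < δ q)).image L, G ^ l := by
        refine Finset.sum_le_sum fun l _ => ?_
        set F := (V.filter (fun q => 0 < δ q)).filter (fun q => L q = l) with hF
        have hmem : ∀ q ∈ F, N ≤ q ∧ (1 / 2 : ℝ) ^ (l + 1) < δ q ∧ δ q ≤ (1 / 2 : ℝ) ^ l := by
          intro q hq
          obtain ⟨hq1, hql⟩ := Finset.mem_filter.1 hq
          obtain ⟨hq2, hpos⟩ := Finset.mem_filter.1 hq1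
          have hs := bandOf_spec hpos (lt_of_le_of_lt (hδ1 q) (by norm_num))
          rw [show bandOf δ q = l from hql] at hs
          exact ⟨not_lt.1 (Finset.mem_filter.1 hq2).2, hs⟩
        have hS : tot (msr δ) F < ((2 : ℝ) ^ (η / 2)) ^ l :=
          hcon l F (fun q hq => (hmem q hq).1) fun q hq => (hmem q hq).2.1
        have hp : ∀ q ∈ F, f q ≤ msr δ q * (((1 / 2 : ℝ) ^ l) ^ η) := by
          intro q hq
          simp only [f, msr]
          rw [Real.rpow_add' (hδ q) (by linarith), Real.rpow_one, ← mul_assoc]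
          exact mul_le_mul_of_nonneg_left (Real.rpow_le_rpow (hδ q) (hmem q hq).2.2 hη.le)
            (mul_nonneg (Gcd.rho_nonneg q) (hδ q))
        calc ∑ q ∈ F, f q ≤ ∑ q ∈ F, msr δ q * (((1 / 2 : ℝ) ^ l) ^ η) := Finset.sum_le_sum hp
          _ = tot (msr δ) F * (((1 / 2 : ℝ) ^ l) ^ η) := (Finset.sum_mul _ _ _).symm
          _ ≤ ((2 : ℝ) ^ (η / 2)) ^ l * (((1 / 2 : ℝ) ^ l) ^ η) :=
              mul_le_mul_of_nonneg_right hS.le (by positivity)
          _ = G ^ l := by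
              rw [← Real.rpow_natCast (1 / 2 : ℝ) l, ← Real.rpow_mul (by norm_num), mul_comm (l : ℝ) η,
                Real.rpow_mul (by norm_num), Real.rpow_natCast, ← mul_pow, hG]
              congr 1
              rw [one_div, Real.inv_rpow (by norm_num), ← Real.rpow_neg (by norm_num),
                ← Real.rpow_add (by norm_num)]
              ring_nf
    _ ≤ ∑' l : ℕ, G ^ l := (summable_geometric_of_lt_one hG0.le hG1).sum_le_tsum _
        fun l _ => by positivity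

/-- Full measure for arbitrary shifts when `∑ φ(q) ψ(q)^{1+η}/q` diverges. -/
theorem ae_infinite_extra_power (γ : ℕ → ℝ) (ψ : ℕ → ℝ) (hψ : ∀ q, 0 ≤ ψ q) (η : ℝ) (hη : 0 < η)
    (h : ¬ Summable fun q : ℕ => (Nat.totient q : ℝ) / q * ψ q ^ (1 + η)) :
    ∀ᵐ x : ℝ, {q : ℕ | 1 ≤ q ∧ ∃ a : ℤ, |(q : ℝ) * x - a - γ q| < ψ q}.Infinite := by
  by_cases hbig : {q : ℕ | 1 ≤ q ∧ 1/2 < ψ q}.Infinite
  · refine Filter.Eventually.of_forall fun x => hbig.mono ?_
    rintro q ⟨hq, hq2⟩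
    refine ⟨hq, round ((q : ℝ) * x - γ q), lt_of_le_of_lt ?_ hq2⟩
    have := abs_sub_round ((q : ℝ) * x - γ q)
    rw [show (q : ℝ) * x - (round ((q : ℝ) * x - γ q) : ℤ) - γ q
        = (q : ℝ) * x - γ q - (round ((q : ℝ) * x - γ q) : ℤ) by ring]
    exact this
  rw [Set.not_infinite] at hbig
  set δ : ℕ → ℝ := fun q => min (ψ q) (1/2) with hδdef
  have hδ : ∀ q, 0 ≤ δ q := fun q => le_min (hψ q) (by norm_num)
  have hδ1 : ∀ q, δ q ≤ 1 / 2 := fun q => min_le_right _ _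
  have hns : ¬ Summable fun q : ℕ => rho q * δ q ^ (1 + η) := by
    intro hs
    apply h
    obtain ⟨n, hn⟩ := hbig.bddAbove
    refine (summable_nat_add_iff (n + 1)).1 (((summable_nat_add_iff (n + 1)).2 hs).congr ?_)
    intro i
    have : ψ (i + (n + 1)) ≤ 1/2 := by
      by_contra hc
      have := hn (⟨by omega, not_le.1 hc⟩ : i + (n + 1) ∈ {q : ℕ | 1 ≤ q ∧ 1/2 < ψ q})
      omega
    simp only [hδdef, min_eq_left this, Gcd.rho]
  set ε := min (1 / 4 : ℝ) (η / 32) with hεdef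
  have hε : 0 < ε := lt_min (by norm_num) (by linarith)
  have hε' : ε ≤ 1 / 4 := min_le_left _ _
  have hε'' : ε ≤ η / 32 := min_le_right _ _
  obtain ⟨C, hC, hband⟩ := band_pairs hε hε'
  have hgood : GoodFamilies γ δ (fun q _ => rho q) := by
    refine ⟨48 * C * 2, fun N => ?_⟩
    obtain ⟨l, F, hFN, hFl, hFS⟩ := exists_band hη δ hδ hδ1 hns (max N 1)
    have hFpos : ∀ q ∈ F, 0 < q := fun q hq => by
      have := hFN q hq; simp only [max_le_iff] at this; omega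
    have hfam : fam δ F = tot (msr δ) F := rfl
    set S := tot (msr δ) F
    have hG : 1 ≤ (2 : ℝ) ^ (η / 2) := Real.one_le_rpow (by norm_num) (by linarith)
    have hS1 : 1 ≤ S := le_trans (one_le_pow₀ hG) hFS
    refine ⟨F, fun q hq => le_trans (le_max_left _ _) (hFN q hq), by rw [hfam]; linarith, ?_⟩
    have hov : ∀ q ∈ F, ∀ q' ∈ F, ovl (γ q) (γ q') (δ q) (δ q') (fun _ => rho q) (fun _ => rho q')
        q q' ≤ 48 * (msr δ q * msr δ q' *
          (1 + 1 / max ((quo q' q : ℝ) * δ q) ((quo q q' : ℝ) * δ q'))) := by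
      intro q hq q' hq'
      refine (ovl_const_le (γ q) (γ q') (δ q) (δ q') q q' (hFpos q hq) (hFpos q' hq')
        (lt_trans (by positivity) (hFl q hq)) (lt_trans (by positivity) (hFl q' hq'))).trans
        (le_of_eq ?_)
      simp only [msr]; ring
    refine (Finset.sum_le_sum fun q hq => Finset.sum_le_sum fun q' hq' => hov q hq q' hq').trans ?_
    simp only [← Finset.mul_sum, hfam]
    refine (mul_le_mul_of_nonneg_left (hband δ F l hδ (fun h0 => lt_irrefl 0 (hFpos 0 h0)) hFl)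
      (by norm_num : (0 : ℝ) ≤ 48)).trans ?_
    have hgain : ((2 : ℝ) ^ ε) ^ (2 * l) * (S * S) ^ (1 / 2 + ε) ≤ S ^ 2 := by
      have h1 : ((2 : ℝ) ^ ε) ^ (2 * l) ≤ S ^ (1 / 8 : ℝ) := by
        refine le_trans ?_ (Real.rpow_le_rpow (by positivity) hFS (by norm_num))
        rw [← Real.rpow_natCast, ← Real.rpow_natCast, ← Real.rpow_mul (by positivity),
          ← Real.rpow_mul (by positivity), ← Real.rpow_mul (by positivity)]
        refine Real.rpow_le_rpow_of_exponent_le (by norm_num) ?_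
        push_cast
        nlinarith [mul_le_mul_of_nonneg_right hε'' (Nat.cast_nonneg l : (0:ℝ) ≤ l)]
      refine (mul_le_mul_of_nonneg_right h1 (by positivity)).trans ?_
      rw [show S * S = S ^ (2 : ℝ) by rw [Real.rpow_two]; ring, ← Real.rpow_mul (by linarith),
        ← Real.rpow_add (by linarith), ← Real.rpow_natCast S 2]
      refine Real.rpow_le_rpow_of_exponent_le hS1 ?_
      push_cast
      have : ε ≤ 1 / 4 := hε'
      linarith
    nlinarith [mul_le_mul_of_nonneg_left hgain hC.le]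
  filter_upwards [ae_infinite_of_good γ δ (fun q _ => rho q) hδ hδ1
    (fun q _ => Gcd.rho_nonneg q) (equi_const γ) hgood] with x hx
  refine hx.mono ?_
  rintro q ⟨hq, a, ha⟩
  exact ⟨hq, a, lt_of_lt_of_le ha (min_le_left _ _)⟩

end

end Vale.Agent.P028.Sel
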