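import Vale.Agent.P028.Sel.GainLaw
import Vale.Agent.P028.Gcd.Plain

/-!
# The gain of hit pairs far from rationals
-/

open Finset

namespace Vale.Agent.P028.Sel

noncomputable section

open Gcd (msr tot mass quo wt rho Shape)

/-- A balanced hit pair `(v, w)` of level `δ` with `quo v w ≤ quo w v`, far from small rationals. -/
def Edge (γ θ δ : ℝ) (ψ : ℕ → ℝ) (m M : ℕ) (v w : ℕ) : Prop :=
  v ≠ w ∧ (1 / 2 : ℝ) ^ M ≤ ψ v ∧ ψ v ≤ (1 / 2 : ℝ) ^ m ∧ (quo w v : ℝ) * ψ v ≤ δ ∧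
    (quo v w : ℝ) * ψ w ≤ δ ∧ δ ^ (1 + θ) ≤ (quo w v : ℝ) * ψ v ∧ quo v w ≤ quo w v ∧
    NearInt (γ * ((quo w v : ℝ) - quo v w)) (2 * δ) ∧ Far γ θ δ (quo w v)

open Classical in
/-- The weighted indicator of edges. -/
def hitW (γ θ δ : ℝ) (ψ : ℕ → ℝ) (m M : ℕ) (v w : ℕ) : ℝ :=
  if Edge γ θ δ ψ m M v w ∧ wt (θ / 32) 2 (quo v w * quo w v) ≤ δ ^ (-θ) then
    wt (θ / 32) 2 (quo v w * quo w v) else 0

lemma hitW_nonneg (γ θ δ : ℝ) (ψ : ℕ → ℝ) (m M : ℕ) (v w : ℕ) : 0 ≤ hitW γ θ δ ψ m M v w := by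
  unfold hitW; split_ifs
  · exact Gcd.wt_nonneg (by norm_num) _
  · exact le_rfl

/-- One side of the two anchors. -/
lemma side_le (S : Shape) (V : Finset ℕ) (ψ : ℕ → ℝ) (δ c : ℝ) (hδ : 0 ≤ δ) (hc : 0 < c)
    (hV : ∀ v ∈ V, S.Mem v) (h : ∀ v ∈ V, c * (S.down v : ℝ) * ψ v ≤ δ) :
    ∑ v ∈ V, msr ψ v ≤ δ / c * ∑ v ∈ V, law S.A (S.down v) := by
  rw [mul_sum]
  refine sum_le_sum fun v hv => ?_
  have hs : (0 : ℝ) < S.down v := by exact_mod_cast S.down_pos v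
  have h1 : ψ v ≤ δ / (c * S.down v) := by
    rw [le_div_iff₀ (mul_pos hc hs), mul_comm]; exact h v hv
  calc msr ψ v ≤ rho v * (δ / (c * S.down v)) := mul_le_mul_of_nonneg_left h1 (Gcd.rho_nonneg v)
    _ = δ / c * (rho v / S.down v) := by field_simp
    _ ≤ _ := mul_le_mul_of_nonneg_left (S.rho_div_le (hV v hv)) (div_nonneg hδ hc.le)

/-- Grouping by the defect. -/
lemma sum_down_le (S : Shape) (V : Finset ℕ) (hV : ∀ v ∈ V, S.Mem v) (N : ℕ → ℝ)
    (hN : ∀ s ∈ V.image S.down,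
      (((V.filter fun v => S.down v = s).image S.up).card : ℝ) ≤ N s) :
    ∑ v ∈ V, law S.A (S.down v) ≤ ∑ s ∈ V.image S.down, law S.A s * N s := by
  rw [← sum_fiberwise_of_maps_to (t := V.image S.down) fun v hv => mem_image_of_mem _ hv]
  refine sum_le_sum fun s hs => ?_
  rw [sum_congr rfl (g := fun _ => law S.A s) fun v hv => by rw [(mem_filter.1 hv).2], sum_const,
    nsmul_eq_mul, mul_comm]
  refine mul_le_mul_of_nonneg_left (le_trans ?_ (hN s hs)) (law_nonneg _ _)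
  rw [card_image_of_injOn fun a ha b hb h => S.pair_inj (hV a (mem_filter.1 ha).1)
    (hV b (mem_filter.1 hb).1) ((mem_filter.1 ha).2.trans (mem_filter.1 hb).2.symm) h]

lemma card_le_of_le (T : Finset ℕ) (x : ℝ) (hx : 0 ≤ x) (h : ∀ n ∈ T, 1 ≤ n ∧ (n : ℝ) ≤ x) :
    (T.card : ℝ) ≤ x := by
  refine le_trans ?_ (Nat.floor_le hx)
  have : T ⊆ Icc 1 ⌊x⌋₊ := fun n hn => mem_Icc.2 ⟨(h n hn).1, Nat.le_floor (h n hn).2⟩
  exact_mod_cast (card_le_card this).trans_eq (by simp)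

lemma divisors_down (S : Shape) (V : Finset ℕ) : V.image S.down ⊆ S.A.divisors := fun s hs => by
  obtain ⟨v, -, rfl⟩ := mem_image.1 hs
  exact Nat.mem_divisors.2 ⟨S.down_dvd v, S.A_pos.ne'⟩

lemma rpow_neg_half {x b : ℝ} (hx : 1 ≤ x) (hb : 0 ≤ b) :
    b ^ 2 / x ≤ b ^ 2 * x ^ (-(1 / 2) : ℝ) := by
  rw [div_eq_mul_inv, ← Real.rpow_neg_one x]
  exact mul_le_mul_of_nonneg_left
    (Real.rpow_le_rpow_of_exponent_le hx (by norm_num)) (sq_nonneg b)

/-- The two anchors. -/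
lemma anchors (θ : ℝ) (hθ : 0 < θ) : ∃ C : ℝ, ∃ L₀ : ℕ, 0 < C ∧
    ∀ (δ γ : ℝ) (ψ : ℕ → ℝ) (m M : ℕ), Small θ δ → L₀ ≤ m → m ≤ M → M ≤ m ^ 2 →
      Bands θ δ m M → ∀ (S : Shape) (V W : Finset ℕ), V.Nonempty → W.Nonempty →
      (∀ v ∈ V, S.Mem v) → (∀ w ∈ W, S.swap.Mem w) →
      ∀ R : ℕ → ℕ → Prop, (∀ v ∈ V, ∀ w ∈ W, R v w → Edge γ θ δ ψ m M v w ∧
        quo v w = S.A' * S.up v * S.down w ∧ quo w v = S.B' * S.up w * S.down v) →
      ∃ v0 ∈ V, ∃ w0 ∈ W, ∀ (Ev Ew : Finset ℕ), Ev ⊆ V → Ew ⊆ W →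
        (∀ v ∈ Ev, R v w0) → (∀ w ∈ Ew, R v0 w) →
        (∀ q, 0 ≤ ψ q) →
        (∑ w ∈ Ew, msr ψ w) * (∑ v ∈ Ev, msr ψ v) ≤
          C * δ ^ (2 + 32 * θ) * ((S.A' : ℝ) * S.B') ^ (-(1 / 2) : ℝ) := by
  classical
  obtain ⟨Kb, Lb, hKb, hbadlaw⟩ := bad_law θ hθ
  obtain ⟨Kh, Lh, hKh, hhitlaw⟩ := hit_law θ hθ
  obtain ⟨Kc, hKc, hcount⟩ := count_upto
  refine ⟨1 + Kh + (Kc + 1) * (1 + Kb), max Lb Lh, by positivity, ?_⟩
  intro δ γ ψ m M h hm hmM hM2 hbands S V W hVne hWne hSV hSW R hR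
  have hθ' := h.hθ'
  have hδ := h.hδ
  have hLb : Lb ≤ m := le_trans (le_max_left _ _) hm
  have hLh : Lh ≤ m := le_trans (le_max_right _ _) hm
  set C := 1 + Kh + (Kc + 1) * (1 + Kb)
  have hC1 : 1 ≤ C := by
    have : 0 ≤ (Kc + 1) * (1 + Kb) := by positivity
    simp only [C]; linarith
  have hA1 : (1 : ℝ) ≤ S.A' := by exact_mod_cast S.A'_pos
  have hB1 : (1 : ℝ) ≤ S.B' := by exact_mod_cast S.B'_pos
  have hAB : (1 : ℝ) ≤ (S.A' : ℝ) * S.B' := by nlinarith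
  have hswap : ∀ w, S.swap.down w = S.down w := S.swap_down
  obtain ⟨w0, hw0, hw0max⟩ := exists_max_image W (fun w => S.up w) hWne
  set n0 := S.up w0 with hn0
  have hn0p : 0 < n0 := S.up_pos w0
  have hn0R : (1 : ℝ) ≤ n0 := by exact_mod_cast hn0p
  -- the two sides for given anchors
  have hW : ∀ v0 ∈ V, ∀ Ew ⊆ W, (∀ w ∈ Ew, R v0 w) →
      ∑ w ∈ Ew, msr ψ w ≤
        δ / ((S.A' : ℝ) * S.up v0) * ∑ w ∈ Ew, law S.swap.A (S.swap.down w) := by
    intro v0 hv0 Ew hEw hE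
    refine side_le S.swap Ew ψ δ _ hδ.le
      (by have := S.up_pos v0; positivity) (fun w hw => hSW w (hEw hw)) fun w hw => ?_
    obtain ⟨hE', e1, -⟩ := hR v0 hv0 w (hEw hw) (hE w hw)
    have h1 := hE'.2.2.2.2.1
    rw [e1] at h1
    push_cast at h1
    rw [hswap]; exact h1
  have hV : ∀ Ev ⊆ V, (∀ v ∈ Ev, R v w0) →
      ∑ v ∈ Ev, msr ψ v ≤ δ / ((S.B' : ℝ) * n0) * ∑ v ∈ Ev, law S.A (S.down v) := by
    intro Ev hEv hE
    refine side_le S Ev ψ δ _ hδ.le (by positivity) (fun v hv => hSV v (hEv hv)) fun v hv => ?_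
    obtain ⟨hE', -, e2⟩ := hR v (hEv hv) w0 hw0 (hE v hv)
    have h1 := hE'.2.2.2.1
    rw [e2] at h1
    push_cast at h1
    exact h1
  have hrange : ∀ v ∈ V, R v w0 →
      δ ^ (1 + θ) * 2 ^ m ≤ (S.B' : ℝ) * n0 * (S.down v : ℕ) ∧
      (S.B' : ℝ) * n0 * (S.down v : ℕ) ≤ 2 ^ M ∧
      Far γ θ δ ((S.B' : ℝ) * n0 * (S.down v : ℕ)) := by
    intro v hv hE
    obtain ⟨⟨-, hlo, hhi, hy, -, hbal, -, -, hf⟩, -, e2⟩ := hR v hv w0 hw0 hE
    have e : (quo w0 v : ℝ) = (S.B' : ℝ) * n0 * (S.down v : ℕ) := by rw [e2]; push_cast; ring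
    rw [e] at hy hbal hf
    set y := (S.B' : ℝ) * n0 * (S.down v : ℕ)
    have hy0 : 0 ≤ y := by positivity
    have hψ0 : 0 < ψ v := lt_of_lt_of_le (by positivity) hlo
    have hm2 : (1 / 2 : ℝ) ^ m * 2 ^ m = 1 := by rw [← mul_pow]; norm_num
    have hM2' : (1 / 2 : ℝ) ^ M * 2 ^ M = 1 := by rw [← mul_pow]; norm_num
    refine ⟨?_, ?_, hf⟩
    · calc δ ^ (1 + θ) * 2 ^ m ≤ y * ψ v * 2 ^ m := mul_le_mul_of_nonneg_right hbal (by positivity)
        _ ≤ y * (1 / 2) ^ m * 2 ^ m := by gcongr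
        _ = y := by rw [mul_assoc, hm2, mul_one]
    · calc y = y * (1 / 2) ^ M * 2 ^ M := by rw [mul_assoc, hM2', mul_one]
        _ ≤ y * ψ v * 2 ^ M := by gcongr
        _ ≤ δ * 2 ^ M := mul_le_mul_of_nonneg_right hy (by positivity)
        _ ≤ 2 ^ M := mul_le_of_le_one_left (by positivity) h.lt_one.le
  -- counting `up` on the `W` side by the maximum
  have hWtriv : ∀ Ew ⊆ W, ∑ w ∈ Ew, law S.swap.A (S.swap.down w) ≤ n0 := by
    intro Ew hEw
    refine (sum_down_le S.swap Ew (fun w hw => hSW w (hEw hw)) (fun _ => (n0 : ℝ))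
      fun t _ => card_le_of_le _ _ (Nat.cast_nonneg _) fun n hn => ?_).trans ?_
    · obtain ⟨w, hw, rfl⟩ := mem_image.1 hn
      rw [S.swap_up]
      exact ⟨S.up_pos w, by exact_mod_cast hw0max w (hEw (mem_filter.1 hw).1)⟩
    · rw [← sum_mul]
      exact mul_le_of_le_one_left (Nat.cast_nonneg _)
        (sum_law_le S.swap.A_pos _ (divisors_down _ _))
  have hpos : ∀ (T : Finset ℕ), (∀ q, 0 ≤ ψ q) → 0 ≤ ∑ v ∈ T, msr ψ v :=
    fun T hψ => sum_nonneg fun v _ => Gcd.msr_nonneg hψ v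
  have hhalf : δ ^ (2 + 32 * θ) = δ ^ 2 * δ ^ (32 * θ) := by
    rw [Real.rpow_add hδ]; norm_num
  rcases le_or_gt (δ ^ (-(64 * θ))) ((S.A' : ℝ) * S.B') with hbig | hsmall
  · obtain ⟨v0, hv0, hv0max⟩ := exists_max_image V (fun v => S.up v) hVne
    refine ⟨v0, hv0, w0, hw0, fun Ev Ew hEv hEw hE1 hE2 hψ => ?_⟩
    set m0 := S.up v0
    have hm0R : (1 : ℝ) ≤ m0 := by exact_mod_cast S.up_pos v0
    have hsum : ∑ v ∈ Ev, law S.A (S.down v) ≤ (m0 : ℝ) := by
      refine (sum_down_le S Ev (fun v hv => hSV v (hEv hv)) (fun _ => (m0 : ℝ))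
        fun s _ => card_le_of_le _ _ (Nat.cast_nonneg _) fun k hk => ?_).trans ?_
      · obtain ⟨v, hv, rfl⟩ := mem_image.1 hk
        exact ⟨S.up_pos v, by exact_mod_cast hv0max v (hEv (mem_filter.1 hv).1)⟩
      · rw [← sum_mul]
        exact mul_le_of_le_one_left (Nat.cast_nonneg _) (sum_law_le S.A_pos _ (divisors_down _ _))
    refine (mul_le_mul ((hW v0 hv0 Ew hEw hE2).trans
      (mul_le_mul_of_nonneg_left (hWtriv Ew hEw) (by positivity)))
      ((hV Ev hEv hE1).trans (mul_le_mul_of_nonneg_left hsum (by positivity)))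
      (hpos _ hψ) (by positivity)).trans ?_
    calc δ / ((S.A' : ℝ) * m0) * n0 * (δ / ((S.B' : ℝ) * n0) * m0)
        = δ ^ 2 * (1 / ((S.A' : ℝ) * S.B') ^ (1 / 2 : ℝ)) *
            ((S.A' : ℝ) * S.B') ^ (-(1 / 2) : ℝ) := by
          rw [Real.rpow_neg (by positivity)]
          have : ((S.A' : ℝ) * S.B') ^ (1 / 2 : ℝ) * ((S.A' : ℝ) * S.B') ^ (1 / 2 : ℝ) =
              (S.A' : ℝ) * S.B' := by rw [← Real.rpow_add (by positivity)]; norm_num
          field_simp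
          linear_combination this
      _ ≤ δ ^ 2 * δ ^ (32 * θ) * ((S.A' : ℝ) * S.B') ^ (-(1 / 2) : ℝ) := by
          gcongr
          rw [one_div, inv_le_comm₀ (by positivity) (by positivity)]
          refine le_trans (le_of_eq ?_) (Real.rpow_le_rpow (by positivity) hbig (by norm_num))
          rw [← Real.rpow_mul hδ.le, ← Real.rpow_neg hδ.le]; ring_nf
      _ = δ ^ (2 + 32 * θ) * ((S.A' : ℝ) * S.B') ^ (-(1 / 2) : ℝ) := by rw [hhalf]
      _ ≤ _ := by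
          rw [mul_assoc C]
          exact le_mul_of_one_le_left (by positivity) hC1
  have hB' : (S.B' : ℝ) ≤ δ ^ (-(64 * θ)) := le_trans (by nlinarith) hsmall.le
  set f0 := δ ^ (32 * θ) with hf0
  have hf0p : 0 < f0 := Real.rpow_pos_of_pos hδ _
  have hf01 : f0 ≤ 1 := Real.rpow_le_one hδ.le h.lt_one.le (by positivity)
  set F := fun s : ℕ => if Bad γ θ δ S.B' n0 s then (1 : ℝ) else f0 with hF
  have hFp : ∀ s, 0 < F s := fun s => by simp only [hF]; split_ifs <;> linarith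
  have hFlow : ∀ s, f0 ≤ F s := fun s => by simp only [hF]; split_ifs <;> linarith
  have hFup : ∀ s, F s ≤ 1 := fun s => by simp only [hF]; split_ifs <;> linarith
  obtain ⟨v0, hv0, hv0max⟩ := exists_max_image V (fun v => (S.up v : ℝ) / F (S.down v)) hVne
  refine ⟨v0, hv0, w0, hw0, fun Ev Ew hEv hEw hE1 hE2 hψ => ?_⟩
  set m0 := S.up v0
  set F0 := F (S.down v0) with hF0
  have hm0R : (1 : ℝ) ≤ m0 := by exact_mod_cast S.up_pos v0
  have hF0p : 0 < F0 := hFp _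
  have hup : ∀ v ∈ V, (S.up v : ℝ) ≤ (m0 : ℝ) / F0 * F (S.down v) := fun v hv =>
    (div_le_iff₀ (hFp _)).1 (hv0max v hv)
  rcases le_or_gt (δ ^ (-(5000 * θ))) (n0 : ℝ) with hnbig | hnsmall
  · -- many `n`
    set T := Ev.image S.down
    have hTlaw : ∑ s ∈ T, law S.A s * F s ≤ f0 + Kb * f0 := by
      have hpt : ∀ s ∈ T, law S.A s * F s ≤
          f0 * law S.A s + if Bad γ θ δ S.B' n0 s then law S.A s else 0 := by
        intro s _
        simp only [hF]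
        split_ifs with hb
        · rw [mul_one]
          have : 0 ≤ f0 * law S.A s := mul_nonneg hf0p.le (law_nonneg _ _)
          linarith
        · rw [add_zero, mul_comm]
      refine (sum_le_sum hpt).trans ?_
      rw [sum_add_distrib, ← mul_sum, ← sum_filter]
      refine add_le_add (mul_le_of_le_one_right hf0p.le
        (sum_law_le S.A_pos _ (divisors_down _ _))) ?_
      refine hbadlaw δ γ m M h hLb hmM hM2 hbands S.A S.A_pos _
        ((filter_subset _ _).trans (divisors_down _ _)) S.B' n0 S.B'_pos hn0p hB' ?_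
        fun s hs => (mem_filter.1 hs).2
      intro s hs
      obtain ⟨v, hv, rfl⟩ := mem_image.1 (mem_filter.1 hs).1
      exact hrange v (hEv hv) (hE1 v hv)
    have hsum : ∑ v ∈ Ev, law S.A (S.down v) ≤ (m0 : ℝ) / F0 * ((1 + Kb) * f0) := by
      refine (sum_down_le S Ev (fun v hv => hSV v (hEv hv)) (fun s => (m0 : ℝ) / F0 * F s)
        fun s _ => card_le_of_le _ _ (mul_nonneg (by positivity) (hFp s).le) fun k hk => ?_).trans ?_
      · obtain ⟨v, hv, rfl⟩ := mem_image.1 hk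
        obtain ⟨hvE, rfl⟩ := mem_filter.1 hv
        exact ⟨S.up_pos v, hup v (hEv hvE)⟩
      · rw [sum_congr rfl (g := fun s => (m0 : ℝ) / F0 * (law S.A s * F s)) fun s _ => by ring,
          ← mul_sum]
        exact mul_le_mul_of_nonneg_left (hTlaw.trans (le_of_eq (by ring))) (by positivity)
    have hWsum : ∑ w ∈ Ew, law S.swap.A (S.swap.down w) ≤ (Kc + 1) * F0 * n0 := by
      refine (sum_down_le S.swap Ew (fun w hw => hSW w (hEw hw)) (fun _ => (Kc + 1) * F0 * n0)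
        fun t _ => ?_).trans ?_
      swap
      · rw [← sum_mul]
        exact mul_le_of_le_one_left (by positivity) (sum_law_le S.swap.A_pos _ (divisors_down _ _))
      set T' := (Ew.filter fun w => S.swap.down w = t).image S.swap.up
      have hT' : ∀ n ∈ T', (1 ≤ n ∧ n ≤ n0) ∧ NearInt (γ * S.B' * S.down v0 * (n : ℕ) -
          γ * ((S.A' : ℝ) * m0 * t)) (2 * δ) := by
        intro n hn
        obtain ⟨w, hw, rfl⟩ := mem_image.1 hn
        obtain ⟨hwE, hwt⟩ := mem_filter.1 hw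
        rw [hswap] at hwt
        rw [S.swap_up]
        refine ⟨⟨S.up_pos w, hw0max w (hEw hwE)⟩, ?_⟩
        obtain ⟨hE, e1, e2⟩ := hR v0 hv0 w (hEw hwE) (hE2 w hwE)
        obtain ⟨k, hk⟩ := hE.2.2.2.2.2.2.2.1
        refine ⟨k, ?_⟩
        rw [e1, e2, hwt] at hk
        push_cast at hk
        convert hk using 2
        ring
      by_cases hbad : Bad γ θ δ S.B' n0 (S.down v0)
      · have hF1 : F0 = 1 := by simp only [hF0, hF, hbad, if_true]
        rw [hF1, mul_one]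
        refine le_trans (card_le_of_le T' n0 (Nat.cast_nonneg _) fun n hn =>
          ⟨(hT' n hn).1.1, by exact_mod_cast (hT' n hn).1.2⟩) ?_
        exact le_mul_of_one_le_left (Nat.cast_nonneg _) (by linarith)
      have hF1 : F0 = f0 := by simp only [hF0, hF, hbad, if_false]
      set g := δ ^ (512 * θ) with hgdef
      have eG : g ^ (1 / 16 : ℝ) = f0 := by
        rw [hgdef, hf0, ← Real.rpow_mul hδ.le]; ring_nf
      have hw2 : 2 * δ ≤ g ^ (1 / 2 : ℝ) := by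
        have h1 := h.absorb (c := 2) (a := 1) (b := 256 * θ) (by norm_num) (by linarith)
        rw [Real.rpow_one] at h1
        rw [hgdef, ← Real.rpow_mul hδ.le]
        exact h1.trans (le_of_eq (by ring_nf))
      have hn8 : g ^ (-8 : ℝ) ≤ g ^ (1 / 16 : ℝ) * n0 := by
        rw [eG, hgdef, ← Real.rpow_mul hδ.le]
        refine le_trans ?_ (mul_le_mul_of_nonneg_left hnbig hf0p.le)
        rw [hf0, h.mul_pow]
        exact h.mono (by linarith)
      refine (hcount T' n0 (γ * S.B' * S.down v0) (γ * ((S.A' : ℝ) * m0 * t)) (2 * δ) g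
        (Real.rpow_pos_of_pos hδ _) (Real.rpow_le_one hδ.le h.lt_one.le (by positivity))
        (by positivity) hw2 hn8 (fun n hn => (hT' n hn).1) (fun n hn => (hT' n hn).2) ?_).trans ?_
      · intro q hq hqg a
        have hqle : (q : ℝ) ≤ δ ^ (-(64 * θ)) := by
          refine hqg.trans (le_of_eq ?_)
          rw [hgdef, ← Real.rpow_mul hδ.le]; ring_nf
        have hgood : δ ^ (1 - 400 * θ) / n0 ≤ |(q : ℝ) * (γ * S.B' * S.down v0) - a| := by
          rw [show (q : ℝ) * (γ * S.B' * S.down v0) = (q : ℝ) * S.B' * S.down v0 * γ by ring]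
          exact not_lt.1 fun hlt => hbad ⟨q, hq, hqle, a, hlt⟩
        rw [eG]
        have hqR : (0 : ℝ) < q := by exact_mod_cast hq
        refine le_trans ?_ (mul_le_mul hgood (le_refl _) (by positivity) (abs_nonneg _))
        rw [show g ^ (-(1 / 2) : ℝ) = δ ^ (-(256 * θ)) by
            rw [hgdef, ← Real.rpow_mul hδ.le]; ring_nf,
          show δ ^ (1 - 400 * θ) / n0 * (f0 * n0 / q) = δ ^ (1 - 400 * θ) * f0 / q by field_simp,
          le_div_iff₀ hqR]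
        refine (mul_le_mul_of_nonneg_left hqle (by positivity)).trans ?_
        calc 2 * δ * δ ^ (-(256 * θ)) * δ ^ (-(64 * θ)) = 2 * δ ^ (1 - 320 * θ) := by
              rw [mul_assoc 2, mul_assoc 2, show δ * δ ^ (-(256 * θ)) * δ ^ (-(64 * θ)) =
                δ ^ (1 : ℝ) * δ ^ (-(256 * θ)) * δ ^ (-(64 * θ)) by rw [Real.rpow_one],
                h.mul_pow, h.mul_pow]
              ring_nf
          _ ≤ _ := by rw [hf0, h.mul_pow]; exact h.absorb (by norm_num) (by linarith)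
      · rw [eG, hF1]
        gcongr
        linarith
    refine (mul_le_mul ((hW v0 hv0 Ew hEw hE2).trans
      (mul_le_mul_of_nonneg_left hWsum (by positivity)))
      ((hV Ev hEv hE1).trans (mul_le_mul_of_nonneg_left hsum (by positivity)))
      (hpos _ hψ) (by positivity)).trans ?_
    calc δ / ((S.A' : ℝ) * m0) * ((Kc + 1) * F0 * n0) *
          (δ / ((S.B' : ℝ) * n0) * ((m0 : ℝ) / F0 * ((1 + Kb) * f0)))
        = (Kc + 1) * (1 + Kb) * f0 * (δ ^ 2 / ((S.A' : ℝ) * S.B')) := by field_simp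
      _ ≤ C * f0 * (δ ^ 2 * ((S.A' : ℝ) * S.B') ^ (-(1 / 2) : ℝ)) := by
          refine mul_le_mul (mul_le_mul_of_nonneg_right ?_ hf0p.le)
            (rpow_neg_half hAB hδ.le) (by positivity) (by positivity)
          simp only [C]; linarith
      _ = _ := by rw [hhalf]; ring
  -- few `n`
  set Mx := ⌊(m0 : ℝ) / F0⌋₊
  have hν : ((S.B' * n0 : ℕ) : ℝ) ≤ δ ^ (-(5064 * θ)) := by
    push_cast
    refine (mul_le_mul hB' hnsmall.le (Nat.cast_nonneg _) (by positivity)).trans (le_of_eq ?_)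
    rw [h.mul_pow]; ring_nf
  have hsum : ∑ v ∈ Ev, law S.A (S.down v) ≤ (m0 : ℝ) / F0 * (Kh * δ ^ (104 * θ)) := by
    have hmaps : ∀ v ∈ Ev, S.up v ∈ Icc 1 Mx := fun v hv => mem_Icc.2 ⟨S.up_pos v,
      Nat.le_floor ((hup v (hEv hv)).trans (mul_le_of_le_one_right (by positivity) (hFup _)))⟩
    rw [← sum_fiberwise_of_maps_to hmaps]
    have hper : ∀ k ∈ Icc 1 Mx,
        ∑ v ∈ Ev.filter (fun v => S.up v = k), law S.A (S.down v) ≤ Kh * δ ^ (104 * θ) := by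
      intro k _
      set Vk := Ev.filter fun v => S.up v = k
      rw [← sum_image (f := fun s => law S.A s) (g := S.down) fun a ha b hb he => S.pair_inj
        (hSV a (hEv (mem_filter.1 ha).1)) (hSV b (hEv (mem_filter.1 hb).1)) he
        ((mem_filter.1 ha).2.trans (mem_filter.1 hb).2.symm)]
      refine hhitlaw δ γ m M h hLh hmM hM2 hbands S.A S.A_pos _ (divisors_down _ _) (S.B' * n0)
        (γ * ((S.A' : ℝ) * k * S.down w0)) (Nat.mul_pos S.B'_pos hn0p) hν ?_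
      intro s hs
      obtain ⟨v, hv, rfl⟩ := mem_image.1 hs
      obtain ⟨hvE, hvk⟩ := mem_filter.1 hv
      obtain ⟨r1, r2, r3⟩ := hrange v (hEv hvE) (hE1 v hvE)
      obtain ⟨hE, e1, e2⟩ := hR v (hEv hvE) w0 hw0 (hE1 v hvE)
      have hne : quo v w0 ≠ quo w0 v := by
        intro he
        refine hE.1 ?_
        have h1 := Nat.div_mul_cancel (Nat.gcd_dvd_left v w0)
        have h2 := Nat.div_mul_cancel (Nat.gcd_dvd_left w0 v)
        rw [Nat.gcd_comm w0 v] at h2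
        unfold quo at he
        rw [Nat.gcd_comm w0 v] at he
        rw [← h1, he, h2]
      obtain ⟨q, hq⟩ := hE.2.2.2.2.2.2.2.1
      refine ⟨?_, ?_, ?_, ⟨q, ?_⟩, quo v w0, ?_, ⟨q, ?_⟩⟩
      · push_cast; exact r1
      · push_cast; exact r2
      · push_cast; exact r3
      · rw [e1, e2, hvk] at hq
        push_cast at hq ⊢
        convert hq using 2
        ring
      · refine lt_of_lt_of_le (lt_of_le_of_ne hE.2.2.2.2.2.2.1 hne) (le_of_eq e2)
      · rw [e2] at hq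
        push_cast at hq ⊢
        exact hq
    refine (sum_le_sum hper).trans ?_
    rw [sum_const, nsmul_eq_mul, Nat.card_Icc, Nat.add_sub_cancel]
    exact mul_le_mul_of_nonneg_right (Nat.floor_le (by positivity)) (by positivity)
  refine (mul_le_mul ((hW v0 hv0 Ew hEw hE2).trans
    (mul_le_mul_of_nonneg_left (hWtriv Ew hEw) (by positivity)))
    ((hV Ev hEv hE1).trans (mul_le_mul_of_nonneg_left hsum (by positivity)))
    (hpos _ hψ) (by positivity)).trans ?_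
  calc δ / ((S.A' : ℝ) * m0) * n0 * (δ / ((S.B' : ℝ) * n0) * ((m0 : ℝ) / F0 * (Kh * δ ^ (104 * θ))))
      = Kh * (δ ^ (104 * θ) / F0) * (δ ^ 2 / ((S.A' : ℝ) * S.B')) := by field_simp
    _ ≤ C * f0 * (δ ^ 2 * ((S.A' : ℝ) * S.B') ^ (-(1 / 2) : ℝ)) := by
        refine mul_le_mul (mul_le_mul ?_ ?_ (by positivity) (by positivity))
          (rpow_neg_half hAB hδ.le) (by positivity) (by positivity)
        · have : 0 ≤ (Kc + 1) * (1 + Kb) := by positivity
          simp only [C]; linarith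
        · rw [div_le_iff₀ hF0p]
          refine le_trans ?_ (mul_le_mul_of_nonneg_left (hFlow _) hf0p.le)
          rw [hf0, h.mul_pow]
          exact h.mono (by linarith)
    _ = _ := by rw [hhalf]; ring

/-- The gain theorem. -/
theorem gain (θ : ℝ) (hθ : 0 < θ) (hθ' : θ ≤ 1 / 1000000) : ∃ C : ℝ, ∃ L₀ : ℕ, 0 < C ∧
    ∀ (δ γ : ℝ) (ψ : ℕ → ℝ) (m M : ℕ), (∀ q, 0 ≤ ψ q) → 0 < δ → δ ^ θ ≤ 1 / 8 → L₀ ≤ m →
      m ≤ M → M ≤ m ^ 2 → Bands θ δ m M → ∀ V W : Finset ℕ, 0 ∉ V → 0 ∉ W →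
      mass (msr ψ) (msr ψ) (hitW γ θ δ ψ m M) V W ≤
        C * δ ^ (1 + θ) * (tot (msr ψ) V * tot (msr ψ) W) ^ (1 / 2 + θ / 16) := by
  classical
  obtain ⟨Ca, L₀, hCa, hanch⟩ := anchors θ hθ
  set ε := θ / 16 with hε
  have hε0 : 0 < ε := by rw [hε]; positivity
  have hε4 : ε ≤ 1 / 4 := by rw [hε]; linarith
  obtain ⟨Cm, hCm, hmaster⟩ := Gcd.master hε0 hε4
  set Z := 2 * Ca ^ (1 / 2 - ε) with hZ
  refine ⟨Cm * Z, L₀, by positivity, ?_⟩
  intro δ γ ψ m M hψ hδ hδ' hm hmM hM2 hbands V W hV hW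
  have h : Small θ δ := ⟨hθ, hθ', hδ, hδ'⟩
  set q := 1 / (1 - 2 * ε) with hq
  have hq0 : 0 < q := by rw [hq]; exact div_pos one_pos (by linarith)
  have hq2 : q ≤ 2 := by rw [hq, div_le_iff₀ (by linarith)]; linarith
  have key : Gcd.BaseBound ε (Z * δ ^ (1 + θ)) (msr ψ) (msr ψ) (hitW γ θ δ ψ m M) := by
    intro S V W u hSV hSW hfr hu hub rV rW
    set V1 := V.filter fun v => 0 < msr ψ v
    set W1 := W.filter fun w => 0 < msr ψ w
    have hrhs : 0 ≤ Z * δ ^ (1 + θ) * ((S.A' : ℝ) * S.B') ^ (-((1 / 2 - ε) / 2)) *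
        (tot (msr ψ) V * tot (msr ψ) W) ^ (1 / 2 + ε) := by
      have := Gcd.tot_nonneg (Gcd.msr_nonneg hψ) V
      have := Gcd.tot_nonneg (Gcd.msr_nonneg hψ) W
      positivity
    by_cases hm0 : mass (msr ψ) (msr ψ) u V W = 0
    · rw [hm0]; exact hrhs
    have hVne : V1.Nonempty := by
      by_contra hne
      refine hm0 (sum_eq_zero fun v hv => sum_eq_zero fun w _ => ?_)
      have : msr ψ v = 0 := le_antisymm (not_lt.1 fun hp => hne ⟨v, mem_filter.2 ⟨hv, hp⟩⟩)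
        (Gcd.msr_nonneg hψ v)
      rw [this, zero_mul, zero_mul]
    have hWne : W1.Nonempty := by
      by_contra hne
      refine hm0 (sum_eq_zero fun v _ => sum_eq_zero fun w hw => ?_)
      have : msr ψ w = 0 := le_antisymm (not_lt.1 fun hp => hne ⟨w, mem_filter.2 ⟨hw, hp⟩⟩)
        (Gcd.msr_nonneg hψ w)
      rw [this, mul_zero, zero_mul]
    have hedge : ∀ v ∈ V, ∀ w ∈ W, u v w ≠ 0 →
        Edge γ θ δ ψ m M v w ∧ u v w ^ q ≤ δ ^ (-(4 * θ)) := by
      intro v hv w hw hu0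
      have h1 := hub v hv w hw
      unfold hitW at h1
      split_ifs at h1 with hc
      · refine ⟨hc.1, ?_⟩
        set xy := quo v w * quo w v
        have h2 : u v w ≤ δ ^ (-θ) * δ ^ (-θ) := by
          refine h1.trans (mul_le_mul hc.2 (le_trans ?_ hc.2) (Gcd.wt_nonneg zero_le_one _)
            (by positivity))
          rw [show ε / 2 = θ / 32 by rw [hε]; ring]
          exact Gcd.wt_mono zero_le_one (by norm_num) _
        rw [h.mul_pow] at h2
        calc u v w ^ q ≤ (δ ^ (-θ + -θ)) ^ q := Real.rpow_le_rpow (hu v w) h2 hq0.le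
          _ ≤ (δ ^ (-θ + -θ)) ^ (2 : ℝ) := Real.rpow_le_rpow_of_exponent_le
              (Real.one_le_rpow_of_pos_of_le_one_of_nonpos hδ h.lt_one.le (by linarith)) hq2
          _ = _ := by rw [← Real.rpow_mul hδ.le]; ring_nf
      · rw [zero_mul] at h1; exact absurd (le_antisymm h1 (hu v w)) hu0
    obtain ⟨v0, hv0, w0, hw0, hprod⟩ := hanch δ γ ψ m M h hm hmM hM2 hbands S V1 W1 hVne hWne
      (fun v hv => hSV v (mem_filter.1 hv).1) (fun w hw => hSW w (mem_filter.1 hw).1)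
      (fun v w => u v w ≠ 0) fun v hv w hw hu0 =>
        ⟨(hedge v (mem_filter.1 hv).1 w (mem_filter.1 hw).1 hu0).1,
          Gcd.quo_eqs S (hSV v (mem_filter.1 hv).1) (hSW w (mem_filter.1 hw).1)
            (hfr v (mem_filter.1 hv).1 w (mem_filter.1 hw).1 hu0)⟩
    obtain ⟨hv0', hv0p⟩ := mem_filter.1 hv0
    obtain ⟨hw0', hw0p⟩ := mem_filter.1 hw0
    set Ew := W1.filter fun w => u v0 w ≠ 0
    set Ev := V1.filter fun v => u v w0 ≠ 0
    have hY : ∑ w ∈ W, msr ψ w * u v0 w ^ q ≤ δ ^ (-(4 * θ)) * ∑ w ∈ Ew, msr ψ w := by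
      rw [mul_sum, ← sum_subset (show Ew ⊆ W from fun x hx => (mem_filter.1 (mem_filter.1 hx).1).1)
        (f := fun w => msr ψ w * u v0 w ^ q) fun w hw hnot => ?_]
      · refine sum_le_sum fun w hw => ?_
        obtain ⟨hw1, hu0⟩ := mem_filter.1 hw
        rw [mul_comm]
        exact mul_le_mul_of_nonneg_right (hedge v0 hv0' w (mem_filter.1 hw1).1 hu0).2
          (Gcd.msr_nonneg hψ w)
      · by_cases hu0 : u v0 w = 0
        · rw [hu0, Real.zero_rpow hq0.ne', mul_zero]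
        · have : msr ψ w = 0 := le_antisymm
            (not_lt.1 fun hp => hnot (mem_filter.2 ⟨mem_filter.2 ⟨hw, hp⟩, hu0⟩))
            (Gcd.msr_nonneg hψ w)
          rw [this, zero_mul]
    have hZ' : ∑ v ∈ V, msr ψ v * u v w0 ^ q ≤ δ ^ (-(4 * θ)) * ∑ v ∈ Ev, msr ψ v := by
      rw [mul_sum, ← sum_subset (show Ev ⊆ V from fun x hx => (mem_filter.1 (mem_filter.1 hx).1).1)
        (f := fun v => msr ψ v * u v w0 ^ q) fun v hv hnot => ?_]
      · refine sum_le_sum fun v hv => ?_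
        obtain ⟨hv1, hu0⟩ := mem_filter.1 hv
        rw [mul_comm]
        exact mul_le_mul_of_nonneg_right (hedge v (mem_filter.1 hv1).1 w0 hw0' hu0).2
          (Gcd.msr_nonneg hψ v)
      · by_cases hu0 : u v w0 = 0
        · rw [hu0, Real.zero_rpow hq0.ne', mul_zero]
        · have : msr ψ v = 0 := le_antisymm
            (not_lt.1 fun hp => hnot (mem_filter.2 ⟨mem_filter.2 ⟨hv, hp⟩, hu0⟩))
            (Gcd.msr_nonneg hψ v)
          rw [this, zero_mul]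
    have hX : (∑ w ∈ W, msr ψ w * u v0 w ^ q) * (∑ v ∈ V, msr ψ v * u v w0 ^ q) ≤
        Ca * δ ^ (2 + 24 * θ) * ((S.A' : ℝ) * S.B') ^ (-(1 / 2) : ℝ) := by
      refine (mul_le_mul hY hZ' (sum_nonneg fun v _ => mul_nonneg (Gcd.msr_nonneg hψ v)
        (Real.rpow_nonneg (hu _ _) _)) (mul_nonneg (by positivity)
        (sum_nonneg fun w _ => Gcd.msr_nonneg hψ w))).trans ?_
      have hp := hprod Ev Ew (filter_subset _ _) (filter_subset _ _)
        (fun v hv => (mem_filter.1 hv).2) (fun w hw => (mem_filter.1 hw).2) hψ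
      calc δ ^ (-(4 * θ)) * (∑ w ∈ Ew, msr ψ w) * (δ ^ (-(4 * θ)) * ∑ v ∈ Ev, msr ψ v)
          = δ ^ (-(4 * θ)) * δ ^ (-(4 * θ)) * ((∑ w ∈ Ew, msr ψ w) * ∑ v ∈ Ev, msr ψ v) := by ring
        _ ≤ δ ^ (-(4 * θ)) * δ ^ (-(4 * θ)) *
            (Ca * δ ^ (2 + 32 * θ) * ((S.A' : ℝ) * S.B') ^ (-(1 / 2) : ℝ)) :=
          mul_le_mul_of_nonneg_left hp (by positivity)
        _ = Ca * (δ ^ (-(4 * θ)) * δ ^ (-(4 * θ)) * δ ^ (2 + 32 * θ)) *
            ((S.A' : ℝ) * S.B') ^ (-(1 / 2) : ℝ) := by ring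
        _ = _ := by rw [h.mul_pow, h.mul_pow]; ring_nf
    have hA : (0 : ℝ) < S.A' := by exact_mod_cast S.A'_pos
    have hB : (0 : ℝ) < S.B' := by exact_mod_cast S.B'_pos
    refine (Gcd.interp hε0.le hε4 (Gcd.msr_nonneg hψ) (Gcd.msr_nonneg hψ) hu rV rW hv0' hv0p
      hw0' hw0p hX).trans (mul_le_mul_of_nonneg_right ?_ (Real.rpow_nonneg
        (mul_nonneg (Gcd.tot_nonneg (Gcd.msr_nonneg hψ) V)
          (Gcd.tot_nonneg (Gcd.msr_nonneg hψ) W)) _))
    rw [Real.mul_rpow (by positivity) (by positivity), Real.mul_rpow hCa.le (by positivity),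
      ← Real.rpow_mul hδ.le, ← Real.rpow_mul (mul_pos hA hB).le, hZ]
    rw [show (-(1 / 2) : ℝ) * (1 / 2 - ε) = -((1 / 2 - ε) / 2) by ring]
    have he : δ ^ ((2 + 24 * θ) * (1 / 2 - ε)) ≤ δ ^ (1 + θ) := by
      refine h.mono ?_
      rw [hε]; nlinarith
    calc 2 * (Ca ^ (1 / 2 - ε) * δ ^ ((2 + 24 * θ) * (1 / 2 - ε)) *
          ((S.A' : ℝ) * S.B') ^ (-((1 / 2 - ε) / 2)))
        ≤ 2 * (Ca ^ (1 / 2 - ε) * δ ^ (1 + θ) *
          ((S.A' : ℝ) * S.B') ^ (-((1 / 2 - ε) / 2))) := by gcongr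
      _ = _ := by ring
  refine (hmaster _ (msr ψ) (msr ψ) (hitW γ θ δ ψ m M) (by positivity) (Gcd.msr_nonneg hψ)
    (Gcd.msr_nonneg hψ) (hitW_nonneg γ θ δ ψ m M) key V W hV hW).trans (le_of_eq ?_)
  ring

end

end Vale.Agent.P028.Sel
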