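import Vale.Agent.P028.Sel.Pairs
import Vale.Agent.P028.Sel.Gain
import Vale.Agent.P028.Sel.ExtraPower

/-!
# Second moments of selected weights in one band of scales
-/

open Finset

namespace Vale.Agent.P028.Sel

noncomputable section

open Gcd (rho quo wt msr tot mass level)
open scoped Classical

/-- The kernel at levels `D < 1` off the diagonal. -/
def offK (γ τ : ℝ) (ψ : ℕ → ℝ) (v w : ℕ) : ℝ :=
  if v = w then 0 else narrowK γ τ (ψ v) (ψ w) v w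

/-- The second moment of a family. -/
def mom (γ : ℝ) (ψ : ℕ → ℝ) (F : Finset ℕ) : ℝ :=
  ∑ v ∈ F, ∑ w ∈ F, ovl γ γ (ψ v) (ψ w) (sel γ (ψ v) v) (sel γ (ψ w) w) v w

lemma mass_mono {μ : ℕ → ℝ} (hμ : ∀ q, 0 ≤ μ q) {u u' : ℕ → ℕ → ℝ} (F : Finset ℕ)
    (h : ∀ v ∈ F, ∀ w ∈ F, u v w ≤ u' v w) : mass μ μ u F F ≤ mass μ μ u' F F :=
  sum_le_sum fun v hv => sum_le_sum fun w hw =>
    mul_le_mul_of_nonneg_left (h v hv w hw) (mul_nonneg (hμ v) (hμ w))

lemma mass_comb {ι : Type*} (μ : ℕ → ℝ) (T : Finset ι) (c : ι → ℝ) (u : ι → ℕ → ℕ → ℝ)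
    (F : Finset ℕ) : mass μ μ (fun v w => ∑ i ∈ T, c i * u i v w) F F =
      ∑ i ∈ T, c i * mass μ μ (u i) F F := by
  simp only [mass, mul_sum]
  refine (sum_congr rfl fun v _ => sum_comm).trans ?_
  rw [sum_comm]
  refine sum_congr rfl fun i _ => sum_congr rfl fun v _ => sum_congr rfl fun w _ => ?_
  ring

lemma mass_add (μ : ℕ → ℝ) (u u' : ℕ → ℕ → ℝ) (F : Finset ℕ) :
    mass μ μ (fun v w => u v w + u' v w) F F = mass μ μ u F F + mass μ μ u' F F := by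
  simp only [mass, mul_add, sum_add_distrib]

lemma pow_mid {S ε : ℝ} (hS : 0 ≤ S) (hε : 0 ≤ ε) (hε' : ε ≤ 1 / 4) :
    (S * S) ^ (1 / 2 + ε) ≤ S + S ^ (3 / 2 : ℝ) := by
  rw [show S * S = S ^ (2 : ℝ) by rw [Real.rpow_two]; ring, ← Real.rpow_mul hS]
  rcases le_or_gt S 1 with h | h
  · refine le_trans (le_of_le_of_eq ?_ (Real.rpow_one S))
      (le_add_of_nonneg_right (Real.rpow_nonneg hS _))
    rcases hS.eq_or_lt with h0 | h0
    · rw [← h0, Real.zero_rpow (by linarith), Real.zero_rpow one_ne_zero]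
    · exact Real.rpow_le_rpow_of_exponent_ge h0 h (by linarith)
  · exact le_trans (Real.rpow_le_rpow_of_exponent_le h.le (by linarith))
      (le_add_of_nonneg_left hS)

/-- Pairs at levels `D ≥ 1`. -/
lemma wide_sum : ∃ C : ℝ, 0 < C ∧ ∀ (ψ : ℕ → ℝ) (F : Finset ℕ), (∀ q, 0 ≤ ψ q) → 0 ∉ F →
    (∀ q ∈ F, 0 < ψ q) →
    mass (msr ψ) (msr ψ) (fun v w => wideK (ψ v) (ψ w) v w) F F ≤
      C * (tot (msr ψ) F + tot (msr ψ) F ^ 2) := by
  obtain ⟨C, hC, hplain⟩ := Gcd.plain_bound (ε := 1 / 4) (τ := 1 / 8) (K := 2)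
    (by norm_num) le_rfl (by norm_num) zero_le_two
  set r : ℝ := (2 : ℝ) ^ (-(1 / 12) : ℝ) with hr
  have hr0 : 0 < r := by positivity
  have hr1 : r < 1 := Real.rpow_lt_one_of_one_lt_of_neg (by norm_num) (by norm_num)
  set Cr := 2 * C * (1 / (1 - r))
  have hCr : 0 ≤ Cr := by
    have : 0 < 1 - r := by linarith
    positivity
  refine ⟨1 + Cr, by linarith, fun ψ F hψ h0 hF => ?_⟩
  set μ := msr ψ
  have hμ : ∀ q, 0 ≤ μ q := Gcd.msr_nonneg hψ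
  set S := tot μ F
  have hS : 0 ≤ S := Gcd.tot_nonneg hμ F
  set J := (F ×ˢ F).image fun e : ℕ × ℕ => Nat.log 2 ⌊scaleD (ψ e.1) (ψ e.2) e.1 e.2⌋₊
  set c := fun j : ℕ => ((2 : ℝ) ^ j) ^ (-(7 / 12) : ℝ)
  set L := fun j : ℕ => level (1 / 8) 2 ((2 : ℝ) ^ (j + 1)) ((2 : ℝ) ^ (j + 1)) ψ ψ
  have hcL : ∀ j v w, 0 ≤ c j * L j v w := fun j v w =>
    mul_nonneg (Real.rpow_nonneg (by positivity) _) (Gcd.level_nonneg zero_le_two ψ ψ v w)
  have hpt : ∀ v ∈ F, ∀ w ∈ F, wideK (ψ v) (ψ w) v w ≤ 1 + ∑ j ∈ J, c j * L j v w := by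
    intro v hv w hw
    have hsum := sum_nonneg fun j (_ : j ∈ J) => hcL j v w
    unfold wideK
    split_ifs with hD
    swap
    · linarith
    refine add_le_add le_rfl ?_
    set D := scaleD (ψ v) (ψ w) v w with hDdef
    set j := Nat.log 2 ⌊D⌋₊ with hj
    have hjJ : j ∈ J := mem_image.2 ⟨(v, w), mem_product.2 ⟨hv, hw⟩, rfl⟩
    refine le_trans ?_ (single_le_sum (fun j _ => hcL j v w) hjJ)
    have hfl : 1 ≤ ⌊D⌋₊ := Nat.le_floor (by exact_mod_cast hD)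
    have h1 : (2 : ℝ) ^ j ≤ D := by
      refine le_trans ?_ (Nat.floor_le (by linarith))
      exact_mod_cast Nat.pow_log_le_self 2 (by omega : ⌊D⌋₊ ≠ 0)
    have h2 : D ≤ (2 : ℝ) ^ (j + 1) := by
      refine (Nat.lt_floor_add_one D).le.trans ?_
      exact_mod_cast Nat.lt_pow_succ_log_self (by norm_num : 1 < 2) ⌊D⌋₊
    have hlev : L j v w = wt (1 / 8) 2 (quo v w * quo w v) := by
      simp only [L, level]
      rw [if_pos ⟨(le_max_left _ _).trans h2, (le_max_right _ _).trans h2⟩]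
    rw [hlev]
    exact mul_le_mul_of_nonneg_right (Real.rpow_le_rpow_of_nonpos (by positivity) h1 (by norm_num))
      (Gcd.wt_nonneg zero_le_two _)
  refine (mass_mono hμ F hpt).trans ?_
  rw [mass_add μ (fun _ _ => 1), mass_comb]
  have h1 : mass μ μ (fun _ _ => (1 : ℝ)) F F = S ^ 2 := by
    simp only [mass, mul_one, S, tot, sq, ← sum_mul_sum]
  have hterm : ∀ j ∈ J, c j * mass μ μ (L j) F F ≤ r ^ j * (2 * C * (S + S ^ 2)) := by
    intro j _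
    refine (mul_le_mul_of_nonneg_left (hplain ψ ψ _ _ hψ hψ (by positivity) (by positivity)
      F F h0 h0) (Real.rpow_nonneg (by positivity) _)).trans ?_
    have e : ((2 : ℝ) ^ j) ^ (-(7 / 12) : ℝ) *
        ((2 : ℝ) ^ (j + 1) * (2 : ℝ) ^ (j + 1)) ^ (1 / 2 - 1 / 4 : ℝ) =
        r ^ j * (2 : ℝ) ^ (1 / 2 : ℝ) := by
      rw [← pow_add, hr, ← Real.rpow_natCast (2 : ℝ) j, ← Real.rpow_natCast (2 : ℝ) (_ + _),
        ← Real.rpow_natCast ((2 : ℝ) ^ (-(1 / 12) : ℝ)), ← Real.rpow_mul (by norm_num),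
        ← Real.rpow_mul (by norm_num), ← Real.rpow_mul (by norm_num),
        ← Real.rpow_add (by norm_num), ← Real.rpow_add (by norm_num)]
      congr 1
      push_cast
      ring
    have h2 : (2 : ℝ) ^ (1 / 2 : ℝ) ≤ 2 := by
      conv_rhs => rw [← Real.rpow_one 2]
      exact Real.rpow_le_rpow_of_exponent_le (by norm_num) (by norm_num)
    have h3 : (S * S) ^ (1 / 2 + 1 / 4 : ℝ) ≤ S + S ^ 2 := by
      refine (le_of_eq ?_).trans (show S ^ (3 / 2 : ℝ) ≤ S + S ^ 2 from ?_)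
      · rw [show S * S = S ^ (2 : ℝ) by rw [Real.rpow_two]; ring, ← Real.rpow_mul hS]; norm_num
      rcases le_or_gt S 1 with h | h
      · refine le_trans (le_of_le_of_eq ?_ (Real.rpow_one S))
          (le_add_of_nonneg_right (sq_nonneg _))
        rcases hS.eq_or_lt with h0 | h0
        · rw [← h0, Real.zero_rpow (by norm_num), Real.zero_rpow one_ne_zero]
        · exact Real.rpow_le_rpow_of_exponent_ge h0 h (by norm_num)
      · refine le_trans (le_of_le_of_eq (Real.rpow_le_rpow_of_exponent_le h.le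
          (show (3 / 2 : ℝ) ≤ 2 by norm_num)) (Real.rpow_two S)) (le_add_of_nonneg_left hS)
    calc _ = C * (((2 : ℝ) ^ j) ^ (-(7 / 12) : ℝ) *
          ((2 : ℝ) ^ (j + 1) * (2 : ℝ) ^ (j + 1)) ^ (1 / 2 - 1 / 4 : ℝ)) *
          (S * S) ^ (1 / 2 + 1 / 4 : ℝ) := by ring
      _ ≤ C * (r ^ j * 2) * (S + S ^ 2) := by
          rw [e]; gcongr
      _ = _ := by ring
  have hgeo : ∑ j ∈ J, r ^ j ≤ 1 / (1 - r) := by
    rw [one_div, ← tsum_geometric_of_lt_one hr0.le hr1]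
    exact (summable_geometric_of_lt_one hr0.le hr1).sum_le_tsum J fun j _ => by positivity
  rw [h1]
  calc S ^ 2 + ∑ j ∈ J, c j * mass μ μ (L j) F F
      ≤ S ^ 2 + ∑ j ∈ J, r ^ j * (2 * C * (S + S ^ 2)) := add_le_add le_rfl (sum_le_sum hterm)
    _ ≤ S ^ 2 + 1 / (1 - r) * (2 * C * (S + S ^ 2)) := by
        rw [← sum_mul]; gcongr
    _ ≤ _ := by
        have := sq_nonneg S
        simp only [Cr]
        nlinarith

/-- The second moment up to the pairs at levels `D < 1`. -/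
theorem mom_le : ∃ C : ℝ, 0 < C ∧ ∀ (γ τ : ℝ) (ψ : ℕ → ℝ) (F : Finset ℕ), τ ≤ 1 →
    (∀ q, 0 ≤ ψ q) → 0 ∉ F → (∀ q ∈ F, 0 < ψ q ∧ ψ q ≤ 1 / 16) →
    mom γ ψ F ≤ C * (tot (msr ψ) F + tot (msr ψ) F ^ 2 +
      mass (msr ψ) (msr ψ) (offK γ τ ψ) F F) := by
  obtain ⟨Cp, hCp, hpair⟩ := pair_bound
  obtain ⟨Cl, hCl, hlin⟩ := lin_sum
  obtain ⟨Cw, hCw, hwide⟩ := wide_sum
  refine ⟨16 + Cp * (Cl + Cw + 1), by positivity, fun γ τ ψ F hτ hψ h0 hF => ?_⟩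
  set μ := msr ψ with hμdef
  have hμ : ∀ q, 0 ≤ μ q := Gcd.msr_nonneg hψ
  have hpos : ∀ q ∈ F, 0 < q := fun q hq => Nat.pos_of_ne_zero fun h => h0 (h ▸ hq)
  set S := tot μ F
  set O := mass μ μ (offK γ τ ψ) F F
  have hS : 0 ≤ S := Gcd.tot_nonneg hμ F
  have hoff : ∀ v ∈ F, ∀ w ∈ F, 0 ≤ offK γ τ ψ v w := fun v hv w hw => by
    unfold offK; split_ifs
    · exact le_rfl
    · exact narrowK_nonneg (hF v hv).1 v (hpos w hw).ne'
  have hO : 0 ≤ O := sum_nonneg fun v hv => sum_nonneg fun w hw =>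
    mul_nonneg (mul_nonneg (hμ v) (hμ w)) (hoff v hv w hw)
  have hp : ∀ v ∈ F, ∀ w ∈ F, ovl γ γ (ψ v) (ψ w) (sel γ (ψ v) v) (sel γ (ψ w) w) v w ≤
      (if v = w then 16 * μ v else 0) + Cp * ((μ v + μ w) * (omg (quo v w) * omg (quo w v))) +
        Cp * (μ v * μ w * (wideK (ψ v) (ψ w) v w + offK γ τ ψ v w)) := by
    intro v hv w hw
    have hW := wideK_nonneg (ψ' := ψ w) (hF v hv).1 v (hpos w hw).ne'
    have hA : 0 ≤ Cp * ((μ v + μ w) * (omg (quo v w) * omg (quo w v))) :=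
      mul_nonneg hCp.le (mul_nonneg (add_nonneg (hμ v) (hμ w))
        (mul_nonneg (omg_nonneg _) (omg_nonneg _)))
    have hB : 0 ≤ Cp * (μ v * μ w * (wideK (ψ v) (ψ w) v w + offK γ τ ψ v w)) :=
      mul_nonneg hCp.le (mul_nonneg (mul_nonneg (hμ v) (hμ w))
        (add_nonneg hW (hoff v hv w hw)))
    by_cases h : v = w
    · subst h
      rw [if_pos rfl]
      have := pair_diag γ (ψ v) v (hpos v hv) (hF v hv).1 (hF v hv).2
      simp only [hμdef, msr] at hA hB ⊢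
      linarith
    · rw [if_neg h, zero_add, offK, if_neg h, ← mul_add]
      exact hpair γ τ (ψ v) (ψ w) hτ (hF v hv).1 (hF w hw).1 (hF v hv).2 (hF w hw).2 v w
        (hpos v hv) (hpos w hw) h
  refine (sum_le_sum fun v hv => sum_le_sum fun w hw => hp v hv w hw).trans ?_
  simp only [sum_add_distrib, ← mul_sum]
  have hd : ∑ v ∈ F, ∑ w ∈ F, (if v = w then 16 * μ v else 0) = 16 * S := by
    simp only [sum_ite_eq, S, tot, mul_sum]
    exact sum_congr rfl fun v hv => by rw [if_pos hv]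
  have hm : ∑ v ∈ F, ∑ w ∈ F, μ v * μ w * (wideK (ψ v) (ψ w) v w + offK γ τ ψ v w) ≤
      Cw * (S + S ^ 2) + O := by
    rw [show ∑ v ∈ F, ∑ w ∈ F, μ v * μ w * (wideK (ψ v) (ψ w) v w + offK γ τ ψ v w) =
      mass μ μ (fun v w => wideK (ψ v) (ψ w) v w) F F + O from mass_add μ _ _ F]
    exact add_le_add (hwide ψ F hψ h0 fun q hq => (hF q hq).1) le_rfl
  rw [hd]
  calc 16 * S + Cp * _ + Cp * _ ≤ 16 * S + Cp * (Cl * S) + Cp * (Cw * (S + S ^ 2) + O) :=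
        add_le_add (add_le_add le_rfl (mul_le_mul_of_nonneg_left (hlin μ F hμ h0) hCp.le))
          (mul_le_mul_of_nonneg_left hm hCp.le)
    _ ≤ (16 + Cp * (Cl + Cw + 1)) * (S + S ^ 2 + O) := by
        have := sq_nonneg S
        have : 0 ≤ Cp * Cl := by positivity
        have : 0 ≤ Cp * Cw := by positivity
        nlinarith

lemma hit_symm {γ ψ ψ' : ℝ} {v w : ℕ} (h : Hit γ ψ ψ' v w) : Hit γ ψ' ψ w v := by
  obtain ⟨k, hk, hne⟩ := h
  refine ⟨-k, ?_, fun hE => hne ⟨hE.2.1, hE.1, ?_⟩⟩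
  · push_cast
    rw [abs_sub_comm] at hk
    rw [show -(k : ℝ) - γ * ((quo w v : ℝ) - quo v w) = γ * ((quo v w : ℝ) - quo w v) - k by ring]
    linarith
  · have h0 := hE.2.2
    unfold coF at h0 ⊢
    linear_combination -h0

/-- A balanced hit pair is an edge. -/
lemma edge_of_hit {γ θ δ : ℝ} {ψ : ℕ → ℝ} {m M v w : ℕ} (hs : Small θ δ)
    (hθ : θ ≤ 1 / 100000000) (hv : 0 < v) (hw : 0 < w) (hne : v ≠ w)
    (hm : (1 / 2 : ℝ) ^ M ≤ ψ v) (hM : ψ v ≤ (1 / 2 : ℝ) ^ m) (hψw : 0 < ψ w)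
    (hxy : quo v w ≤ quo w v) (hP : (quo w v : ℝ) * ψ v ≤ δ) (hQ : (quo v w : ℝ) * ψ w ≤ δ)
    (hP' : δ ^ (1 + θ) ≤ (quo w v : ℝ) * ψ v) (hQ' : δ ^ (1 + θ) ≤ (quo v w : ℝ) * ψ w)
    (hhit : Hit γ (ψ v) (ψ w) v w) : Edge γ θ δ ψ m M v w := by
  obtain ⟨k, hk, hexc⟩ := hhit
  have hθ0 := hs.hθ
  have hδ := hs.hδ
  have hψv : 0 < ψ v := lt_of_lt_of_le (by positivity) hm
  refine ⟨hne, hm, hM, hP, hQ, hP', hxy, ⟨-k, ?_⟩, ?_⟩
  · push_cast
    rw [show γ * ((quo w v : ℝ) - quo v w) - -(k : ℝ) = k - γ * ((quo v w : ℝ) - quo w v) by ring]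
    linarith
  intro A B hB hBle
  by_contra hfar
  rw [not_le] at hfar
  apply hexc
  set x := quo v w
  set y := quo w v
  have hx1 : (1 : ℝ) ≤ x := by exact_mod_cast Gcd.quo_pos hv.ne'
  have hy1 : (1 : ℝ) ≤ y := by exact_mod_cast Gcd.quo_pos hw.ne'
  have hxyR : (x : ℝ) ≤ y := by exact_mod_cast hxy
  set q : ℚ := Rat.divInt A B
  set a := q.num
  set b := q.den
  have hb : 0 < b := q.den_pos
  have hbB : (b : ℝ) ≤ δ ^ (-(40000 * θ)) := by
    refine le_trans ?_ hBle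
    have h := Rat.den_dvd A (B : ℤ)
    exact_mod_cast Nat.le_of_dvd hB (Int.natCast_dvd_natCast.1 h)
  have hAB : (A : ℝ) / B = (a : ℝ) / b := by
    have h1 : ((q : ℚ) : ℝ) = (A : ℝ) / B := by
      simp only [q, Rat.divInt_eq_div]
      push_cast
      rfl
    rw [← h1, Rat.cast_def]
  rw [hAB] at hfar
  set d := |γ - (a : ℝ) / b|
  have hd0 : 0 ≤ d := abs_nonneg _
  have hδ1 := hs.lt_one.le
  have hreg : ∀ (z z' : ℝ), 1 ≤ z → z ≤ y → 0 < z' → δ ^ (1 + θ) ≤ z * z' → z * z' ≤ δ →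
      InReg γ z' (a, b) := by
    intro z z' hz hzy hz' hlo hhi
    refine ⟨hb, q.reduced, ?_, ?_⟩
    · refine hbB.trans ((hs.mono (show -(1 / 64 : ℝ) ≤ -(40000 * θ) by linarith)).trans ?_)
      refine Real.rpow_le_rpow_of_nonpos hz' ?_ (by norm_num)
      exact le_trans (le_mul_of_one_le_left hz'.le hz) hhi
    · have h1 : δ ^ (1 - 40000 * θ) ≤ (z * z') ^ (3 / 4 : ℝ) := by
        refine (hs.mono (show (1 + θ) * (3 / 4) ≤ 1 - 40000 * θ by linarith)).trans ?_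
        rw [Real.rpow_mul hδ.le]
        exact Real.rpow_le_rpow (Real.rpow_nonneg hδ.le _) hlo (by norm_num)
      rw [Real.mul_rpow (by linarith) hz'.le] at h1
      have h2 : z ^ (3 / 4 : ℝ) ≤ y := by
        refine le_trans ?_ hzy
        conv_rhs => rw [← Real.rpow_one z]
        exact Real.rpow_le_rpow_of_exponent_le hz (by norm_num)
      have h3 : d * y ≤ z' ^ (3 / 4 : ℝ) * y := by
        have := mul_le_mul_of_nonneg_right h2 (Real.rpow_nonneg hz'.le (3 / 4 : ℝ))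
        linarith
      exact le_of_mul_le_mul_right h3 (by linarith)
  have hrv := hreg y (ψ v) hy1 le_rfl hψv hP' hP
  have hrw := hreg x (ψ w) hx1 hxyR hψw hQ' hQ
  refine ⟨⟨_, hrv⟩, ⟨_, hrw⟩, ?_⟩
  have h14 : δ ≤ 1 / 4 := by
    have h1 := hs.mono (show θ ≤ (1 : ℝ) by linarith)
    rw [Real.rpow_one] at h1
    linarith [hs.hδ']
  rw [reg_eq hψv ((le_mul_of_one_le_left hψv.le hy1).trans (hP.trans h14)) hrv,
    reg_eq hψw ((le_mul_of_one_le_left hψw.le hx1).trans (hQ.trans h14)) hrw]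
  have hfac : coF a a b b x y k = (b : ℤ) * (k * b + a * ((y : ℤ) - x)) := by
    unfold coF; ring
  rw [hfac]
  refine mul_eq_zero_of_right _ (Int.abs_lt_one_iff.1 ?_)
  have hbR : (0 : ℝ) < b := by exact_mod_cast hb
  have e : ((k * b + a * ((y : ℤ) - x) : ℤ) : ℝ) =
      (b : ℝ) * (((k : ℝ) - γ * ((x : ℝ) - y)) + (γ - (a : ℝ) / b) * ((x : ℝ) - y)) := by
    push_cast; field_simp; ring
  have h1 : |((k : ℝ) - γ * ((x : ℝ) - y)) + (γ - (a : ℝ) / b) * ((x : ℝ) - y)| ≤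
      3 * δ ^ (1 - 40000 * θ) := by
    refine (abs_add_le _ _).trans ?_
    have h2 : |(γ - (a : ℝ) / b) * ((x : ℝ) - y)| ≤ d * y := by
      rw [abs_mul]
      refine mul_le_mul_of_nonneg_left ?_ hd0
      rw [abs_sub_le_iff]
      constructor <;> linarith
    have h3 : δ ≤ δ ^ (1 - 40000 * θ) := by
      conv_lhs => rw [← Real.rpow_one δ]
      exact hs.mono (by linarith)
    linarith
  have h4 : |((k * b + a * ((y : ℤ) - x) : ℤ) : ℝ)| < 1 := by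
    rw [e, abs_mul, abs_of_pos hbR]
    refine lt_of_le_of_lt (mul_le_mul hbB h1 (abs_nonneg _) (by positivity)) ?_
    rw [mul_left_comm, hs.mul_pow]
    refine lt_of_le_of_lt (hs.absorb (by norm_num) (show θ + θ ≤ _ by linarith)) ?_
    linarith [hs.hδ']
  rw [← Int.cast_abs] at h4
  exact_mod_cast h4

/-- The weights of the balanced pairs at the level `2⁻ⁿ`. -/
def balW (γ θ : ℝ) (ψ : ℕ → ℝ) (m M n : ℕ) (v w : ℕ) : ℝ :=
  hitW γ θ ((1 / 2 : ℝ) ^ n) ψ m M v w + hitW γ θ ((1 / 2 : ℝ) ^ n) ψ m M w v +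
    ((1 / 2 : ℝ) ^ n) ^ θ * level (θ / 32) 8 ((1 / 2 : ℝ) ^ n) ((1 / 2 : ℝ) ^ n) ψ ψ v w

lemma balW_nonneg (γ θ : ℝ) (ψ : ℕ → ℝ) (m M n v w : ℕ) : 0 ≤ balW γ θ ψ m M n v w :=
  add_nonneg (add_nonneg (hitW_nonneg ..) (hitW_nonneg ..))
    (mul_nonneg (Real.rpow_nonneg (by positivity) _) (Gcd.level_nonneg (by norm_num) ψ ψ v w))

lemma half_rpow_le {θ : ℝ} {n : ℕ} (hn : 3 ≤ θ * n) :
    ((1 / 2 : ℝ) ^ n) ^ θ ≤ 1 / 8 := by
  rw [← Real.rpow_natCast, ← Real.rpow_mul (by norm_num),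
    show (1 / 8 : ℝ) = (1 / 2) ^ (3 : ℝ) by norm_num]
  exact Real.rpow_le_rpow_of_exponent_ge (by norm_num) (by norm_num) (by linarith)

/-- The pairs of indices that the plain bound controls. -/
def Easy (θ : ℝ) (n₁ i j : ℕ) : Prop :=
  (i ≤ 2 * n₁ ∧ j ≤ 2 * n₁) ∨ θ * ((min i j : ℕ) : ℝ) / 2 < |(i : ℝ) - j|

/-- The kernel at levels `D < 1` split by the scales. -/
lemma offK_le {γ θ : ℝ} (hθ : 0 < θ) (hθ' : θ ≤ 1 / 100000000) {ψ : ℕ → ℝ} {m M n₁ : ℕ}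
    (hn₁ : 3 ≤ θ * n₁) {v w : ℕ} (hv : 0 < v) (hw : 0 < w)
    (hψv : (1 / 2 : ℝ) ^ M ≤ ψ v ∧ ψ v ≤ (1 / 2 : ℝ) ^ m)
    (hψw : (1 / 2 : ℝ) ^ M ≤ ψ w ∧ ψ w ≤ (1 / 2 : ℝ) ^ m) :
    offK γ (θ / 32) ψ v w ≤
      ∑ e ∈ (range (M + 1) ×ˢ range (M + 1)).filter (fun e => Easy θ n₁ e.1 e.2),
        (2 : ℝ) ^ (min e.1 e.2 + 1) *
          level (θ / 32) 2 ((1 / 2 : ℝ) ^ e.1) ((1 / 2 : ℝ) ^ e.2) ψ ψ v w +
      ∑ n ∈ Ioc n₁ M, (2 : ℝ) ^ (n + 1) * balW γ θ ψ m M n v w := by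
  set R := (range (M + 1) ×ˢ range (M + 1)).filter fun e => Easy θ n₁ e.1 e.2
  have h1 : ∀ e ∈ R, 0 ≤ (2 : ℝ) ^ (min e.1 e.2 + 1) *
      level (θ / 32) 2 ((1 / 2 : ℝ) ^ e.1) ((1 / 2 : ℝ) ^ e.2) ψ ψ v w := fun e _ =>
    mul_nonneg (by positivity) (Gcd.level_nonneg zero_le_two ψ ψ v w)
  have h2 : ∀ n ∈ Ioc n₁ M, 0 ≤ (2 : ℝ) ^ (n + 1) * balW γ θ ψ m M n v w := fun n _ =>
    mul_nonneg (by positivity) (balW_nonneg ..)
  unfold offK narrowK
  split_ifs with hne hc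
  · exact add_nonneg (sum_nonneg h1) (sum_nonneg h2)
  swap
  · exact add_nonneg (sum_nonneg h1) (sum_nonneg h2)
  obtain ⟨hD, hhit⟩ := hc
  set W := wt (θ / 32) 2 (quo v w * quo w v) with hWdef
  have hW : 0 ≤ W := Gcd.wt_nonneg zero_le_two _
  set P := (quo w v : ℝ) * ψ v with hP
  set Q := (quo v w : ℝ) * ψ w with hQ
  set D := scaleD (ψ v) (ψ w) v w with hDdef
  have hDPQ : D = max P Q := rfl
  have hv0 : 0 < ψ v := lt_of_lt_of_le (by positivity) hψv.1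
  have hw0 : 0 < ψ w := lt_of_lt_of_le (by positivity) hψw.1
  have hlt : (1 / 2 : ℝ) ^ (M + 1) < (1 / 2 : ℝ) ^ M :=
    pow_lt_pow_right_of_lt_one₀ (by norm_num) (by norm_num) (by omega)
  have hPl : (1 / 2 : ℝ) ^ (M + 1) < P := hlt.trans_le (hψv.1.trans
    (le_mul_of_one_le_left hv0.le (by exact_mod_cast Gcd.quo_pos hw.ne')))
  have hQl : (1 / 2 : ℝ) ^ (M + 1) < Q := hlt.trans_le (hψw.1.trans
    (le_mul_of_one_le_left hw0.le (by exact_mod_cast Gcd.quo_pos hv.ne')))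
  obtain ⟨i, hi, hi1, hi2⟩ := exists_dyadic (lt_of_le_of_lt (le_max_left P Q) hD) hPl
  obtain ⟨j, hj, hj1, hj2⟩ := exists_dyadic (lt_of_le_of_lt (le_max_right P Q) hD) hQl
  set n := min i j with hn
  have hDn : W / D ≤ (2 : ℝ) ^ (n + 1) * W := by
    have h : (1 / 2 : ℝ) ^ (n + 1) < D := by
      rw [hDPQ]
      rcases min_choice i j with h | h <;> rw [hn, h]
      · exact hi1.trans_le (le_max_left _ _)
      · exact hj1.trans_le (le_max_right _ _)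
    rw [div_le_iff₀ (lt_trans (by positivity) h)]
    calc W = (2 : ℝ) ^ (n + 1) * W * (1 / 2) ^ (n + 1) := by
          rw [mul_right_comm, ← mul_pow]; norm_num
      _ ≤ _ := by gcongr
  refine hDn.trans ?_
  by_cases heasy : Easy θ n₁ i j
  · refine le_trans ?_ (le_add_of_nonneg_right (sum_nonneg h2))
    refine le_trans (le_of_eq ?_) (single_le_sum h1 (show (i, j) ∈ R from
      mem_filter.2 ⟨mem_product.2 ⟨mem_range.2 (by omega), mem_range.2 (by omega)⟩, heasy⟩))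
    simp only [level]
    rw [if_pos ⟨hi2, hj2⟩]
  refine le_trans ?_ (le_add_of_nonneg_left (sum_nonneg h1))
  unfold Easy at heasy
  rw [not_or, not_and_or, not_le, not_le, not_lt] at heasy
  obtain ⟨hbig, hclose⟩ := heasy
  rw [abs_le] at hclose
  have hnR : (n : ℝ) = min (i : ℝ) j := by rw [hn]; push_cast; rfl
  have hni : (n : ℝ) ≤ i := hnR ▸ min_le_left _ _
  have hnj : (n : ℝ) ≤ j := hnR ▸ min_le_right _ _
  have hn0 : (0 : ℝ) ≤ n := Nat.cast_nonneg n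
  have hθn : θ * n ≤ 1 / 100000000 * n := mul_le_mul_of_nonneg_right hθ' hn0
  have hmax : (i : ℝ) ≤ n + θ * n / 2 ∧ (j : ℝ) ≤ n + θ * n / 2 := by
    rcases min_choice i j with h | h <;> simp only [← hn] at h <;>
      rw [← hn] at hclose <;> rw [h] at hclose ⊢ <;> constructor <;> nlinarith
  have hnbig : n₁ < n := by
    by_contra hc
    rw [not_lt] at hc
    have hc' : (n : ℝ) ≤ n₁ := by exact_mod_cast hc
    rcases hbig with h | h
    · have : (2 * (n₁ : ℝ) + 1) ≤ i := by exact_mod_cast h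
      linarith
    · have : (2 * (n₁ : ℝ) + 1) ≤ j := by exact_mod_cast h
      linarith
  have hnn : 3 ≤ θ * (n : ℝ) :=
    hn₁.trans (mul_le_mul_of_nonneg_left (by exact_mod_cast hnbig.le) hθ.le)
  refine le_trans ?_ (single_le_sum h2 (mem_Ioc.2 ⟨hnbig, (min_le_left i j).trans hi⟩))
  refine mul_le_mul_of_nonneg_left ?_ (by positivity)
  set δ := (1 / 2 : ℝ) ^ n with hδ
  have hs : Small θ δ := ⟨hθ, by linarith, by positivity, half_rpow_le hnn⟩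
  have hPn : P ≤ δ := hi2.trans (pow_le_pow_of_le_one (by norm_num) (by norm_num) (min_le_left _ _))
  have hQn : Q ≤ δ :=
    hj2.trans (pow_le_pow_of_le_one (by norm_num) (by norm_num) (min_le_right _ _))
  have hlow : ∀ (l : ℕ), (l : ℝ) ≤ n + θ * n / 2 → δ ^ (1 + θ) ≤ (1 / 2 : ℝ) ^ (l + 1) := by
    intro l hl
    rw [hδ, ← Real.rpow_natCast, ← Real.rpow_natCast, ← Real.rpow_mul (by norm_num)]
    refine Real.rpow_le_rpow_of_exponent_ge (by norm_num) (by norm_num) ?_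
    push_cast
    linarith
  have hP' : δ ^ (1 + θ) ≤ P := (hlow i hmax.1).trans hi1.le
  have hQ' : δ ^ (1 + θ) ≤ Q := (hlow j hmax.2).trans hj1.le
  unfold balW
  have n1 := hitW_nonneg γ θ δ ψ m M v w
  have n2 := hitW_nonneg γ θ δ ψ m M w v
  have n3 : 0 ≤ δ ^ θ * level (θ / 32) 8 δ δ ψ ψ v w :=
    mul_nonneg (Real.rpow_nonneg (by positivity) _) (Gcd.level_nonneg (by norm_num) ψ ψ v w)
  by_cases hwt : W ≤ δ ^ (-θ)
  · rcases le_total (quo v w) (quo w v) with hxy | hxy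
    · have he := edge_of_hit hs hθ' hv hw hne hψv.1 hψv.2 hw0 hxy hPn hQn hP' hQ' hhit
      have : hitW γ θ δ ψ m M v w = W := by unfold hitW; rw [if_pos ⟨he, hwt⟩]
      linarith
    · have he := edge_of_hit hs hθ' hw hv (Ne.symm hne) hψw.1 hψw.2 hv0 hxy hQn hPn hQ' hP'
        (hit_symm hhit)
      have : hitW γ θ δ ψ m M w v = W := by
        unfold hitW
        rw [mul_comm (quo w v), if_pos ⟨he, hwt⟩]
      linarith
  · have h8 : W ^ 2 ≤ wt (θ / 32) 8 (quo v w * quo w v) :=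
      (Gcd.wt_pow_le (by linarith) zero_le_two 2 _).trans_eq (by norm_num)
    have hge : 1 ≤ δ ^ θ * W := by
      have h := mul_le_mul_of_nonneg_left (not_le.1 hwt).le (Real.rpow_nonneg hs.hδ.le θ)
      rwa [hs.mul_pow, add_neg_cancel, Real.rpow_zero] at h
    have : W ≤ δ ^ θ * level (θ / 32) 8 δ δ ψ ψ v w := by
      simp only [level]
      rw [if_pos ⟨hPn, hQn⟩]
      calc W ≤ δ ^ θ * W * W := le_mul_of_one_le_left hW hge
        _ = δ ^ θ * W ^ 2 := by ring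
        _ ≤ _ := mul_le_mul_of_nonneg_left h8 (Real.rpow_nonneg hs.hδ.le θ)
    linarith

end

end Vale.Agent.P028.Sel
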