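import Vale.Agent.P028.Sel.Band

/-!
# The pairs at levels `D < 1` inside a band of scales
-/

open Finset

namespace Vale.Agent.P028.Sel

noncomputable section

open Gcd (rho quo wt msr tot mass level)
open scoped Classical

/-- The exponent gained on balanced pairs. -/
def gainExp : ℝ := 1 / 100000000

/-- One dyadic level of the plain bound. -/
lemma level_term {ε θ : ℝ} (hε : 0 < ε) (hε' : ε ≤ 1 / 4) (hθ : 0 < θ) :
    ∃ C : ℝ, 0 < C ∧ ∀ (ψ : ℕ → ℝ) (F : Finset ℕ) (i j : ℕ) (x : ℝ), (∀ q, 0 ≤ ψ q) → 0 ∉ F →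
      ((min i j : ℕ) : ℝ) - ((i : ℝ) + j) * (1 / 2 - ε) ≤ x →
      (2 : ℝ) ^ (min i j + 1) *
        mass (msr ψ) (msr ψ) (level θ 2 ((1 / 2 : ℝ) ^ i) ((1 / 2 : ℝ) ^ j) ψ ψ) F F ≤
      C * (2 : ℝ) ^ x * (tot (msr ψ) F + tot (msr ψ) F ^ (3 / 2 : ℝ)) := by
  obtain ⟨C, hC, hplain⟩ := Gcd.plain_bound (τ := θ) (K := 2) hε hε' hθ zero_le_two
  refine ⟨2 * C, by positivity, fun ψ F i j x hψ h0 hx => ?_⟩
  set S := tot (msr ψ) F
  have hS : 0 ≤ S := Gcd.tot_nonneg (Gcd.msr_nonneg hψ) F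
  refine (mul_le_mul_of_nonneg_left (hplain ψ ψ _ _ hψ hψ (by positivity) (by positivity) F F h0 h0)
    (by positivity)).trans ?_
  have e : (2 : ℝ) ^ (min i j + 1) * ((1 / 2 : ℝ) ^ i * (1 / 2) ^ j) ^ (1 / 2 - ε) ≤
      2 * (2 : ℝ) ^ x := by
    rw [← pow_add, pow_succ, ← Real.rpow_natCast (1 / 2 : ℝ), one_div (2 : ℝ),
      Real.inv_rpow (by norm_num), ← Real.rpow_neg (by norm_num), ← Real.rpow_mul (by norm_num),
      mul_comm ((2 : ℝ) ^ min i j), mul_assoc, ← Real.rpow_natCast (2 : ℝ) (min i j),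
      ← Real.rpow_add (by norm_num)]
    refine mul_le_mul_of_nonneg_left (Real.rpow_le_rpow_of_exponent_le (by norm_num) ?_)
      (by norm_num)
    push_cast at hx ⊢
    linarith
  calc _ = C * ((2 : ℝ) ^ (min i j + 1) * ((1 / 2 : ℝ) ^ i * (1 / 2) ^ j) ^ (1 / 2 - ε)) *
        (S * S) ^ (1 / 2 + ε) := by ring
    _ ≤ C * (2 * (2 : ℝ) ^ x) * (S + S ^ (3 / 2 : ℝ)) :=
        mul_le_mul (mul_le_mul_of_nonneg_left e hC.le) (pow_mid hS hε.le hε')
          (Real.rpow_nonneg (mul_self_nonneg S) _) (by positivity)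
    _ = _ := by ring

/-- Balanced levels. -/
lemma balanced_term {θ : ℝ} (hθ : 0 < θ) (hθ' : θ ≤ 1 / 1000000) :
    ∃ C : ℝ, ∃ L₀ : ℕ, 0 < C ∧ ∀ (γ : ℝ) (ψ : ℕ → ℝ) (m M n : ℕ) (F : Finset ℕ),
      (∀ q, 0 ≤ ψ q) → 0 ∉ F → L₀ ≤ m → m ≤ M → M ≤ m ^ 2 → 3 ≤ θ * n →
      Bands θ ((1 / 2 : ℝ) ^ n) m M →
      (2 : ℝ) ^ (n + 1) * mass (msr ψ) (msr ψ) (balW γ θ ψ m M n) F F ≤
        C * ((1 / 2 : ℝ) ^ (θ / 2)) ^ n *
          (tot (msr ψ) F + tot (msr ψ) F ^ (3 / 2 : ℝ)) := by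
  obtain ⟨Cg, L₀, hCg, hgain⟩ := gain θ hθ hθ'
  obtain ⟨Cp, hCp, hplain⟩ := Gcd.plain_bound (ε := θ / 32) (τ := θ / 32) (K := 8)
    (by linarith) (by linarith) (by linarith) (by norm_num)
  refine ⟨2 * (2 * Cg + Cp), L₀, by positivity, ?_⟩
  intro γ ψ m M n F hψ h0 hm hmM hM2 hn hbands
  set μ := msr ψ
  set S := tot μ F
  have hS : 0 ≤ S := Gcd.tot_nonneg (Gcd.msr_nonneg hψ) F
  set T := S + S ^ (3 / 2 : ℝ)
  have hT : 0 ≤ T := add_nonneg hS (Real.rpow_nonneg hS _)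
  set δ := (1 / 2 : ℝ) ^ n with hδdef
  have hs : Small θ δ := ⟨hθ, hθ', by positivity, half_rpow_le hn⟩
  have hδ := hs.hδ
  have hg := hgain δ γ ψ m M hψ hδ hs.hδ' hm hmM hM2 hbands F F h0 h0
  have h1 : mass μ μ (hitW γ θ δ ψ m M) F F ≤ Cg * δ ^ (1 + θ / 2) * T := by
    refine hg.trans (mul_le_mul (mul_le_mul_of_nonneg_left (hs.mono (by linarith)) hCg.le)
      (pow_mid hS (by linarith) (by linarith)) (Real.rpow_nonneg (mul_self_nonneg S) _)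
      (by positivity))
  have h2 : mass μ μ (fun v w => hitW γ θ δ ψ m M w v) F F ≤ Cg * δ ^ (1 + θ / 2) * T := by
    refine le_trans (le_of_eq ?_) h1
    simp only [mass]
    rw [sum_comm]
    exact sum_congr rfl fun v _ => sum_congr rfl fun w _ => by ring
  have h3 : mass μ μ (fun v w => δ ^ θ * level (θ / 32) 8 δ δ ψ ψ v w) F F ≤
      Cp * δ ^ (1 + θ / 2) * T := by
    have e : mass μ μ (fun v w => δ ^ θ * level (θ / 32) 8 δ δ ψ ψ v w) F F =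
        δ ^ θ * mass μ μ (level (θ / 32) 8 δ δ ψ ψ) F F := by
      simp only [mass, mul_sum]
      exact sum_congr rfl fun v _ => sum_congr rfl fun w _ => by ring
    rw [e]
    refine (mul_le_mul_of_nonneg_left (hplain ψ ψ δ δ hψ hψ hδ.le hδ.le F F h0 h0)
      (Real.rpow_nonneg hδ.le _)).trans ?_
    rw [Real.mul_rpow hδ.le hδ.le, hs.mul_pow]
    calc δ ^ θ * (Cp * δ ^ (1 / 2 - θ / 32 + (1 / 2 - θ / 32)) * (S * S) ^ (1 / 2 + θ / 32))
        = Cp * δ ^ (θ + (1 / 2 - θ / 32 + (1 / 2 - θ / 32))) * (S * S) ^ (1 / 2 + θ / 32) := by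
          rw [← hs.mul_pow θ]; ring
      _ ≤ Cp * δ ^ (1 + θ / 2) * T :=
          mul_le_mul (mul_le_mul_of_nonneg_left (hs.mono (by linarith)) hCp.le)
            (pow_mid hS (by linarith) (by linarith)) (Real.rpow_nonneg (mul_self_nonneg S) _)
            (by positivity)
  have hsum : mass μ μ (balW γ θ ψ m M n) F F ≤ (2 * Cg + Cp) * δ ^ (1 + θ / 2) * T := by
    rw [show mass μ μ (balW γ θ ψ m M n) F F = mass μ μ (hitW γ θ δ ψ m M) F F +
      mass μ μ (fun v w => hitW γ θ δ ψ m M w v) F F +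
      mass μ μ (fun v w => δ ^ θ * level (θ / 32) 8 δ δ ψ ψ v w) F F by
        rw [← mass_add, ← mass_add]; rfl]
    linarith
  refine (mul_le_mul_of_nonneg_left hsum (by positivity)).trans (le_of_eq ?_)
  have e : ((1 / 2 : ℝ) ^ (θ / 2)) ^ n = δ ^ (θ / 2) := by
    rw [hδdef, ← Real.rpow_natCast, ← Real.rpow_natCast, ← Real.rpow_mul (by norm_num),
      ← Real.rpow_mul (by norm_num), mul_comm]
  have e2 : (2 : ℝ) ^ n * δ = 1 := by rw [hδdef, ← mul_pow]; norm_num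
  rw [e, Real.rpow_add hδ, Real.rpow_one, pow_succ]
  calc (2 : ℝ) ^ n * 2 * ((2 * Cg + Cp) * (δ * δ ^ (θ / 2)) * T)
      = 2 * (2 * Cg + Cp) * ((2 : ℝ) ^ n * δ) * δ ^ (θ / 2) * T := by ring
    _ = _ := by rw [e2, mul_one]

lemma sum_geo_sq {r : ℝ} (hr : 0 ≤ r) (hr1 : r < 1) (T : Finset (ℕ × ℕ)) :
    ∑ e ∈ T, r ^ e.1 * r ^ e.2 ≤ (1 / (1 - r)) ^ 2 := by
  have h : ∀ J : Finset ℕ, ∑ j ∈ J, r ^ j ≤ 1 / (1 - r) := fun J => by
    rw [one_div, ← tsum_geometric_of_lt_one hr hr1]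
    exact (summable_geometric_of_lt_one hr hr1).sum_le_tsum J fun j _ => by positivity
  refine le_trans (sum_le_sum_of_subset_of_nonneg (t := T.image Prod.fst ×ˢ T.image Prod.snd)
    (fun e he => mem_product.2 ⟨mem_image_of_mem _ he, mem_image_of_mem _ he⟩)
    fun e _ _ => by positivity) ?_
  rw [sum_product, ← sum_mul_sum, sq]
  exact mul_le_mul (h _) (h _) (sum_nonneg fun j _ => by positivity)
    (div_nonneg zero_le_one (by linarith))

/-- The pairs at levels `D < 1` lose only a small power of the logarithm of the band ratio. -/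
theorem narrow_sum (η : ℝ) (hη : 0 < η) : ∃ C : ℝ, ∃ L₀ : ℕ, 0 < C ∧
    ∀ (γ : ℝ) (ψ : ℕ → ℝ) (m M : ℕ) (F : Finset ℕ), (∀ q, 0 ≤ ψ q) → 0 ∉ F →
      L₀ ≤ m → m ≤ M → M ≤ m ^ 2 →
      (∀ q ∈ F, (1 / 2 : ℝ) ^ M ≤ ψ q ∧ ψ q ≤ (1 / 2 : ℝ) ^ m) →
      mass (msr ψ) (msr ψ) (offK γ (gainExp / 32) ψ) F F ≤
        C * (1 + Real.log ((M : ℝ) / m)) ^ η *
          (tot (msr ψ) F + tot (msr ψ) F ^ (3 / 2 : ℝ)) := by
  set θ := gainExp with hθdef
  have hθ : 0 < θ := by rw [hθdef, gainExp]; norm_num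
  have hθ' : θ ≤ 1 / 100000000 := le_of_eq (by rw [hθdef, gainExp])
  set ε₁ := min (1 / 4 : ℝ) (2 * θ * η) with hε₁def
  have hε₁ : 0 < ε₁ := lt_min (by norm_num) (by positivity)
  obtain ⟨Ca, hCa, hA⟩ := level_term (θ := θ / 32) hε₁ (min_le_left _ _) (by linarith)
  obtain ⟨Cb, hCb, hB⟩ := level_term (ε := θ / 32) (θ := θ / 32) (by linarith) (by linarith)
    (by linarith)
  obtain ⟨Cc, L₀, hCc, hC⟩ := balanced_term hθ (by linarith)
  set G : ℝ := (2 : ℝ) ^ ε₁ with hG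
  have hG1 : 1 < G := Real.one_lt_rpow (by norm_num) hε₁
  set r : ℝ := (2 : ℝ) ^ (-(θ / 20)) with hr
  have hr0 : 0 ≤ r := by positivity
  have hr1 : r < 1 := Real.rpow_lt_one_of_one_lt_of_neg (by norm_num) (by linarith)
  set s : ℝ := (1 / 2 : ℝ) ^ (θ / 2) with hs
  have hs0 : 0 ≤ s := by positivity
  have hs1 : s < 1 := Real.rpow_lt_one (by norm_num) (by norm_num) (by linarith)
  set P0 : ℝ := (2 : ℝ) ^ (4 * ε₁ * (3 / θ + 2))
  set KA := Ca * (G / (G - 1)) ^ 2 * P0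
  set KB := Cb * (1 / (1 - r)) ^ 2
  set KC := Cc * (1 / (1 - s))
  have hGm : 0 < G - 1 := by linarith
  have hrm : 0 < 1 - r := by linarith
  have hsm : 0 < 1 - s := by linarith
  have hKA : 0 < KA := by positivity
  have hKB : 0 ≤ KB := by positivity
  have hKC : 0 ≤ KC := by positivity
  refine ⟨KA + KB + KC, max L₀ 1, by linarith, ?_⟩
  intro γ ψ m M F hψ h0 hm hmM hM2 hF
  set μ := msr ψ
  have hμ : ∀ q, 0 ≤ μ q := Gcd.msr_nonneg hψ
  set S := tot μ F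
  set T := S + S ^ (3 / 2 : ℝ)
  have hT : 0 ≤ T := add_nonneg (Gcd.tot_nonneg hμ F)
    (Real.rpow_nonneg (Gcd.tot_nonneg hμ F) _)
  set Λ := 1 + Real.log ((M : ℝ) / m) with hΛ
  have hm1 : (1 : ℝ) ≤ m := by exact_mod_cast le_trans (le_max_right _ _) hm
  have hΛ1 : 1 ≤ Λ := le_add_of_nonneg_right
    (Real.log_nonneg ((one_le_div (by linarith)).2 (by exact_mod_cast hmM)))
  have hΛη : 1 ≤ Λ ^ η := Real.one_le_rpow hΛ1 hη.le
  have hl2 : 0 < Real.log 2 := Real.log_pos (by norm_num)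
  set a := Real.log Λ / (8 * θ * Real.log 2) with ha
  have ha0 : 0 ≤ a := div_nonneg (Real.log_nonneg hΛ1) (by positivity)
  set n₁ := max ⌈3 / θ⌉₊ ⌈a⌉₊ with hn₁
  have hn₁le : (n₁ : ℝ) ≤ 3 / θ + a + 1 := by
    have h1 := (Nat.ceil_lt_add_one (show 0 ≤ 3 / θ by positivity)).le
    have h2 := (Nat.ceil_lt_add_one ha0).le
    have h3 : 0 ≤ 3 / θ := by positivity
    rw [hn₁, Nat.cast_max]
    exact max_le (by linarith) (by linarith)
  have hn₁3 : 3 ≤ θ * n₁ := by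
    have : 3 / θ ≤ n₁ := (Nat.le_ceil _).trans (by exact_mod_cast le_max_left _ _)
    rw [div_le_iff₀ hθ] at this
    linarith
  have hn₁a : a ≤ n₁ := (Nat.le_ceil _).trans (by exact_mod_cast le_max_right _ _)
  have hpt : ∀ v ∈ F, ∀ w ∈ F, offK γ (θ / 32) ψ v w ≤ _ := fun v hv w hw =>
    offK_le (γ := γ) hθ hθ' hn₁3 (Nat.pos_of_ne_zero fun h => h0 (h ▸ hv))
      (Nat.pos_of_ne_zero fun h => h0 (h ▸ hw)) (hF v hv) (hF w hw)
  refine (mass_mono hμ F hpt).trans ?_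
  rw [mass_add, mass_comb, mass_comb]
  set R := (range (M + 1) ×ˢ range (M + 1)).filter fun e => Easy θ n₁ e.1 e.2
  rw [← sum_filter_add_sum_filter_not R fun e => e.1 ≤ 2 * n₁ ∧ e.2 ≤ 2 * n₁]
  have hSA : ∀ e ∈ R.filter (fun e => e.1 ≤ 2 * n₁ ∧ e.2 ≤ 2 * n₁),
      (2 : ℝ) ^ (min e.1 e.2 + 1) * mass μ μ
        (level (θ / 32) 2 ((1 / 2 : ℝ) ^ e.1) ((1 / 2 : ℝ) ^ e.2) ψ ψ) F F ≤
      Ca * T * (G ^ e.1 * G ^ e.2) := by
    intro e _
    refine (hA ψ F e.1 e.2 (ε₁ * ((e.1 : ℝ) + e.2)) hψ h0 ?_).trans (le_of_eq ?_)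
    · push_cast
      have := min_le_left (e.1 : ℝ) e.2
      have := min_le_right (e.1 : ℝ) e.2
      linarith
    · rw [← pow_add, hG, ← Real.rpow_natCast ((2 : ℝ) ^ ε₁), ← Real.rpow_mul (by norm_num)]
      push_cast
      ring
  have hSB : ∀ e ∈ R.filter (fun e => ¬ (e.1 ≤ 2 * n₁ ∧ e.2 ≤ 2 * n₁)),
      (2 : ℝ) ^ (min e.1 e.2 + 1) * mass μ μ
        (level (θ / 32) 2 ((1 / 2 : ℝ) ^ e.1) ((1 / 2 : ℝ) ^ e.2) ψ ψ) F F ≤
      Cb * T * (r ^ e.1 * r ^ e.2) := by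
    intro e he
    obtain ⟨heR, hne⟩ := mem_filter.1 he
    have hgap := ((mem_filter.1 heR).2).resolve_left hne
    refine (hB ψ F e.1 e.2 (-(θ / 20) * ((e.1 : ℝ) + e.2)) hψ h0 ?_).trans (le_of_eq ?_)
    · push_cast at hgap ⊢
      have hd : |(e.1 : ℝ) - e.2| = (e.1 : ℝ) + e.2 - 2 * min (e.1 : ℝ) e.2 := by
        rcases le_total (e.1 : ℝ) e.2 with h | h
        · rw [min_eq_left h, abs_of_nonpos (by linarith)]; ring
        · rw [min_eq_right h, abs_of_nonneg (by linarith)]; ring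
      rw [hd] at hgap
      have hmn : 0 ≤ min (e.1 : ℝ) e.2 := le_min (Nat.cast_nonneg _) (Nat.cast_nonneg _)
      nlinarith [mul_nonneg hθ.le hmn]
    · rw [← pow_add, hr, ← Real.rpow_natCast ((2 : ℝ) ^ (-(θ / 20))),
        ← Real.rpow_mul (by norm_num)]
      push_cast
      ring
  have hSC : ∀ n ∈ Ioc n₁ M, (2 : ℝ) ^ (n + 1) * mass μ μ (balW γ θ ψ m M n) F F ≤
      Cc * T * s ^ n := by
    intro n hn
    have hnn : (n₁ : ℝ) ≤ n := by exact_mod_cast (mem_Ioc.1 hn).1.le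
    refine (hC γ ψ m M n F hψ h0 (le_trans (le_max_left _ _) hm) hmM hM2
      (hn₁3.trans (mul_le_mul_of_nonneg_left hnn hθ.le)) ?_).trans (le_of_eq (by ring))
    have h1 := hn₁a.trans hnn
    rw [ha, div_le_iff₀ (by positivity)] at h1
    show Λ * _ ≤ 1
    have h2 : Real.log (Λ * (((1 / 2 : ℝ) ^ n) ^ (8 * θ))) ≤ 0 := by
      rw [Real.log_mul (by linarith) (by positivity), Real.log_rpow (by positivity), Real.log_pow,
        one_div, Real.log_inv]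
      linarith
    exact (Real.log_nonpos_iff (by positivity)).1 h2
  have hgA : ∑ e ∈ R.filter (fun e => e.1 ≤ 2 * n₁ ∧ e.2 ≤ 2 * n₁), G ^ e.1 * G ^ e.2 ≤
      (G / (G - 1)) ^ 2 * P0 * Λ ^ η := by
    refine le_trans (sum_le_sum_of_subset_of_nonneg
      (t := range (2 * n₁ + 1) ×ˢ range (2 * n₁ + 1)) (fun e he => mem_product.2
        ⟨mem_range.2 (by have := (mem_filter.1 he).2.1; omega),
          mem_range.2 (by have := (mem_filter.1 he).2.2; omega)⟩)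
      fun e _ _ => by positivity) ?_
    rw [sum_product, ← sum_mul_sum, geom_sum_eq hG1.ne']
    have hg : (G ^ (2 * n₁ + 1) - 1) / (G - 1) ≤ G / (G - 1) * G ^ (2 * n₁) := by
      rw [div_mul_eq_mul_div, pow_succ']
      exact div_le_div_of_nonneg_right (by linarith) hGm.le
    have hg0 : 0 ≤ (G ^ (2 * n₁ + 1) - 1) / (G - 1) :=
      div_nonneg (by linarith [one_le_pow₀ (M₀ := ℝ) (n := 2 * n₁ + 1) hG1.le]) hGm.le
    refine (mul_le_mul hg hg hg0 (by positivity)).trans ?_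
    rw [show G / (G - 1) * G ^ (2 * n₁) * (G / (G - 1) * G ^ (2 * n₁)) =
      (G / (G - 1)) ^ 2 * (G ^ (2 * n₁) * G ^ (2 * n₁)) by ring, mul_assoc _ P0]
    refine mul_le_mul_of_nonneg_left ?_ (sq_nonneg _)
    rw [← pow_add, hG, ← Real.rpow_natCast ((2 : ℝ) ^ ε₁), ← Real.rpow_mul (by norm_num)]
    calc (2 : ℝ) ^ (ε₁ * ((2 * n₁ + 2 * n₁ : ℕ) : ℝ))
        ≤ (2 : ℝ) ^ (4 * ε₁ * (3 / θ + 2) + 4 * ε₁ * a) := by
          refine Real.rpow_le_rpow_of_exponent_le (by norm_num) ?_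
          push_cast
          nlinarith
      _ = P0 * Λ ^ (ε₁ / (2 * θ)) := by
          rw [Real.rpow_add (by norm_num), Real.rpow_def_of_pos (by norm_num : (0:ℝ) < 2)
            (4 * ε₁ * a), Real.rpow_def_of_pos (by linarith : 0 < Λ), ha]
          congr 2
          field_simp
          ring
      _ ≤ P0 * Λ ^ η := by
          refine mul_le_mul_of_nonneg_left (Real.rpow_le_rpow_of_exponent_le hΛ1 ?_) (by positivity)
          rw [div_le_iff₀ (by positivity)]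
          linarith [min_le_right (1 / 4 : ℝ) (2 * θ * η)]
  have hgC : ∑ n ∈ Ioc n₁ M, s ^ n ≤ 1 / (1 - s) := by
    rw [one_div, ← tsum_geometric_of_lt_one hs0 hs1]
    exact (summable_geometric_of_lt_one hs0 hs1).sum_le_tsum _ fun j _ => by positivity
  calc _ ≤ Ca * T * ((G / (G - 1)) ^ 2 * P0 * Λ ^ η) + Cb * T * (1 / (1 - r)) ^ 2 +
        Cc * T * (1 / (1 - s)) := by
        refine add_le_add (add_le_add ((sum_le_sum hSA).trans ?_) ((sum_le_sum hSB).trans ?_))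
          ((sum_le_sum hSC).trans ?_)
        · rw [← mul_sum]; exact mul_le_mul_of_nonneg_left hgA (by positivity)
        · rw [← mul_sum]; exact mul_le_mul_of_nonneg_left (sum_geo_sq hr0 hr1 _) (by positivity)
        · rw [← mul_sum]; exact mul_le_mul_of_nonneg_left hgC (by positivity)
    _ = KA * Λ ^ η * T + KB * 1 * T + KC * 1 * T := by simp only [KA, KB, KC]; ring
    _ ≤ KA * Λ ^ η * T + KB * Λ ^ η * T + KC * Λ ^ η * T := by gcongr
    _ = _ := by ring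

end

end Vale.Agent.P028.Sel
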