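import Vale.Agent.P028.Sel.Sift
import Vale.Agent.P028.Overlap

/-!
# Sifted solutions of an inequality along one residue class
-/

open Finset

namespace Vale.Agent.P028.Sel

noncomputable section

/-- Distance condition to an integer. -/
def NearInt (x w : ℝ) : Prop := ∃ n : ℤ, |x - n| < w

lemma nat_window (S : Finset ℕ) (m R : ℝ) (hR : 0 ≤ R) (h : ∀ j ∈ S, |(j : ℝ) - m| < R) :
    ∃ j₀ N : ℕ, (N : ℝ) ≤ 2 * R + 1 ∧ ∀ j ∈ S, j₀ ≤ j ∧ j < j₀ + N := by
  rcases S.eq_empty_or_nonempty with rfl | hne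
  · exact ⟨0, 0, by simp; linarith, by simp⟩
  refine ⟨S.min' hne, S.max' hne - S.min' hne + 1, ?_, fun j hj => ?_⟩
  · have h0 : S.min' hne ≤ S.max' hne := S.min'_le _ (S.max'_mem hne)
    have h1 := abs_lt.1 (h _ (S.min'_mem hne))
    have h2 := abs_lt.1 (h _ (S.max'_mem hne))
    push_cast [Nat.cast_sub h0]
    linarith [h1.1, h2.2]
  · have := S.min'_le j hj
    have := S.le_max' j hj
    omega

lemma survivors_shift {P : Finset ℕ} (c : ℤ) (M : ℕ) (S : Finset ℕ) (j₀ N J : ℕ)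
    (hS : S ⊆ survivors P c M J) (hwin : ∀ j ∈ S, j₀ ≤ j ∧ j < j₀ + N) :
    S.card ≤ (survivors P (c + (j₀ : ℤ) * M) M N).card := by
  refine card_le_card_of_injOn (fun j => j - j₀) (fun j hj => ?_) fun x hx y hy hxy => ?_
  · obtain ⟨-, hp⟩ := mem_filter.1 (hS hj)
    obtain ⟨h1, h2⟩ := hwin j hj
    refine mem_filter.2 ⟨mem_range.2 (by simp only; omega), fun p hpP hpM hdvd => hp p hpP hpM ?_⟩
    rwa [show c + (j₀ : ℤ) * M + ((j - j₀ : ℕ) : ℤ) * M = c + (j : ℤ) * M by
      rw [Nat.cast_sub h1]; ring] at hdvd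
  · have := (hwin x hx).1
    have := (hwin y hy).1
    simp only at hxy
    omega

/-- Sifted `j < J` with `φ + j η` near an integer. -/
lemma class_count {P : Finset ℕ} {L E : ℝ} (hs : SieveOk P L E) (c : ℤ) (M J : ℕ) (hM : 0 < M)
    (φ η w : ℝ) (hη : η ≠ 0) (hw : 0 < w) (S : Finset ℕ) (hS : S ⊆ survivors P c M J)
    (hnear : ∀ j ∈ S, NearInt (φ + j * η) w) :
    (S.card : ℝ) ≤ (|η| * J + 2 * w + 1) * ((2 * w / |η| + 1) * stepLoss P M / L + E) := by
  classical
  obtain ⟨hL, hE, hP, hsieve⟩ := hs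
  set f : ℕ → ℤ := fun j => round (φ + j * η) with hf
  have hf' : ∀ j ∈ S, |φ + j * η - f j| < w := by
    intro j hj
    obtain ⟨n, hn⟩ := hnear j hj
    exact lt_of_le_of_lt (round_le _ n) hn
  have hcard : ((S.image f).card : ℝ) ≤ 2 * (w + |η| * J / 2) + 1 := by
    refine card_int_window _ (φ + η * J / 2) _ (by positivity) fun n hn => ?_
    obtain ⟨j, hj, rfl⟩ := mem_image.1 hn
    have h1 := hf' j hj
    have hjJ : (j : ℝ) ≤ J := by exact_mod_cast (mem_range.1 (mem_filter.1 (hS hj)).1).le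
    have h2 : |(j : ℝ) * η - η * J / 2| ≤ |η| * J / 2 := by
      rw [show (j : ℝ) * η - η * J / 2 = η * ((j : ℝ) - J / 2) by ring, abs_mul, mul_div_assoc]
      refine mul_le_mul_of_nonneg_left ?_ (abs_nonneg η)
      have : (0 : ℝ) ≤ j := Nat.cast_nonneg j
      rw [abs_le]; constructor <;> linarith
    calc |(f j : ℝ) - (φ + η * J / 2)|
        = |((j : ℝ) * η - η * J / 2) - (φ + j * η - f j)| := by congr 1; ring
      _ ≤ |(j : ℝ) * η - η * J / 2| + |φ + j * η - f j| := abs_sub _ _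
      _ < w + |η| * J / 2 := by linarith
  have hfib : ∀ n ∈ S.image f,
      ((S.filter fun j => f j = n).card : ℝ) ≤ (2 * w / |η| + 1) * stepLoss P M / L + E := by
    intro n _
    have hwin : ∀ j ∈ S.filter (fun j => f j = n), |(j : ℝ) - (n - φ) / η| < w / |η| := by
      intro j hj
      obtain ⟨hjS, hjn⟩ := mem_filter.1 hj
      have h1 := hf' j hjS
      rw [hjn] at h1
      rw [show (j : ℝ) - (n - φ) / η = (φ + j * η - n) / η by field_simp; ring, abs_div]
      exact div_lt_div_of_pos_right h1 (abs_pos.2 hη)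
    obtain ⟨j₀, N, hN, hj₀⟩ := nat_window _ _ _ (by positivity) hwin
    have h1 := survivors_shift c M _ j₀ N J ((filter_subset _ _).trans hS) hj₀
    refine ((Nat.cast_le (α := ℝ)).2 h1).trans ((hsieve _ M N hM).trans ?_)
    refine add_le_add (div_le_div_of_nonneg_right ?_ hL.le) le_rfl
    refine mul_le_mul_of_nonneg_right (hN.trans (le_of_eq ?_)) (stepLoss_nonneg hP M)
    ring
  have hbound : 0 ≤ (2 * w / |η| + 1) * stepLoss P M / L + E := by
    have := stepLoss_nonneg hP M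
    positivity
  calc (S.card : ℝ) = ∑ n ∈ S.image f, ((S.filter fun j => f j = n).card : ℝ) := by
        exact_mod_cast card_eq_sum_card_image f S
    _ ≤ ∑ _n ∈ S.image f, ((2 * w / |η| + 1) * stepLoss P M / L + E) := sum_le_sum hfib
    _ = ((S.image f).card : ℝ) * ((2 * w / |η| + 1) * stepLoss P M / L + E) := by
        rw [sum_const, nsmul_eq_mul]
    _ ≤ _ := mul_le_mul_of_nonneg_right (hcard.trans (le_of_eq (by ring))) hbound

open Classical in
/-- The sifted solutions in a dyadic block. -/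
def hits (P : Finset ℕ) (α r w : ℝ) (S : ℕ) : Finset ℕ :=
  (Finset.Ico S (2 * S)).filter fun s : ℕ =>
    (∀ p ∈ P, ¬ p ∣ s) ∧ NearInt (α * s - r) w

end

end Vale.Agent.P028.Sel
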