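import Mathlib

/-!
# Inclusion and exclusion on an interval
-/

open Finset

namespace Vale.Agent.P028.Sel

noncomputable section

open Classical in
/-- Integers of an interval coprime to the primes of `T`. -/
def rough (T : Finset ℕ) (a : ℤ) (N : ℕ) : Finset ℕ :=
  (range N).filter fun j : ℕ => ∀ p ∈ T, ¬ (p : ℤ) ∣ a + j

lemma rough_abs (T : Finset ℕ) (hT : ∀ p ∈ T, p.Prime) :
    ∀ (a : ℤ) (N : ℕ), |((rough T a N).card : ℝ) - N * ∏ p ∈ T, (1 - (p : ℝ)⁻¹)|
      ≤ 2 ^ T.card - 1 := by
  classical
  induction T using Finset.induction_on with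
  | empty =>
    intro a N
    simp [rough]
  | @insert p T hpT ih =>
    intro a N
    have hT' : ∀ q ∈ T, q.Prime := fun q hq => hT q (mem_insert_of_mem hq)
    have hp : p.Prime := hT p (mem_insert_self p T)
    have hpR : (0 : ℝ) < p := by exact_mod_cast hp.pos
    -- the first multiple of `p`
    set j₀ : ℕ := ((-a) % (p : ℤ)).toNat with hj₀
    have hj₀eq : (j₀ : ℤ) = (-a) % (p : ℤ) :=
      Int.toNat_of_nonneg (Int.emod_nonneg _ (by exact_mod_cast hp.ne_zero))
    have hj₀lt : j₀ < p := by
      have := Int.emod_lt_of_pos (-a) (show (0 : ℤ) < p by exact_mod_cast hp.pos)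
      omega
    obtain ⟨c₀, hc₀⟩ : (p : ℤ) ∣ a + j₀ := by
      rw [hj₀eq]
      exact Int.dvd_of_emod_eq_zero (by rw [Int.add_emod_emod, add_neg_cancel, Int.zero_emod])
    set N' : ℕ := (N + p - 1 - j₀) / p with hN'
    set B := (rough T a N).filter fun j : ℕ => (p : ℤ) ∣ a + j with hB
    have hsplit : (rough (insert p T) a N).card + B.card = (rough T a N).card := by
      rw [← card_filter_add_card_filter_not (s := rough T a N) (fun j : ℕ => (p : ℤ) ∣ a + j), ← hB,
        add_comm]
      congr 2
      ext j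
      simp only [rough, mem_filter, mem_range, forall_mem_insert]
      tauto
    have hBcard : B.card = (rough T c₀ N').card := by
      refine (card_bij (fun i _ => j₀ + i * p) (fun i hi => ?_) (fun i _ i' _ h => ?_)
        fun j hj => ?_).symm
      · obtain ⟨hi1, hi2⟩ := mem_filter.1 hi
        have hiN := mem_range.1 hi1
        rw [hN', Nat.lt_iff_add_one_le, Nat.le_div_iff_mul_le hp.pos] at hiN
        have e : a + ((j₀ + i * p : ℕ) : ℤ) = (p : ℤ) * (c₀ + i) := by
          push_cast; linear_combination hc₀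
        refine mem_filter.2 ⟨mem_filter.2 ⟨mem_range.2 ?_, fun q hq hd => hi2 q hq ?_⟩,
          by rw [e]; exact dvd_mul_right _ _⟩
        · rw [add_mul, one_mul] at hiN; omega
        · rw [e] at hd
          rcases (Nat.prime_iff_prime_int.1 (hT' q hq)).dvd_or_dvd hd with h | h
          · have : q = p := (Nat.prime_dvd_prime_iff_eq (hT' q hq) hp).1 (by exact_mod_cast h)
            exact absurd (this ▸ hq) hpT
          · exact h
      · exact Nat.eq_of_mul_eq_mul_right hp.pos (by omega)
      · obtain ⟨hj1, hjd⟩ := mem_filter.1 hj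
        obtain ⟨hjN, hjT⟩ := mem_filter.1 hj1
        have hjN' := mem_range.1 hjN
        have hdiv : (p : ℤ) ∣ (j : ℤ) - j₀ := by
          have := dvd_sub hjd ⟨c₀, hc₀⟩
          simpa using this
        have hle : j₀ ≤ j := by
          by_contra h
          have h1 : ((j₀ : ℤ) - j) < p := by omega
          have h2 : (p : ℤ) ≤ (j₀ : ℤ) - j := Int.le_of_dvd (by omega) (by
            rw [← neg_sub]; exact dvd_neg.2 hdiv)
          omega
        obtain ⟨i, hi⟩ : p ∣ j - j₀ := by
          have h2 : (p : ℤ) ∣ ((j - j₀ : ℕ) : ℤ) := by rwa [Nat.cast_sub hle]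
          exact_mod_cast h2
        refine ⟨i, mem_filter.2 ⟨mem_range.2 ?_, fun q hq hd => hjT q hq ?_⟩, ?_⟩
        · rw [hN', Nat.lt_iff_add_one_le, Nat.le_div_iff_mul_le hp.pos, add_mul, one_mul]
          have := Nat.mul_comm p i
          omega
        · have e : a + (j : ℤ) = (p : ℤ) * (c₀ + i) := by
            have : (j : ℤ) = j₀ + (p : ℤ) * i := by
              have h3 : j = j₀ + p * i := by omega
              exact_mod_cast h3
            rw [this]; linear_combination hc₀
          rw [e]; exact hd.mul_left _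
        · have := Nat.mul_comm p i; omega
    have hN'R : |(N' : ℝ) - N / p| ≤ 1 := by
      have h1 : N' * p ≤ N + p - 1 - j₀ := Nat.div_mul_le_self _ _
      have h2 : N + p - 1 - j₀ < (N' + 1) * p := by
        rw [hN', mul_comm]; exact Nat.lt_mul_div_succ _ hp.pos
      rw [add_mul, one_mul] at h2
      have e1 : N' * p ≤ N + p := by omega
      have e2 : N ≤ N' * p + p := by omega
      have e1' : (N' : ℝ) * p ≤ (N : ℝ) + p := by exact_mod_cast e1
      have e2' : (N : ℝ) ≤ (N' : ℝ) * p + p := by exact_mod_cast e2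
      rw [show (N' : ℝ) - N / p = ((N' : ℝ) * p - N) / p by field_simp, abs_div, abs_of_pos hpR,
        div_le_one hpR, abs_le]
      constructor <;> linarith
    set Pr := ∏ q ∈ T, (1 - (q : ℝ)⁻¹) with hPr
    have hPr0 : 0 ≤ Pr := prod_nonneg fun q hq => by
      have : (1 : ℝ) ≤ q := by exact_mod_cast (hT' q hq).one_le
      have := inv_le_one_of_one_le₀ this
      linarith
    have hPr1 : Pr ≤ 1 := prod_le_one (fun q hq => by
      have : (1 : ℝ) ≤ q := by exact_mod_cast (hT' q hq).one_le
      have := inv_le_one_of_one_le₀ this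
      linarith) fun q _ => by
      have : (0 : ℝ) ≤ (q : ℝ)⁻¹ := by positivity
      linarith
    have hA := abs_le.1 (ih hT' a N)
    have hB' := abs_le.1 (ih hT' c₀ N')
    have hd := abs_le.1 hN'R
    have hcs : ((rough (insert p T) a N).card : ℝ)
        = (rough T a N).card - (rough T c₀ N').card := by
      rw [← hBcard]
      have : ((rough (insert p T) a N).card : ℝ) + B.card = (rough T a N).card := by
        exact_mod_cast hsplit
      linarith
    have hm1 : ((N' : ℝ) - N / p) * Pr ≤ 1 := by
      nlinarith [mul_le_mul_of_nonneg_right hd.2 hPr0]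
    have hm2 : -1 ≤ ((N' : ℝ) - N / p) * Pr := by
      nlinarith [mul_le_mul_of_nonneg_right hd.1 hPr0]
    rw [hcs, prod_insert hpT, card_insert_of_notMem hpT, pow_succ, ← hPr, abs_le,
      show (N : ℝ) * ((1 - (p : ℝ)⁻¹) * Pr) = N * Pr - N / p * Pr by ring]
    constructor <;> linarith [hA.1, hA.2, hB'.1, hB'.2]

/-- Upper bound for the rough integers of an interval. -/
lemma rough_le (T : Finset ℕ) (hT : ∀ p ∈ T, p.Prime) (a : ℤ) (N : ℕ) :
    ((rough T a N).card : ℝ) ≤ N * ∏ p ∈ T, (1 - (p : ℝ)⁻¹) + 2 ^ T.card := by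
  linarith [(abs_le.1 (rough_abs T hT a N)).2]

end

end Vale.Agent.P028.Sel
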