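import Vale.Agent.P031.Sieve.Count

/-!
# Exact counts over whole periods
-/

open Finset
open scoped Classical

namespace Vale.Agent.P028.Sel

noncomputable section

lemma card_range_periodic {G : ℕ → Prop} [DecidablePred G] {M : ℕ} (h : ∀ j, G (j + M) ↔ G j) (k : ℕ) :
    ((range (k * M)).filter G).card = k * ((range M).filter G).card := by
  induction k with
  | zero => simp
  | succ k ih =>
    have hk : ∀ j, G (k * M + j) ↔ G j := by
      intro j
      clear ih
      induction k with
      | zero => simp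
      | succ k ihk =>
        rw [show (k + 1) * M + j = (k * M + j) + M by ring, h, ihk]
    rw [show (k + 1) * M = k * M + M by ring, range_add, filter_union,
      card_union_of_disjoint (disjoint_filter_filter (disjoint_range_addLeftEmbedding _ _)), ih,
      filter_map, card_map, show (k + 1) = k + 1 from rfl, add_mul, one_mul]
    congr 2
    exact filter_congr fun j _ => hk j

/-- Joint classes modulo several primes over whole periods. -/
lemma card_classes (T : Finset ℕ) (hT : ∀ p ∈ T, p.Prime) {G : ℕ → ℕ → Prop}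
    (hper : P031.Periodic' G T) (N : ℕ) (hN : (∏ p ∈ T, p) ∣ N) :
    (((range N).filter fun j => ∀ p ∈ T, G p j).card : ℝ) =
      N * ∏ p ∈ T, ((P031.roots G p : ℝ) / p) := by
  obtain ⟨k, rfl⟩ := hN
  have hp : ∀ j, (∀ p ∈ T, G p (j + ∏ p ∈ T, p)) ↔ ∀ p ∈ T, G p j := by
    intro j
    refine forall₂_congr fun p hp => ?_
    rw [hper p hp (j + _), hper p hp j]
    obtain ⟨c, hc⟩ := dvd_prod_of_mem (fun p => p) hp
    rw [hc, Nat.add_mul_mod_self_left]
  have h1 := card_range_periodic (G := fun j => ∀ p ∈ T, G p j) (M := ∏ p ∈ T, p) hp k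
  have h2 : ((range (∏ p ∈ T, p)).filter fun j => ∀ p ∈ T, G p j).card =
      ∏ p ∈ T, P031.roots G p := by
    convert P031.card_allHit_range T hT hper using 2
  replace h1 := h1.trans (by rw [h2] : _ = k * ∏ p ∈ T, P031.roots G p)
  have h0 : (∏ p ∈ T, (p : ℝ)) ≠ 0 :=
    prod_ne_zero_iff.2 fun p hp => by exact_mod_cast (hT p hp).ne_zero
  rw [mul_comm (∏ p ∈ T, p) k, prod_div_distrib]
  calc _ = ((k * ∏ p ∈ T, P031.roots G p : ℕ) : ℝ) := by
        congr 1

    _ = _ := by push_cast; field_simp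

/-- An interval meets at most `N / M + 1` periods. -/
lemma card_classes_le (T : Finset ℕ) (hT : ∀ p ∈ T, p.Prime) {G : ℕ → ℕ → Prop}
    (hper : P031.Periodic' G T) (N d : ℕ) (hd : 0 < d) (hT' : (∏ p ∈ T, p) ∣ d) :
    (((range N).filter fun j => ∀ p ∈ T, G p j).card : ℝ) ≤
      ((N : ℝ) / d + 1) * (d * ∏ p ∈ T, ((P031.roots G p : ℝ) / p)) := by
  have hle : N ≤ (N / d + 1) * d := by
    have := Nat.lt_mul_div_succ N hd
    rw [mul_comm]; omega
  have h := card_le_card (filter_subset_filter (fun j => ∀ p ∈ T, G p j) (range_subset_range.2 hle))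
  refine ((Nat.cast_le (α := ℝ)).2 h).trans ?_
  rw [card_classes T hT hper _ (hT'.trans (dvd_mul_left _ _))]
  push_cast
  rw [mul_assoc]
  refine mul_le_mul_of_nonneg_right (add_le_add Nat.cast_div_le le_rfl) ?_
  exact mul_nonneg (Nat.cast_nonneg _) (prod_nonneg fun p _ => by positivity)

/-- The integers avoiding one class modulo each prime. -/
lemma roots_avoid_one {p : ℕ} (hp : p.Prime) (c M : ℤ) (hM : ¬ (p : ℤ) ∣ M) :
    P031.roots (fun p j => ¬ (p : ℤ) ∣ c + (j : ℤ) * M) p = p - 1 := by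
  have := Fact.mk hp
  have hM0 : (M : ZMod p) ≠ 0 := fun h => hM ((ZMod.intCast_zmod_eq_zero_iff_dvd M p).1 h)
  have key : ∀ j : ℕ, (p : ℤ) ∣ c + (j : ℤ) * M ↔ (j : ZMod p) = -(c : ZMod p) / M := by
    intro j
    rw [← ZMod.intCast_zmod_eq_zero_iff_dvd, eq_div_iff hM0]
    push_cast
    constructor <;> intro h <;> linear_combination h
  have h1 : ((range p).filter fun j : ℕ => (p : ℤ) ∣ c + (j : ℤ) * M) =
      {(-(c : ZMod p) / M).val} := by
    ext n
    simp only [mem_filter, mem_range, mem_singleton, key]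
    constructor
    · rintro ⟨hn, h⟩
      rw [← h, ZMod.val_natCast, Nat.mod_eq_of_lt hn]
    · rintro rfl
      exact ⟨ZMod.val_lt _, ZMod.natCast_zmod_val _⟩
  have h2 := card_filter_add_card_filter_not (s := range p) fun j : ℕ => (p : ℤ) ∣ c + (j : ℤ) * M
  rw [h1, card_singleton, card_range] at h2
  unfold P031.roots
  simp only at h2 ⊢
  convert Nat.eq_sub_of_add_eq' h2 using 2

lemma periodic_affine (T : Finset ℕ) (c M : ℤ) :
    P031.Periodic' (fun p j => ¬ (p : ℤ) ∣ c + (j : ℤ) * M) T := by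
  intro p _ n
  refine not_congr (dvd_iff_dvd_of_dvd_sub ⟨((n / p : ℕ) : ℤ) * M, ?_⟩)
  have h : ((n % p : ℕ) : ℤ) + (p : ℤ) * ((n / p : ℕ) : ℤ) = n := by
    exact_mod_cast Nat.mod_add_div n p
  linear_combination -M * h

end

end Vale.Agent.P028.Sel
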