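import Vale.Agent.P028.Sel.Classes
import Vale.Agent.P028.Sel.Periodic
import Vale.Agent.P028.Sel.Legendre

/-!
# Sifted solutions of an inequality in a dyadic block

Away from resonances the solutions `s ∈ [S, 2S)` of `‖α s - r‖ < w` surviving a sieve of density
`1 / L` number `O(g^{1/16} S / L)`.
-/

open Finset

namespace Vale.Agent.P028.Sel

noncomputable section

open Classical in
/-- Residues `c` with `S + c` coprime to the sieving primes of `q`. -/
def okClass (P : Finset ℕ) (S q : ℕ) : Finset ℕ :=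
  (range q).filter fun c : ℕ => ∀ p ∈ P.filter (fun p => p ∣ q), ¬ (p : ℤ) ∣ ((S : ℤ) + c)

lemma okClass_loss {P : Finset ℕ} (hP : ∀ p ∈ P, p.Prime) (S q : ℕ) :
    ((okClass P S q).card : ℝ) * stepLoss P q = q := by
  classical
  set T := P.filter (fun p => p ∣ q) with hT
  have hTp : ∀ p ∈ T, p.Prime := fun p hp => hP p (mem_filter.1 hp).1
  have hdvd : (∏ p ∈ T, p) ∣ q :=
    Finset.prod_primes_dvd q (fun p hp => (hTp p hp).prime) fun p hp => (mem_filter.1 hp).2
  have h := card_classes T hTp (periodic_affine T (S : ℤ) 1) q hdvd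
  simp only [mul_one] at h
  unfold okClass stepLoss
  rw [← hT, h, mul_assoc, ← prod_mul_distrib, prod_eq_one, mul_one]
  intro p hp
  have hp' := hTp p hp
  have := roots_avoid_one hp' (S : ℤ) 1 (by exact_mod_cast hp'.not_dvd_one)
  simp only [mul_one] at this
  have h1 : (1 : ℝ) < p := by exact_mod_cast hp'.one_lt
  rw [this, Nat.cast_sub hp'.one_lt.le, Nat.cast_one]
  field_simp [show (p : ℝ) - 1 ≠ 0 by linarith]

/-- The classes modulo `q` of a set of solutions. -/
lemma split_classes {P : Finset ℕ} (α r w : ℝ) (S q : ℕ) (a : ℤ) (hq : 0 < q) :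
    ∃ T : ℕ → Finset ℕ, (hits P α r w S).card = ∑ c ∈ range q, (T c).card ∧
      ∀ c ∈ range q, T c ⊆ survivors P ((S : ℤ) + c) q (S / q + 1) ∧
        ((T c).Nonempty → c ∈ okClass P S q) ∧
        ∀ j ∈ T c, NearInt (α * ((S : ℝ) + c) - r + j * (α * q - a)) w := by
  classical
  refine ⟨fun c => ((hits P α r w S).filter fun s => (s - S) % q = c).image fun s => (s - S) / q,
    ?_, ?_⟩
  · rw [card_eq_sum_card_fiberwise (f := fun s => (s - S) % q) (t := range q)
      fun s _ => mem_range.2 (Nat.mod_lt _ hq)]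
    refine sum_congr rfl fun c _ => (card_image_of_injOn ?_).symm
    intro x hx y hy hxy
    obtain ⟨hx1, hx2⟩ := mem_filter.1 (mem_coe.1 hx)
    obtain ⟨hy1, hy2⟩ := mem_filter.1 (mem_coe.1 hy)
    have := (Finset.mem_Ico.1 (mem_filter.1 hx1).1).1
    have := (Finset.mem_Ico.1 (mem_filter.1 hy1).1).1
    have e1 := Nat.div_add_mod (x - S) q
    have e2 := Nat.div_add_mod (y - S) q
    simp only at hxy
    rw [hxy, hx2] at e1
    rw [hy2] at e2
    omega
  intro c hc
  have key : ∀ j ∈ ((hits P α r w S).filter fun s => (s - S) % q = c).image fun s => (s - S) / q,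
      j < S / q + 1 ∧ (∀ p ∈ P, ¬ (p : ℤ) ∣ ((S : ℤ) + c) + (j : ℤ) * q) ∧
        NearInt (α * ((S : ℝ) + c) - r + j * (α * q - a)) w := by
    intro j hj
    obtain ⟨s, hs', rfl⟩ := mem_image.1 hj
    obtain ⟨hs1, hs2⟩ := mem_filter.1 hs'
    obtain ⟨hs3, hs4, n, hn⟩ := mem_filter.1 hs1
    obtain ⟨hlo, hhi⟩ := Finset.mem_Ico.1 hs3
    have e := Nat.div_add_mod (s - S) q
    rw [hs2] at e
    have eN : s = S + c + ((s - S) / q) * q := by
      have := Nat.mul_comm q ((s - S) / q)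
      omega
    have eR : (s : ℝ) = (S : ℝ) + c + (((s - S) / q : ℕ) : ℝ) * q := by exact_mod_cast eN
    refine ⟨Nat.lt_succ_of_le (Nat.div_le_div_right (by omega)), fun p hp hd => hs4 p hp ?_,
      n - (((s - S) / q : ℕ) : ℤ) * a, ?_⟩
    · have h2 : (p : ℤ) ∣ ((s : ℕ) : ℤ) := by
        convert hd using 1; exact_mod_cast eN
      exact_mod_cast h2
    · rw [Int.cast_sub, Int.cast_mul, Int.cast_natCast]
      convert hn using 2
      rw [eR]; ring
  refine ⟨fun j hj => mem_filter.2 ⟨mem_range.2 (key j hj).1, fun p hp _ => (key j hj).2.1 p hp⟩,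
    fun ⟨j, hj⟩ => mem_filter.2 ⟨hc, fun p hp hd => (key j hj).2.1 p (mem_filter.1 hp).1 ?_⟩,
    fun j hj => (key j hj).2.2⟩
  exact dvd_add hd (Dvd.dvd.mul_left (Int.natCast_dvd_natCast.2 (mem_filter.1 hp).2) _)

/-- Many classes: every class is met about equally. -/
lemma hits_wide {P : Finset ℕ} {L E : ℝ} (hs : SieveOk P L E) (α r w : ℝ) (S q : ℕ) (a : ℤ)
    (hq : 0 < q) (hw : 0 < w) (hη : α * q - a ≠ 0) :
    ((hits P α r w S).card : ℝ) ≤
      (|α * q - a| * ((S : ℝ) / q + 1) + 2 * w + 1) *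
        ((2 * w / |α * q - a| + 1) * q / L + q * E) := by
  classical
  obtain ⟨T, hT, hT'⟩ := split_classes (P := P) α r w S q a hq
  have hL := hs.1
  have hE := hs.2.1
  have hP := hs.2.2.1
  set X := |α * q - a| * ((S : ℝ) / q + 1) + 2 * w + 1
  set Y := 2 * w / |α * q - a| + 1
  have hX : 0 ≤ X := by positivity
  have hY : 0 ≤ Y := by positivity
  have hfib : ∀ c ∈ range q, ((T c).card : ℝ) ≤
      if c ∈ okClass P S q then X * (Y * stepLoss P q / L + E) else 0 := by
    intro c hc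
    obtain ⟨h1, h2, h3⟩ := hT' c hc
    split_ifs with hok
    · refine (class_count hs _ q _ hq _ _ w hη hw (T c) h1 h3).trans ?_
      refine mul_le_mul_of_nonneg_right ?_ ?_
      · push_cast
        exact add_le_add (add_le_add (mul_le_mul_of_nonneg_left
          (add_le_add Nat.cast_div_le le_rfl) (abs_nonneg _)) le_rfl) le_rfl
      · have := stepLoss_nonneg hP q; positivity
    · rw [not_nonempty_iff_eq_empty.1 fun h => hok (h2 h)]; simp
  rw [hT]
  push_cast
  refine (sum_le_sum hfib).trans ?_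
  rw [sum_ite_mem, inter_eq_right.2 (show okClass P S q ⊆ range q from filter_subset _ _),
    sum_const, nsmul_eq_mul]
  have h1 := okClass_loss hP S q
  have h2 : ((okClass P S q).card : ℝ) ≤ q := by
    have : (okClass P S q).card ≤ q :=
      le_trans (card_le_card (filter_subset _ _)) (card_range q).le
    exact_mod_cast this
  calc ((okClass P S q).card : ℝ) * (X * (Y * stepLoss P q / L + E))
      = X * (Y * (((okClass P S q).card : ℝ) * stepLoss P q) / L +
          ((okClass P S q).card : ℝ) * E) := by ring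
    _ ≤ _ := by rw [h1]; gcongr

/-- The loss of the large primes of `q` is bounded. -/
lemma big_loss {P : Finset ℕ} (hP : ∀ p ∈ P, p.Prime) {q : ℕ} (hq : 0 < q) :
    ∏ p ∈ P.filter (fun p => p ∣ q ∧ Real.log q / 8 < p), (p : ℝ) / ((p : ℝ) - 1) ≤
      Real.exp (32 : ℝ) := by
  classical
  set T := P.filter (fun p => p ∣ q ∧ Real.log q / 8 < p)
  rcases le_or_gt (Real.log q) 0 with h0 | h0
  · have : T = ∅ := by
      refine filter_eq_empty_iff.2 fun p hp h => ?_
      have hq1 : q = 1 := by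
        by_contra hne
        have : (2 : ℝ) ≤ q := by exact_mod_cast (by omega : 2 ≤ q)
        have := Real.log_pos (show (1 : ℝ) < q by linarith)
        linarith
      exact (hP p hp).ne_one (Nat.dvd_one.1 (hq1 ▸ h.1))
    rw [this, prod_empty]
    exact Real.one_le_exp (by norm_num)
  have hsub : T ⊆ q.primeFactors := fun p hp =>
    Nat.mem_primeFactors.2 ⟨hP p (mem_filter.1 hp).1, (mem_filter.1 hp).2.1, hq.ne'⟩
  have hcard : (T.card : ℝ) * Real.log 2 ≤ Real.log q := by
    rw [← Real.log_pow]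
    refine Real.log_le_log (by positivity) ?_
    have h3 : 2 ^ T.card ≤ q := by
      refine le_trans ?_ (Nat.le_of_dvd hq (Finset.prod_primes_dvd q
        (fun p (hp : p ∈ T) => (hP p (mem_filter.1 hp).1).prime)
        fun p (hp : p ∈ T) => (mem_filter.1 hp).2.1))
      rw [← prod_const]
      exact prod_le_prod' fun p hp => (hP p (mem_filter.1 hp).1).two_le
    exact_mod_cast h3
  calc ∏ p ∈ T, (p : ℝ) / ((p : ℝ) - 1) ≤ ∏ p ∈ T, Real.exp (16 / Real.log q) := by
        refine prod_le_prod (fun p hp => zero_le_one.trans (div_pred_le (hP p (mem_filter.1 hp).1)).1)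
          fun p hp => ?_
        have h2 : (2 : ℝ) ≤ p := by exact_mod_cast (hP p (mem_filter.1 hp).1).two_le
        have h8 := (mem_filter.1 hp).2.2
        refine le_trans ?_ ((add_comm _ _).le.trans (Real.add_one_le_exp _))
        have e : (p : ℝ) / ((p : ℝ) - 1) = 1 + 1 / ((p : ℝ) - 1) := by
          field_simp [show (p : ℝ) - 1 ≠ 0 by linarith]; ring
        rw [e]
        refine add_le_add le_rfl ?_
        rw [div_le_div_iff₀ (by linarith) h0]
        linarith
    _ = Real.exp (T.card * (16 / Real.log q)) := by rw [prod_const, ← Real.exp_nat_mul]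
    _ ≤ _ := by
        refine Real.exp_le_exp.2 ?_
        rw [← mul_div_assoc, div_le_iff₀ h0]
        have := Real.log_two_gt_d9
        nlinarith

/-- Few classes: the class representatives are sifted by the small primes of `q`. -/
lemma hits_narrow {P : Finset ℕ} {L E : ℝ} (hs : SieveOk P L E) (α r w : ℝ) (S q : ℕ) (a : ℤ)
    (hq : 0 < q) (hw : 0 < w) (hcop : a.natAbs.Coprime q) (hη : |α * q - a| ≤ 1 / q) :
    ((hits P α r w S).card : ℝ) ≤
      Real.exp 32 * (2 * ((w + |α * q - a| * S / q) * q + 2) + 1 + (q : ℝ) ^ (1 / 4 : ℝ)) *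
        (((S : ℝ) / q + 1) / L) +
      q * E := by
  classical
  obtain ⟨T, hT, hT'⟩ := split_classes (P := P) α r w S q a hq
  obtain ⟨hL, hE, hP, hsieve⟩ := hs
  set η := α * q - a with hηdef
  set C := (range q).filter fun c => (T c).Nonempty with hC
  have hqR : (0 : ℝ) < q := by exact_mod_cast hq
  set f : ℕ → ℤ := fun c => (c : ℤ) * a - q * round ((c : ℝ) * a / q + (α * S - r)) with hf
  set m := -((q : ℝ) * (α * S - r))
  set R := (w + |η| * S / q) * q + 2 with hR
  have hwin : ∀ c ∈ C, |(f c : ℝ) - m| < R := by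
    intro c hc
    obtain ⟨hcq, j, hj⟩ := mem_filter.1 hc
    obtain ⟨h1, -, h3⟩ := hT' c hcq
    obtain ⟨n, hn⟩ := h3 j hj
    have hjJ : (j : ℝ) ≤ (S : ℝ) / q := by
      have := Nat.lt_succ_iff.1 (mem_range.1 (mem_filter.1 (h1 hj)).1)
      exact le_trans (by exact_mod_cast this) Nat.cast_div_le
    have hcq' : (c : ℝ) ≤ q := by exact_mod_cast (mem_range.1 hcq).le
    have hrd := round_le ((c : ℝ) * a / q + (α * S - r)) n
    have e : (c : ℝ) * a / q + (α * S - r) - n =
        (α * ((S : ℝ) + c) - r + j * η - n) - (j + (c : ℝ) / q) * η := by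
      rw [hηdef]; field_simp; ring
    have h4 : |(c : ℝ) * a / q + (α * S - r) - n| < w + ((S : ℝ) / q + 1) * |η| := by
      rw [e]
      refine lt_of_le_of_lt (abs_sub _ _) ?_
      rw [abs_mul, abs_of_nonneg (a := (j : ℝ) + c / q) (by positivity)]
      refine add_lt_add_of_lt_of_le hn (mul_le_mul_of_nonneg_right (add_le_add hjJ ?_) (abs_nonneg _))
      rw [div_le_one hqR]; exact hcq'
    have h5 : (f c : ℝ) - m =
        (q : ℝ) * ((c : ℝ) * a / q + (α * S - r) - round ((c : ℝ) * a / q + (α * S - r))) := by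
      rw [hf]; push_cast; field_simp; ring
    rw [h5, abs_mul, abs_of_pos hqR]
    refine lt_of_lt_of_le (mul_lt_mul_of_pos_left (lt_of_le_of_lt hrd h4) hqR) ?_
    have h6 : (q : ℝ) * |η| ≤ 1 := by
      rw [le_div_iff₀ hqR] at hη; linarith
    rw [hR]
    nlinarith [show (q : ℝ) * (w + ((S : ℝ) / q + 1) * |η|)
      = (w + |η| * S / q) * q + q * |η| by ring]
  set T0 := P.filter (fun p => p ∣ q ∧ (p : ℝ) ≤ Real.log q / 8) with hT0
  have hT0p : ∀ p ∈ T0, p.Prime := fun p hp => hP p (mem_filter.1 hp).1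
  have hR0 : 0 ≤ R := by positivity
  have hfinj : Set.InjOn f C := by
    intro x hx y hy hxy
    have hx' := mem_range.1 (mem_filter.1 (mem_coe.1 hx)).1
    have hy' := mem_range.1 (mem_filter.1 (mem_coe.1 hy)).1
    have hd : (q : ℤ) ∣ ((x : ℤ) - y) * a := by
      refine ⟨round ((x : ℝ) * a / q + (α * S - r)) - round ((y : ℝ) * a / q + (α * S - r)), ?_⟩
      rw [hf] at hxy; simp only at hxy
      linear_combination hxy
    have hd' : (q : ℤ) ∣ (x : ℤ) - y := IsCoprime.dvd_of_dvd_mul_right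
      (Int.isCoprime_iff_nat_coprime.2 (by simpa using hcop.symm)) hd
    have : (x : ℤ) - y = 0 := Int.eq_zero_of_dvd_of_natAbs_lt_natAbs hd' (by omega)
    omega
  have hcount : (C.card : ℝ) ≤
      (2 * R + 1) * ∏ p ∈ T0, (1 - (p : ℝ)⁻¹) + 2 ^ T0.card := by
    have hπ : 0 ≤ ∏ p ∈ T0, (1 - (p : ℝ)⁻¹) := prod_nonneg fun p hp =>
      (Gcd.one_sub_inv_pos (hT0p p hp)).le
    rcases C.eq_empty_or_nonempty with h0 | hne
    · rw [h0, card_empty, Nat.cast_zero]
      positivity
    set lo := (C.image f).min' (hne.image f) with hlo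
    set hi := (C.image f).max' (hne.image f) with hhi
    set N := (hi - lo).toNat + 1 with hN
    have hlh : lo ≤ hi := min'_le _ _ (max'_mem _ _)
    have hNR : (N : ℝ) ≤ 2 * R + 1 := by
      obtain ⟨c1, hc1, e1⟩ := mem_image.1 (min'_mem (C.image f) (hne.image f))
      obtain ⟨c2, hc2, e2⟩ := mem_image.1 (max'_mem (C.image f) (hne.image f))
      have b1 := abs_lt.1 (hwin c1 hc1)
      have b2 := abs_lt.1 (hwin c2 hc2)
      rw [e1] at b1
      rw [e2] at b2
      have e3 : ((hi - lo).toNat : ℝ) = (hi : ℝ) - lo := by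
        rw [← Int.cast_natCast (R := ℝ), Int.toNat_of_nonneg (by omega)]; push_cast; ring
      rw [hN]; push_cast; rw [e3]
      simp only [← hlo, ← hhi] at b1 b2
      linarith [b1.1, b2.2]
    have hmap : C.card ≤ (rough T0 (lo + a * S) N).card := by
      refine card_le_card_of_injOn (fun c => (f c - lo).toNat) (fun c hc => ?_) fun x hx y hy h => ?_
      · have h1 : lo ≤ f c := min'_le _ _ (mem_image_of_mem f hc)
        have h2 : f c ≤ hi := le_max' _ _ (mem_image_of_mem f hc)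
        refine mem_filter.2 ⟨mem_range.2 (by simp only; omega), fun p hp hd => ?_⟩
        simp only at hd
        rw [Int.toNat_of_nonneg (by omega)] at hd
        obtain ⟨hpP, hpq, -⟩ := mem_filter.1 hp
        obtain ⟨hcq, hne'⟩ := mem_filter.1 hc
        have hok := (mem_filter.1 ((hT' c hcq).2.1 hne')).2 p (mem_filter.2 ⟨hpP, hpq⟩)
        have hpa : ¬ (p : ℤ) ∣ a := fun h => by
          have h' : p ∣ a.natAbs := Int.natCast_dvd.1 h
          exact (hP p hpP).ne_one (Nat.dvd_one.1 (hcop ▸ Nat.dvd_gcd h' hpq))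
        refine hok (((Nat.prime_iff_prime_int.1 (hP p hpP)).dvd_or_dvd ?_).resolve_right hpa)
        have hq' : (p : ℤ) ∣ (q : ℤ) := Int.natCast_dvd_natCast.2 hpq
        have h4 := dvd_add hd (hq'.mul_right (round ((c : ℝ) * a / q + (α * S - r))))
        convert h4 using 1
        rw [hf]; simp only; ring
      · have h1 : lo ≤ f x := min'_le _ _ (mem_image_of_mem f hx)
        have h2 : lo ≤ f y := min'_le _ _ (mem_image_of_mem f hy)
        simp only at h
        exact hfinj hx hy (by omega)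
    refine ((Nat.cast_le (α := ℝ)).2 hmap).trans ((rough_le T0 hT0p _ N).trans ?_)
    exact add_le_add (mul_le_mul_of_nonneg_right hNR hπ) le_rfl
  -- the loss of the step
  have hsplit : stepLoss P q = (∏ p ∈ T0, (p : ℝ) / ((p : ℝ) - 1)) *
      ∏ p ∈ P.filter (fun p => p ∣ q ∧ Real.log q / 8 < p), (p : ℝ) / ((p : ℝ) - 1) := by
    rw [stepLoss, ← prod_filter_mul_prod_filter_not (P.filter (fun p => p ∣ q))
      (fun p : ℕ => (p : ℝ) ≤ Real.log q / 8), filter_filter, filter_filter, hT0]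
    simp only [not_le]
  have hT0loss : 0 ≤ ∏ p ∈ T0, (p : ℝ) / ((p : ℝ) - 1) := prod_nonneg fun p hp =>
    zero_le_one.trans (div_pred_le (hT0p p hp)).1
  have hprod1 : (∏ p ∈ T0, (1 - (p : ℝ)⁻¹)) * ∏ p ∈ T0, (p : ℝ) / ((p : ℝ) - 1) = 1 := by
    rw [← prod_mul_distrib]
    refine prod_eq_one fun p hp => ?_
    have h1 : (1 : ℝ) < p := by exact_mod_cast (hT0p p hp).one_lt
    field_simp [show (p : ℝ) - 1 ≠ 0 by linarith]
  have hsmall : (2 : ℝ) ^ T0.card * ∏ p ∈ T0, (p : ℝ) / ((p : ℝ) - 1) ≤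
      (q : ℝ) ^ (1 / 4 : ℝ) := by
    have h1 : ∏ p ∈ T0, (p : ℝ) / ((p : ℝ) - 1) ≤ (2 : ℝ) ^ T0.card :=
      (prod_le_prod (fun p hp => zero_le_one.trans (div_pred_le (hT0p p hp)).1)
        fun p hp => (div_pred_le (hT0p p hp)).2).trans (le_of_eq (prod_const _))
    refine (mul_le_mul_of_nonneg_left h1 (by positivity)).trans ?_
    rcases T0.eq_empty_or_nonempty with h0 | ⟨p0, hp0⟩
    · rw [h0, card_empty]; simp only [pow_zero, mul_one]
      exact Real.one_le_rpow (by exact_mod_cast hq) (by norm_num)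
    have hl0 : 0 ≤ Real.log q / 8 := (Nat.cast_nonneg p0).trans (mem_filter.1 hp0).2.2
    have hcard : (T0.card : ℝ) ≤ Real.log q / 8 := by
      have hsub : T0 ⊆ Icc 1 ⌊Real.log q / 8⌋₊ := fun p hp =>
        mem_Icc.2 ⟨(hT0p p hp).one_lt.le, Nat.le_floor (mem_filter.1 hp).2.2⟩
      refine le_trans ?_ (Nat.floor_le hl0)
      exact_mod_cast (card_le_card hsub).trans_eq (by simp)
    rw [Real.rpow_def_of_pos hqR, ← pow_add, ← Real.rpow_natCast, Real.rpow_def_of_pos (by norm_num)]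
    refine Real.exp_le_exp.2 ?_
    push_cast
    nlinarith [Real.log_two_lt_d9, mul_le_mul_of_nonneg_left hcard
      (Real.log_nonneg (show (1 : ℝ) ≤ 2 by norm_num))]
  have hfib : ∀ c ∈ range q, ((T c).card : ℝ) ≤
      if c ∈ C then ((S : ℝ) / q + 1) * stepLoss P q / L + E else 0 := by
    intro c hc
    split_ifs with hcC
    · refine le_trans ?_ ((hsieve ((S : ℤ) + c) q (S / q + 1) hq).trans ?_)
      · exact_mod_cast card_le_card (hT' c hc).1
      · refine add_le_add (div_le_div_of_nonneg_right ?_ hL.le) le_rfl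
        refine mul_le_mul_of_nonneg_right ?_ (stepLoss_nonneg hP q)
        push_cast
        exact add_le_add Nat.cast_div_le le_rfl
    · rw [not_nonempty_iff_eq_empty.1 fun h => hcC (mem_filter.2 ⟨hc, h⟩)]; simp
  rw [hT]
  push_cast
  refine (sum_le_sum hfib).trans ?_
  rw [sum_ite_mem, inter_eq_right.2 (show C ⊆ range q from filter_subset _ _), sum_const,
    nsmul_eq_mul, mul_add]
  refine add_le_add ?_ ?_
  · set B := ∏ p ∈ P.filter (fun p => p ∣ q ∧ Real.log q / 8 < p), (p : ℝ) / ((p : ℝ) - 1)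
    have hB : B ≤ Real.exp 32 := big_loss hP hq
    have hB0 : 0 ≤ B := prod_nonneg fun p hp =>
      zero_le_one.trans (div_pred_le (hP p (mem_filter.1 hp).1)).1
    have hJ : 0 ≤ ((S : ℝ) / q + 1) / L := by positivity
    calc (C.card : ℝ) * (((S : ℝ) / q + 1) * stepLoss P q / L)
        = ((C.card : ℝ) * ∏ p ∈ T0, (p : ℝ) / ((p : ℝ) - 1)) * B * (((S : ℝ) / q + 1) / L) := by
          rw [hsplit]; ring
      _ ≤ (2 * R + 1 + (q : ℝ) ^ (1 / 4 : ℝ)) * Real.exp 32 * (((S : ℝ) / q + 1) / L) := by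
          refine mul_le_mul_of_nonneg_right (mul_le_mul ?_ hB hB0 (by positivity)) hJ
          refine (mul_le_mul_of_nonneg_right hcount hT0loss).trans ?_
          rw [add_mul, mul_assoc, hprod1, mul_one]
          exact add_le_add le_rfl hsmall
      _ = _ := by ring
  · refine mul_le_mul_of_nonneg_right ?_ hE
    exact_mod_cast (card_le_card (filter_subset _ _)).trans (card_range q).le

/-- The arithmetic of the case of few classes. -/
lemma narrow_arith {L E G s w X η' q : ℝ} {S : ℕ} (hL : 0 < L) (hE : 0 ≤ E) (hG0 : 0 < G)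
    (hG1 : G ≤ 1) (hs1 : 1 ≤ s) (hss : s * s = S) (hq : 0 < q) (hqs : q ≤ s) (hwG : w ≤ G)
    (hXG : X ≤ G) (hX : η' = X) (hinv : 1 / q ≤ G ^ (2 : ℕ)) :
    Real.exp 32 * (2 * ((w + η') * q + 2) + 1 + q ^ (1 / 4 : ℝ)) * (((S : ℝ) / q + 1) / L) +
        q * E ≤
      26 * Real.exp 32 * G * S / L + 26 * Real.exp 32 * s * E := by
  have hexp : (1 : ℝ) ≤ Real.exp 32 := Real.one_le_exp (by norm_num)
  have hG2 : G ^ (2 : ℕ) ≤ G := by nlinarith
  have hJ : (S : ℝ) / q + 1 ≤ 2 * ((S : ℝ) / q) := by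
    have : 1 ≤ (S : ℝ) / q := by
      rw [le_div_iff₀ hq, one_mul]; nlinarith
    linarith
  have hpow : q ^ (1 / 4 : ℝ) / q ≤ G := by
    have e : q ^ (1 / 4 : ℝ) / q = (1 / q) ^ (3 / 4 : ℝ) := by
      rw [one_div q, Real.inv_rpow hq.le, ← Real.rpow_neg hq.le, ← Real.rpow_sub_one hq.ne']
      norm_num
    rw [e]
    refine (Real.rpow_le_rpow (by positivity) hinv (by norm_num)).trans ?_
    rw [← Real.rpow_natCast, ← Real.rpow_mul hG0.le]
    exact (Real.rpow_le_rpow_of_exponent_ge hG0 hG1 (by norm_num)).trans (Real.rpow_one G).le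
  refine add_le_add ?_ (mul_le_mul_of_nonneg_right (by nlinarith) hE)
  subst hX
  have h0 : 0 ≤ Real.exp 32 := Real.exp_nonneg _
  have hS0 : (0 : ℝ) ≤ S := Nat.cast_nonneg _
  have h2 : (2 * ((w + η') * q + 2) + 1 + q ^ (1 / 4 : ℝ)) / q ≤ 10 * G := by
    have e : (2 * ((w + η') * q + 2) + 1 + q ^ (1 / 4 : ℝ)) / q =
        2 * (w + η') + 5 * (1 / q) + q ^ (1 / 4 : ℝ) / q := by
      field_simp; ring
    rw [e]
    linarith
  rw [div_le_iff₀ hq] at h2
  calc Real.exp 32 * (2 * ((w + η') * q + 2) + 1 + q ^ (1 / 4 : ℝ)) * (((S : ℝ) / q + 1) / L)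
      ≤ Real.exp 32 * (10 * G * q) * ((2 * ((S : ℝ) / q)) / L) := by
        refine mul_le_mul (mul_le_mul_of_nonneg_left h2 h0) (div_le_div_of_nonneg_right hJ hL.le)
          (div_nonneg (add_nonneg (div_nonneg hS0 hq.le) zero_le_one) hL.le) ?_
        exact mul_nonneg h0 (mul_nonneg (by linarith) hq.le)
    _ = 20 * Real.exp 32 * G * S / L := by field_simp; ring
    _ ≤ _ := by gcongr; norm_num

/-- Solutions in a block without resonance. -/
theorem hits_le : ∃ K : ℝ, 0 < K ∧ ∀ (P : Finset ℕ) (L E : ℝ), SieveOk P L E →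
    ∀ (α r w g : ℝ) (S : ℕ), 0 < g → g ≤ 1 → 0 < w → w ≤ g ^ (1 / 2 : ℝ) →
      g ^ (-8 : ℝ) ≤ S →
      (∀ q : ℕ, 0 < q → (q : ℝ) ≤ g ^ (-(1 / 8) : ℝ) → ∀ a : ℤ,
        w * g ^ (-(1 / 2) : ℝ) ≤ |(q : ℝ) * α - a| * ((S : ℝ) / q)) →
      ((hits P α r w S).card : ℝ) ≤
        K * g ^ (1 / 16 : ℝ) * S / L + K * (S : ℝ) ^ (1 / 2 : ℝ) * E := by
  refine ⟨26 * Real.exp 32, by positivity, ?_⟩
  intro P L E hs α r w g S hg hg1 hw hwg hS hres
  have hL := hs.1
  have hE := hs.2.1
  have hexp : (1 : ℝ) ≤ Real.exp 32 := Real.one_le_exp (by norm_num)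
  have hg8 : 1 ≤ g ^ (-8 : ℝ) := Real.one_le_rpow_of_pos_of_le_one_of_nonpos hg hg1 (by norm_num)
  have hS1 : (1 : ℝ) ≤ S := hg8.trans hS
  have hS0 : 0 < S := by exact_mod_cast lt_of_lt_of_le one_pos hS1
  set Q := Nat.sqrt S with hQ
  have hQ0 : 0 < Q := Nat.sqrt_pos.2 hS0
  obtain ⟨x, hx1, hx2⟩ := Real.exists_rat_abs_sub_le_and_den_le α hQ0
  set q := x.den with hq
  set a := x.num with ha
  have hq0 : 0 < q := x.den_pos
  have hqR : (0 : ℝ) < q := by exact_mod_cast hq0
  set η := α * q - a with hηdef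
  set G := g ^ (1 / 16 : ℝ) with hG
  have hG0 : 0 < G := Real.rpow_pos_of_pos hg _
  have hG1 : G ≤ 1 := Real.rpow_le_one hg.le hg1 (by norm_num)
  set s := (S : ℝ) ^ (1 / 2 : ℝ) with hs'
  have hs1 : 1 ≤ s := Real.one_le_rpow hS1 (by norm_num)
  have hss : s * s = S := by
    rw [hs', ← Real.rpow_add (by positivity)]; norm_num
  have hqs : (q : ℝ) ≤ s := by
    have h1 : ((q * q : ℕ) : ℝ) ≤ S := by
      exact_mod_cast le_trans (Nat.mul_le_mul hx2 hx2) (Nat.sqrt_le S)
    push_cast at h1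
    nlinarith
  have hQs : s ≤ (Q : ℝ) + 1 := by
    have h1 : (S : ℝ) ≤ (((Q + 1) * (Q + 1) : ℕ) : ℝ) := by
      exact_mod_cast (Nat.lt_succ_sqrt S).le
    push_cast at h1
    nlinarith
  have hη1 : |η| ≤ 1 / ((Q : ℝ) + 1) := by
    have e : η = (α - (x : ℝ)) * q := by
      rw [hηdef, Rat.cast_def, ← hq, ← ha]; field_simp
    rw [e, abs_mul, abs_of_pos hqR]
    refine (mul_le_mul_of_nonneg_right hx1 hqR.le).trans (le_of_eq ?_)
    field_simp
  have hηq : |η| ≤ 1 / q := by
    refine hη1.trans (one_div_le_one_div_of_le hqR ?_)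
    have : (q : ℝ) ≤ Q := by exact_mod_cast hx2
    linarith
  have hηs : |η| * s ≤ 1 := by
    rw [le_div_iff₀ (by linarith)] at hη1
    exact (mul_le_mul_of_nonneg_left hQs (abs_nonneg _)).trans hη1
  have hsG : s ≤ G * S := by
    rw [← hss, ← mul_assoc]
    refine le_mul_of_one_le_left (by linarith) ?_
    calc (1 : ℝ) ≤ G * (g ^ (-8 : ℝ)) ^ (1 / 2 : ℝ) := by
          rw [hG, ← Real.rpow_mul hg.le, ← Real.rpow_add hg]
          exact Real.one_le_rpow_of_pos_of_le_one_of_nonpos hg hg1 (by norm_num)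
      _ ≤ G * s := mul_le_mul_of_nonneg_left (Real.rpow_le_rpow (by linarith) hS (by norm_num)) hG0.le
  have hwG : w ≤ G := hwg.trans (Real.rpow_le_rpow_of_exponent_ge hg hg1 (by norm_num))
  have hwG' : w / G ≤ G := by
    rw [div_le_iff₀ hG0, hG, ← Real.rpow_add hg]
    exact hwg.trans (Real.rpow_le_rpow_of_exponent_ge hg hg1 (by norm_num))
  have hw1 : w ≤ 1 := hwG.trans hG1
  set X := |η| * ((S : ℝ) / q) with hX
  rcases le_or_gt (w / G) X with hbig | hsmall
  · have hX0 : 0 < X := lt_of_lt_of_le (by positivity) hbig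
    have hη0 : η ≠ 0 := by
      intro h; rw [hX, h] at hX0; simp at hX0
    refine (hits_wide hs α r w S q a hq0 hw hη0).trans ?_
    have h1 : |η| * ((S : ℝ) / q + 1) + 2 * w + 1 ≤ X + 4 := by
      have : |η| ≤ 1 := hηq.trans ((div_le_one hqR).2 (by exact_mod_cast hq0))
      rw [mul_add, mul_one, ← hX]; linarith
    have hq' : (q : ℝ) * (X + 4) ≤ 5 * s := by
      have e : (q : ℝ) * X = |η| * s * s := by
        rw [hX, mul_assoc |η| s s, hss]; field_simp
      nlinarith [mul_le_mul_of_nonneg_right hηs (by linarith : (0 : ℝ) ≤ s)]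
    have h2 : (X + 4) * (2 * w / |η|) * q ≤ 10 * G * S := by
      have e : 2 * w / |η| * q = 2 * w * S / X := by
        rw [hX]; field_simp
      have h3 : w / X ≤ G := by
        rw [div_le_iff₀ hX0]
        rw [div_le_iff₀ hG0] at hbig
        linarith
      calc (X + 4) * (2 * w / |η|) * q = 2 * S * (w + 4 * (w / X)) := by
            rw [mul_assoc, e]; field_simp
        _ ≤ 2 * S * (G + 4 * G) := by gcongr
        _ = _ := by ring
    calc (|η| * ((S : ℝ) / q + 1) + 2 * w + 1) * ((2 * w / |η| + 1) * q / L + q * E)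
        ≤ (X + 4) * ((2 * w / |η| + 1) * q / L + q * E) :=
          mul_le_mul_of_nonneg_right h1 (by positivity)
      _ = ((X + 4) * (2 * w / |η|) * q + q * (X + 4)) / L + q * (X + 4) * E := by ring
      _ ≤ (10 * G * S + 5 * (G * S)) / L + 5 * s * E := by
          refine add_le_add (div_le_div_of_nonneg_right (add_le_add h2 (hq'.trans ?_)) hL.le)
            (mul_le_mul_of_nonneg_right hq' hE)
          linarith
      _ ≤ _ := by
          refine add_le_add ?_ ?_
          · refine le_trans (le_of_eq (by ring : _ = 15 * G * S / L)) ?_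
            gcongr; nlinarith
          · gcongr; nlinarith
  · have hqg : g ^ (-(1 / 8) : ℝ) < q := by
      by_contra hcon
      have h := hres q hq0 (not_lt.1 hcon) a
      rw [show (q : ℝ) * α - a = η by rw [hηdef]; ring, ← hX] at h
      have : w / G ≤ w * g ^ (-(1 / 2) : ℝ) := by
        rw [hG, div_eq_mul_inv, ← Real.rpow_neg hg.le]
        exact mul_le_mul_of_nonneg_left
          (Real.rpow_le_rpow_of_exponent_ge hg hg1 (by norm_num)) hw.le
      linarith
    have hqg_inv : 1 / (q : ℝ) ≤ G ^ (2 : ℕ) := by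
      rw [one_div, inv_le_comm₀ hqR (by positivity)]
      refine le_trans (le_of_eq ?_) hqg.le
      rw [hG, ← Real.rpow_natCast, ← Real.rpow_mul hg.le, ← Real.rpow_neg hg.le]; norm_num
    refine (hits_narrow hs α r w S q a hq0 hw ?_ hηq).trans ?_
    · exact x.reduced
    exact narrow_arith (X := X) hL hE hG0 hG1 hs1 hss hqR hqs hwG
      (hsmall.le.trans hwG') (by rw [hX, hηdef]; ring) hqg_inv

end

end Vale.Agent.P028.Sel
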