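import Vale.Agent.P028.Sel.Classes

/-!
# A measure with decaying cosine coefficients gives small mass to the points close to `(1/d) ℤ`

The bound comes from the Fejér kernel.
-/

open MeasureTheory Finset

namespace Vale.Agent.P028.Sel

noncomputable section

open scoped Classical

variable {μ : Measure ℝ} [IsFiniteMeasure μ]

/-- The Fejér sum of order `N` on the frequencies that are multiples of `d`. -/
def fejer (N : ℕ) (d : ℤ) (t : ℝ) : ℝ :=
  ∑ j ∈ range N, ∑ k ∈ range N, Real.cos (2 * Real.pi * (((j : ℤ) - k) * d : ℤ) * t)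

lemma fejer_eq (N : ℕ) (d : ℤ) (t : ℝ) : fejer N d t =
    (∑ j ∈ range N, Real.cos (2 * Real.pi * j * (t * d))) ^ 2 +
      (∑ j ∈ range N, Real.sin (2 * Real.pi * j * (t * d))) ^ 2 := by
  rw [sq, sq, sum_mul_sum, sum_mul_sum, ← sum_add_distrib]
  refine sum_congr rfl fun j _ => ?_
  rw [← sum_add_distrib]
  refine sum_congr rfl fun k _ => ?_
  rw [← Real.cos_sub]
  push_cast
  ring_nf

lemma fejer_nonneg (N : ℕ) (d : ℤ) (t : ℝ) : 0 ≤ fejer N d t := by
  rw [fejer_eq]; positivity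

lemma fejer_ge (n : ℕ) (d : ℤ) (t : ℝ) (h : NearInt (t * d) ((1 / 2 : ℝ) ^ (n + 3))) :
    ((2 : ℝ) ^ n) ^ 2 / 4 ≤ fejer (2 ^ n) d t := by
  obtain ⟨m, hm⟩ := h
  rw [fejer_eq]
  refine le_add_of_le_of_nonneg ?_ (sq_nonneg _)
  have hc : ∀ j ∈ range (2 ^ n), (1 / 2 : ℝ) ≤ Real.cos (2 * Real.pi * j * (t * d)) := by
    intro j hj
    have hjN : (j : ℝ) ≤ (2 : ℝ) ^ n := by exact_mod_cast (mem_range.1 hj).le
    have he : (j : ℝ) * |t * d - m| ≤ 1 / 8 := by
      refine (mul_le_mul hjN hm.le (abs_nonneg _) (by positivity)).trans (le_of_eq ?_)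
      rw [pow_add, ← mul_assoc, ← mul_pow]; norm_num
    have e : 2 * Real.pi * j * (t * d) =
        2 * Real.pi * j * (t * d - m) + ((j * m : ℤ) : ℝ) * (2 * Real.pi) := by push_cast; ring
    rw [e, Real.cos_add_int_mul_two_pi, ← Real.cos_abs, ← Real.cos_pi_div_three]
    refine Real.cos_le_cos_of_nonneg_of_le_pi (abs_nonneg _)
      (by linarith [Real.pi_pos]) ?_
    rw [abs_mul, abs_of_nonneg (by positivity : (0 : ℝ) ≤ 2 * Real.pi * j)]
    have h1 := mul_le_mul_of_nonneg_left he (by positivity : (0 : ℝ) ≤ 2 * Real.pi)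
    nlinarith [Real.pi_pos]
  have hs := sum_le_sum hc
  rw [sum_const, card_range, nsmul_eq_mul] at hs
  push_cast at hs
  calc ((2 : ℝ) ^ n) ^ 2 / 4 = ((2 : ℝ) ^ n * (1 / 2)) ^ 2 := by ring
    _ ≤ _ := pow_le_pow_left₀ (by positivity) hs 2

lemma sum_rpow_neg_le {b : ℝ} (hb : 0 ≤ b) (n : ℕ) :
    ∑ l ∈ Icc 1 (2 ^ n), ((l : ℕ) : ℝ) ^ (-(2 * b)) ≤ 2 * ((2 : ℝ) ^ n) * ((2 : ℝ) ^ (-b)) ^ n +
      2 * (2 : ℝ) ^ ((n : ℝ) / 2) := by
  set M := ⌊(2 : ℝ) ^ ((n : ℝ) / 2)⌋₊ with hM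
  rw [← sum_filter_add_sum_filter_not (Icc 1 (2 ^ n)) (fun l => l ≤ M)]
  rw [add_comm]
  refine add_le_add ?_ ?_
  · refine (sum_le_card_nsmul _ _ (((2 : ℝ) ^ (-b)) ^ n) fun l hl => ?_).trans ?_
    · obtain ⟨-, hlM⟩ := mem_filter.1 hl
      have h1 : (2 : ℝ) ^ ((n : ℝ) / 2) ≤ (l : ℝ) := by
        refine (Nat.lt_floor_add_one _).le.trans ?_
        exact_mod_cast (show M + 1 ≤ l by omega)
      refine (Real.rpow_le_rpow_of_nonpos (by positivity) h1 (by linarith)).trans (le_of_eq ?_)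
      rw [← Real.rpow_natCast, ← Real.rpow_mul (by norm_num), ← Real.rpow_mul (by norm_num)]
      ring_nf
    rw [nsmul_eq_mul]
    refine mul_le_mul_of_nonneg_right ?_ (by positivity)
    have h1 : ((Icc 1 (2 ^ n)).filter fun l => ¬ l ≤ M).card ≤ 2 ^ n :=
      (card_filter_le _ _).trans (by simp)
    have h2 : (((Icc 1 (2 ^ n)).filter fun l => ¬ l ≤ M).card : ℝ) ≤ (2 : ℝ) ^ n := by
      exact_mod_cast h1
    have : (0 : ℝ) ≤ (2 : ℝ) ^ n := by positivity
    linarith
  · refine (sum_le_card_nsmul _ _ (1 : ℝ) fun l hl => ?_).trans ?_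
    · refine Real.rpow_le_one_of_one_le_of_nonpos ?_ (by linarith)
      exact_mod_cast (mem_Icc.1 (mem_filter.1 hl).1).1
    rw [nsmul_eq_mul, mul_one]
    have h1 : ((Icc 1 (2 ^ n)).filter fun l => l ≤ M).card ≤ M := by
      refine (card_le_card (t := Icc 1 M) fun l hl => ?_).trans (by simp)
      obtain ⟨h1, h2⟩ := mem_filter.1 hl
      exact mem_Icc.2 ⟨(mem_Icc.1 h1).1, h2⟩
    have h2 : (((Icc 1 (2 ^ n)).filter fun l => l ≤ M).card : ℝ) ≤ (2 : ℝ) ^ ((n : ℝ) / 2) :=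
      le_trans (by exact_mod_cast h1) (Nat.floor_le (by positivity))
    have : (0 : ℝ) ≤ (2 : ℝ) ^ ((n : ℝ) / 2) := by positivity
    linarith

lemma two_rpow_half_le {b : ℝ} (hb : b ≤ 1 / 2) (n : ℕ) :
    (2 : ℝ) ^ ((n : ℝ) / 2) ≤ (2 : ℝ) ^ n * ((2 : ℝ) ^ (-b)) ^ n := by
  rw [← Real.rpow_natCast, ← Real.rpow_natCast ((2 : ℝ) ^ (-b)),
    ← Real.rpow_mul (by norm_num), ← Real.rpow_add (by norm_num)]
  refine Real.rpow_le_rpow_of_exponent_le (by norm_num) ?_
  have := mul_le_mul_of_nonneg_right hb (Nat.cast_nonneg' (α := ℝ) n)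
  linarith

lemma four_bound {P h : ℝ} (hh : h ≤ P) : 2 * P + 2 * h ≤ 4 * P := by linarith

lemma combine {N P U C S X : ℝ} (hN : 0 < N) (hU : 0 ≤ U) (hC : 0 ≤ C) (hone : 1 ≤ N * P)
    (hS : S ≤ 4 * (N * P)) (h : N ^ 2 / 4 * X ≤ N * (U + 2 * (C * S))) :
    X ≤ (4 * (U + 8 * C) + U + 1) * P := by
  have h1 : U + 2 * (C * S) ≤ (U + 8 * C) * (N * P) := by
    have := mul_le_mul_of_nonneg_left hone hU
    have := mul_le_mul_of_nonneg_left hS hC
    linarith
  have hP : 0 < P := by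
    by_contra hc
    have := mul_nonpos_of_nonneg_of_nonpos hN.le (not_lt.1 hc)
    linarith
  have h2 : N ^ 2 / 4 * X ≤ N ^ 2 / 4 * (4 * (U + 8 * C) * P) :=
    h.trans ((mul_le_mul_of_nonneg_left h1 hN.le).trans (le_of_eq (by ring)))
  refine (le_of_mul_le_mul_left h2 (by positivity)).trans ?_
  exact mul_le_mul_of_nonneg_right (by linarith) hP.le

/-- Decaying cosine coefficients give small mass near `(1/d) ℤ`, uniformly in `d`. -/
theorem small_ball {a C : ℝ} (ha : 0 < a) (hC : 0 ≤ C)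
    (h : ∀ n : ℕ, 1 ≤ n → |∫ t, Real.cos (2 * Real.pi * n * t) ∂μ| ≤ C * (n : ℝ) ^ (-a)) :
    ∃ s K : ℝ, 0 < s ∧ s ≤ 1 ∧ 0 < K ∧ ∀ d : ℤ, d ≠ 0 → ∀ n : ℕ,
      μ.real {t | NearInt (t * d) ((1 / 2 : ℝ) ^ n)} ≤ K * ((2 : ℝ) ^ (-s)) ^ n := by
  set b := min (a / 2) (1 / 2) with hbdef
  have hb : 0 < b := lt_min (by linarith) (by norm_num)
  have hb1 : b ≤ 1 / 2 := min_le_right _ _
  have hb2 : 2 * b ≤ a := by linarith [min_le_left (a / 2) (1 / 2 : ℝ)]
  set U := μ.real Set.univ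
  have hU : 0 ≤ U := measureReal_nonneg
  set r := (2 : ℝ) ^ (-b) with hr
  have hr0 : 0 < r := by positivity
  have hr1 : r ≤ 1 := Real.rpow_le_one_of_one_le_of_nonpos (by norm_num) (by linarith)
  set K₀ := 4 * (U + 8 * C) + U + 1 with hK₀
  have hK₀p : 0 < K₀ := by positivity
  have hint : ∀ (c : ℝ), Integrable (fun t => Real.cos (c * t)) μ := fun c =>
    Integrable.of_bound (by fun_prop) 1
      (Filter.Eventually.of_forall fun t => by simpa using Real.abs_cos_le_one _)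
  have hmain : ∀ d : ℤ, d ≠ 0 → ∀ n : ℕ,
      μ.real {t | NearInt (t * d) ((1 / 2 : ℝ) ^ (n + 3))} ≤ K₀ * r ^ n := by
    intro d hd n
    have hN : (0 : ℝ) < (2 : ℝ) ^ n := by positivity
    have hF : Integrable (fejer (2 ^ n) d) μ :=
      integrable_finsetSum _ fun j _ => integrable_finsetSum _ fun k _ => hint _
    have hM := mul_meas_ge_le_integral_of_nonneg
      (Filter.Eventually.of_forall (fejer_nonneg (2 ^ n) d)) hF (((2 : ℝ) ^ n) ^ 2 / 4)
    have hsub : μ.real {t | NearInt (t * d) ((1 / 2 : ℝ) ^ (n + 3))} ≤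
        μ.real {t | ((2 : ℝ) ^ n) ^ 2 / 4 ≤ fejer (2 ^ n) d t} :=
      measureReal_mono fun t ht => fejer_ge n d t ht
    have hS := sum_rpow_neg_le hb.le n
    set S := ∑ l ∈ Icc 1 (2 ^ n), ((l : ℕ) : ℝ) ^ (-(2 * b)) with hSdef
    have hrow : ∀ j ∈ range (2 ^ n), ∑ k ∈ range (2 ^ n),
        ∫ t, Real.cos (2 * Real.pi * (((j : ℤ) - k) * d : ℤ) * t) ∂μ ≤ U + 2 * (C * S) := by
      intro j hj
      set f := fun k : ℕ => ∫ t, Real.cos (2 * Real.pi * (((j : ℤ) - k) * d : ℤ) * t) ∂μ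
      have hg : ∀ k, k ≠ j →
          f k ≤ C * ((((j : ℤ) - k).natAbs : ℕ) : ℝ) ^ (-(2 * b)) := by
        intro k hk
        set l := ((j : ℤ) - k).natAbs with hl
        set m := (((j : ℤ) - k) * d).natAbs with hmdef
        have hl1 : 1 ≤ l := Int.natAbs_pos.2 (by omega)
        have hlm : l ≤ m := by
          rw [hmdef, Int.natAbs_mul]
          exact Nat.le_mul_of_pos_right _ (Int.natAbs_pos.2 hd)
        have e : f k = ∫ t, Real.cos (2 * Real.pi * (m : ℕ) * t) ∂μ := by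
          refine integral_congr_ae (Filter.Eventually.of_forall fun t => ?_)
          simp only
          rw [hmdef, Nat.cast_natAbs, Int.cast_abs]
          rcases abs_choice (((((j : ℤ) - k) * d : ℤ)) : ℝ) with h | h <;> rw [h]
          rw [mul_neg, neg_mul, Real.cos_neg]
        have hlR : (1 : ℝ) ≤ l := by exact_mod_cast hl1
        have hlmR : (l : ℝ) ≤ m := by exact_mod_cast hlm
        rw [e]
        refine ((le_abs_self _).trans (h m (hl1.trans hlm))).trans
          (mul_le_mul_of_nonneg_left ?_ hC)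
        exact ((Real.rpow_le_rpow_of_exponent_le (hlR.trans hlmR) (by linarith)).trans
          (Real.rpow_le_rpow_of_nonpos (by linarith) hlmR (by linarith)))
      rw [← add_sum_erase _ f hj]
      refine add_le_add ?_ ((sum_le_sum fun k hk => hg k (mem_erase.1 hk).1).trans ?_)
      · simp only [f, sub_self, zero_mul, Int.cast_zero, mul_zero, Real.cos_zero]
        simp [U]
      rw [← mul_sum, show 2 * (C * S) = C * (2 * S) by ring]
      refine mul_le_mul_of_nonneg_left ?_ hC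
      set G := fun x : ℕ => ((((j : ℤ) - x).natAbs : ℕ) : ℝ) ^ (-(2 * b))
      have hside : ∀ (p : ℕ → Prop) [DecidablePred p],
          (∀ x y, p x → p y → ((j : ℤ) - x).natAbs = ((j : ℤ) - y).natAbs → x = y) →
          ∑ k ∈ ((range (2 ^ n)).erase j).filter p, G k ≤ S := by
        intro p _ hp
        rw [← sum_image (f := fun l : ℕ => (l : ℝ) ^ (-(2 * b)))
          (g := fun k : ℕ => ((j : ℤ) - k).natAbs)
          (fun x hx y hy hxy => hp x y (mem_filter.1 hx).2 (mem_filter.1 hy).2 hxy)]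
        refine sum_le_sum_of_subset_of_nonneg ?_ fun l _ _ => by positivity
        intro l hl
        obtain ⟨k, hk, rfl⟩ := mem_image.1 hl
        obtain ⟨hkj, hkr⟩ := mem_erase.1 (mem_filter.1 hk).1
        have := mem_range.1 hkr
        have := mem_range.1 hj
        simp only [mem_Icc]
        omega
      rw [← sum_filter_add_sum_filter_not ((range (2 ^ n)).erase j) (fun k => k < j) G, two_mul S]
      exact add_le_add
        (hside (fun k => k < j) fun x y (hx : x < j) (hy : y < j) h => by omega)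
        (hside (fun k => ¬ k < j) fun x y (hx : ¬ x < j) (hy : ¬ y < j) h => by omega)
    have hI : ∫ t, fejer (2 ^ n) d t ∂μ ≤ (2 : ℝ) ^ n * (U + 2 * (C * S)) := by
      simp only [fejer]
      rw [integral_finsetSum _ fun j _ => integrable_finsetSum _ fun k _ => hint _]
      refine (sum_le_card_nsmul _ _ (U + 2 * (C * S)) fun j hj => ?_).trans (le_of_eq ?_)
      · rw [integral_finsetSum _ fun k _ => hint _]
        exact hrow j hj
      · rw [card_range, nsmul_eq_mul]; push_cast; ring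
    have hhalf := two_rpow_half_le hb1 n
    rw [← hr] at hhalf
    have hone : 1 ≤ (2 : ℝ) ^ n * r ^ n :=
      le_trans (Real.one_le_rpow (by norm_num) (by positivity)) hhalf
    exact combine hN hU hC hone
      (hS.trans (le_of_eq (by ring)) |>.trans (four_bound hhalf))
      ((mul_le_mul_of_nonneg_left hsub (by positivity)).trans (hM.trans hI))
  refine ⟨b, K₀ / r ^ 3, hb, by linarith, by positivity, fun d hd n => ?_⟩
  rw [div_mul_eq_mul_div, le_div_iff₀ (by positivity)]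
  rcases le_or_gt 3 n with h3 | h3
  · obtain ⟨k, rfl⟩ := Nat.exists_eq_add_of_le' h3
    calc _ ≤ K₀ * r ^ k * r ^ 3 := mul_le_mul_of_nonneg_right (hmain d hd k) (by positivity)
      _ = _ := by rw [pow_add]; ring
  · refine (mul_le_mul_of_nonneg_right (measureReal_mono (Set.subset_univ _))
      (pow_nonneg hr0.le 3)).trans ?_
    exact (mul_le_mul_of_nonneg_left (pow_le_pow_of_le_one hr0.le hr1 h3.le) hU).trans
      (mul_le_mul_of_nonneg_right (by linarith) (by positivity))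

end

end Vale.Agent.P028.Sel
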