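import Vale.Agent.P028.Sel.Families
import Vale.Agent.P028.Sel.SmallBall

/-!
# Q1 for almost every shift with respect to a measure with decaying cosine coefficients

A pair at a level `D < 1` meets only for shifts `γ` with `γ d` within `2 D` of an integer, `d ≠ 0`.
This has probability `O(D ^ s)`, which beats the loss `D ^ (-2ε)` of the plain bound.
-/

open MeasureTheory Finset

namespace Vale.Agent.P028.Sel

noncomputable section

open Gcd (rho quo wt msr tot mass level)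
open scoped Classical

/-- The coefficient of a pair of dyadic levels. -/
def coef (ψ : ℕ → ℝ) (e : ℕ × ℕ) (v w : ℕ) : ℝ :=
  (2 : ℝ) ^ (min e.1 e.2 + 1) * level (1 / 2) 2 ((1 / 2 : ℝ) ^ e.1) ((1 / 2 : ℝ) ^ e.2) ψ ψ v w

/-- The difference of the two reduced quotients. -/
def qdiff (v w : ℕ) : ℤ := (quo v w : ℤ) - quo w v

/-- The shifts for which a pair may meet at a level. -/
def hitSet (e : ℕ × ℕ) (v w : ℕ) : Set ℝ :=
  if qdiff v w = 0 then ∅ else {t | NearInt (t * qdiff v w) (2 * (1 / 2 : ℝ) ^ min e.1 e.2)}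

/-- A measurable majorant of the pairs at levels `D < 1`. -/
def major (ψ : ℕ → ℝ) (F : Finset ℕ) (M : ℕ) (t : ℝ) : ℝ :=
  ∑ v ∈ F, ∑ w ∈ F, ∑ e ∈ range (M + 1) ×ˢ range (M + 1),
    msr ψ v * msr ψ w * coef ψ e v w * (hitSet e v w).indicator (fun _ => (1 : ℝ)) t

lemma coef_nonneg (ψ : ℕ → ℝ) (e : ℕ × ℕ) (v w : ℕ) : 0 ≤ coef ψ e v w :=
  mul_nonneg (by positivity) (Gcd.level_nonneg zero_le_two ψ ψ v w)

lemma measurableSet_hitSet (e : ℕ × ℕ) (v w : ℕ) : MeasurableSet (hitSet e v w) := by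
  unfold hitSet
  split_ifs
  · exact MeasurableSet.empty
  · refine IsOpen.measurableSet ?_
    simp only [NearInt, Set.ofPred_exists]
    exact isOpen_iUnion fun k => isOpen_lt (by fun_prop) continuous_const

lemma major_nonneg {ψ : ℕ → ℝ} (hψ : ∀ q, 0 ≤ ψ q) (F : Finset ℕ) (M : ℕ) (t : ℝ) :
    0 ≤ major ψ F M t :=
  sum_nonneg fun v _ => sum_nonneg fun w _ => sum_nonneg fun e _ =>
    mul_nonneg (mul_nonneg (mul_nonneg (Gcd.msr_nonneg hψ v) (Gcd.msr_nonneg hψ w))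
      (coef_nonneg ψ e v w)) (Set.indicator_nonneg (fun _ _ => zero_le_one) t)

lemma measurable_major (ψ : ℕ → ℝ) (F : Finset ℕ) (M : ℕ) : Measurable (major ψ F M) := by
  refine Finset.measurable_fun_sum _ fun v _ => Finset.measurable_fun_sum _ fun w _ =>
    Finset.measurable_fun_sum _ fun e _ => ?_
  exact measurable_const.mul (measurable_const.indicator (measurableSet_hitSet e v w))

lemma quo_inj {v w : ℕ} (hv : 0 < v) (hw : 0 < w) (h : quo v w = quo w v) : v = w := by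
  have h1 := quo_mul_gcd v w
  have h2 := quo_mul_gcd w v
  rw [Nat.gcd_comm w v] at h2
  rw [← h1, h, h2]

/-- The kernel at levels `D < 1` under the majorant. -/
lemma mass_offK_le (γ : ℝ) {ψ : ℕ → ℝ} {F : Finset ℕ} {M : ℕ} (hψ : ∀ q, 0 ≤ ψ q)
    (h0 : 0 ∉ F) (hM : ∀ q ∈ F, (1 / 2 : ℝ) ^ M ≤ ψ q) :
    mass (msr ψ) (msr ψ) (offK γ (1 / 2) ψ) F F ≤ major ψ F M γ := by
  refine sum_le_sum fun v hv => sum_le_sum fun w hw => ?_
  simp only [mul_assoc (msr ψ v * msr ψ w), ← mul_sum]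
  refine mul_le_mul_of_nonneg_left ?_ (mul_nonneg (Gcd.msr_nonneg hψ v) (Gcd.msr_nonneg hψ w))
  have hnn : ∀ e : ℕ × ℕ,
      0 ≤ coef ψ e v w * (hitSet e v w).indicator (fun _ => (1 : ℝ)) γ :=
    fun e => mul_nonneg (coef_nonneg ψ e v w) (Set.indicator_nonneg (fun _ _ => zero_le_one) γ)
  unfold offK narrowK
  split_ifs with hne hc
  · exact sum_nonneg fun e _ => hnn e
  swap
  · exact sum_nonneg fun e _ => hnn e
  obtain ⟨hD, k, hk, -⟩ := hc
  have hvp : 0 < v := Nat.pos_of_ne_zero fun h => h0 (h ▸ hv)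
  have hwp : 0 < w := Nat.pos_of_ne_zero fun h => h0 (h ▸ hw)
  have hlt : (1 / 2 : ℝ) ^ (M + 1) < (1 / 2 : ℝ) ^ M :=
    pow_lt_pow_right_of_lt_one₀ (by norm_num) (by norm_num) (by omega)
  set P := (quo w v : ℝ) * ψ v
  set Q := (quo v w : ℝ) * ψ w
  have hPl : (1 / 2 : ℝ) ^ (M + 1) < P := hlt.trans_le ((hM v hv).trans
    (le_mul_of_one_le_left (hψ v) (by exact_mod_cast Gcd.quo_pos hwp.ne')))
  have hQl : (1 / 2 : ℝ) ^ (M + 1) < Q := hlt.trans_le ((hM w hw).trans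
    (le_mul_of_one_le_left (hψ w) (by exact_mod_cast Gcd.quo_pos hvp.ne')))
  obtain ⟨i, hi, hi1, hi2⟩ := exists_dyadic (lt_of_le_of_lt (le_max_left P Q) hD) hPl
  obtain ⟨j, hj, hj1, hj2⟩ := exists_dyadic (lt_of_le_of_lt (le_max_right P Q) hD) hQl
  refine le_trans ?_ (single_le_sum (fun e _ => hnn e) (show (i, j) ∈ _ from
    mem_product.2 ⟨mem_range.2 (by omega), mem_range.2 (by omega)⟩))
  have hmem : γ ∈ hitSet (i, j) v w := by
    unfold hitSet
    have hd : qdiff v w ≠ 0 := fun h => hne (quo_inj hvp hwp (by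
      simp only [qdiff] at h; omega))
    rw [if_neg hd]
    refine ⟨k, lt_of_lt_of_le ?_ (?_ : P + Q ≤ _)⟩
    · rw [show γ * (qdiff v w : ℝ) - k = -((k : ℝ) - γ * ((quo v w : ℝ) - quo w v)) by
        simp only [qdiff]; push_cast; ring, abs_neg]
      exact hk
    · have a1 : P ≤ (1 / 2 : ℝ) ^ min i j :=
        hi2.trans (pow_le_pow_of_le_one (by norm_num) (by norm_num) (min_le_left _ _))
      have a2 : Q ≤ (1 / 2 : ℝ) ^ min i j :=
        hj2.trans (pow_le_pow_of_le_one (by norm_num) (by norm_num) (min_le_right _ _))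
      simp only
      linarith
  rw [Set.indicator_of_mem hmem, mul_one]
  simp only [coef, level]
  rw [if_pos ⟨hi2, hj2⟩]
  have h : (1 / 2 : ℝ) ^ (min i j + 1) < scaleD (ψ v) (ψ w) v w := by
    show _ < max P Q
    rcases min_choice i j with h | h <;> rw [h]
    · exact hi1.trans_le (le_max_left _ _)
    · exact hj1.trans_le (le_max_right _ _)
  have hW : 0 ≤ wt (1 / 2) 2 (quo v w * quo w v) := Gcd.wt_nonneg zero_le_two _
  rw [div_le_iff₀ (lt_trans (by positivity) h)]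
  calc wt (1 / 2) 2 (quo v w * quo w v)
      = (2 : ℝ) ^ (min i j + 1) * wt (1 / 2) 2 (quo v w * quo w v) *
          (1 / 2) ^ (min i j + 1) := by
        rw [mul_right_comm, ← mul_pow]; norm_num
    _ ≤ _ := by gcongr

/-- The average of the majorant. -/
lemma major_integral {μ : Measure ℝ} [IsFiniteMeasure μ] {a C : ℝ} (ha : 0 < a) (hC : 0 ≤ C)
    (h : ∀ n : ℕ, 1 ≤ n → |∫ t, Real.cos (2 * Real.pi * n * t) ∂μ| ≤ C * (n : ℝ) ^ (-a)) :
    ∃ K : ℝ, 0 < K ∧ ∀ (ψ : ℕ → ℝ) (F : Finset ℕ) (M : ℕ), (∀ q, 0 ≤ ψ q) → 0 ∉ F →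
      tot (msr ψ) F ≤ 2 →
      ∫⁻ t, ENNReal.ofReal (major ψ F M t) ∂μ ≤ ENNReal.ofReal K := by
  obtain ⟨s, K, hs, hs1, hK, hball⟩ := small_ball ha hC h
  obtain ⟨Cl, hCl, hlevel⟩ := level_term (ε := s / 4) (θ := 1 / 2) (by linarith) (by linarith)
    (by norm_num)
  set r := (2 : ℝ) ^ (-(s / 4)) with hr
  have hr0 : 0 ≤ r := by positivity
  have hr1 : r < 1 := Real.rpow_lt_one_of_one_lt_of_neg (by norm_num) (by linarith)
  have hrm : 0 < 1 - r := by linarith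
  refine ⟨2 * K * Cl * (2 + (2 : ℝ) ^ (3 / 2 : ℝ)) * (1 / (1 - r)) ^ 2, by positivity, ?_⟩
  intro ψ F M hψ h0 hS2
  have hint : ∀ v w : ℕ, ∀ e : ℕ × ℕ, Integrable (fun t => msr ψ v * msr ψ w * coef ψ e v w *
      (hitSet e v w).indicator (fun _ => (1 : ℝ)) t) μ := fun v w e =>
    ((integrable_const (1 : ℝ)).indicator (measurableSet_hitSet e v w)).const_mul _
  have hInt : Integrable (major ψ F M) μ := integrable_finsetSum _ fun v _ =>
    integrable_finsetSum _ fun w _ => integrable_finsetSum _ fun e _ => hint v w e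
  rw [← ofReal_integral_eq_lintegral_ofReal hInt
    (Filter.Eventually.of_forall (major_nonneg hψ F M))]
  refine ENNReal.ofReal_le_ofReal ?_
  set R := range (M + 1) ×ˢ range (M + 1)
  set S := tot (msr ψ) F
  have hS : 0 ≤ S := Gcd.tot_nonneg (Gcd.msr_nonneg hψ) F
  have hset : ∀ e : ℕ × ℕ, ∀ v w : ℕ,
      μ.real (hitSet e v w) ≤ 2 * K * ((2 : ℝ) ^ (-s)) ^ min e.1 e.2 := by
    intro e v w
    unfold hitSet
    split_ifs with hd
    · simp only [measureReal_empty]; positivity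
    have h2 : (2 : ℝ) ^ (-s) ≤ 1 :=
      Real.rpow_le_one_of_one_le_of_nonpos (by norm_num) (by linarith)
    rcases hn : min e.1 e.2 with _ | n
    · have h0' := hball (qdiff v w) hd 0
      simp only [pow_zero, mul_one] at h0' ⊢
      refine (measureReal_mono ?_).trans (h0'.trans (by linarith))
      intro t _
      exact ⟨round (t * qdiff v w), lt_of_le_of_lt (abs_sub_round _) (by norm_num)⟩
    · rw [show 2 * (1 / 2 : ℝ) ^ (n + 1) = (1 / 2) ^ n by rw [pow_succ]; ring]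
      refine (hball (qdiff v w) hd n).trans ?_
      have hl : (2 : ℝ) ^ (-(1 : ℝ)) ≤ (2 : ℝ) ^ (-s) :=
        Real.rpow_le_rpow_of_exponent_le (by norm_num) (by linarith)
      rw [Real.rpow_neg_one] at hl
      rw [pow_succ]
      have h3 : 0 ≤ K * ((2 : ℝ) ^ (-s)) ^ n := by positivity
      nlinarith
  have hterm : ∀ e ∈ R,
      ∑ v ∈ F, ∑ w ∈ F, msr ψ v * msr ψ w * coef ψ e v w * μ.real (hitSet e v w) ≤
        2 * K * Cl * (2 + (2 : ℝ) ^ (3 / 2 : ℝ)) * (r ^ e.1 * r ^ e.2) := by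
    intro e _
    set n := min e.1 e.2 with hn
    set x := ((n : ℕ) : ℝ) - ((e.1 : ℝ) + e.2) * (1 / 2 - s / 4) with hx
    refine (sum_le_sum fun v _ => sum_le_sum fun w _ => mul_le_mul_of_nonneg_left (hset e v w)
      (mul_nonneg (mul_nonneg (Gcd.msr_nonneg hψ v) (Gcd.msr_nonneg hψ w))
        (coef_nonneg ψ e v w))).trans ?_
    rw [← hn]
    set q := 2 * K * ((2 : ℝ) ^ (-s)) ^ n
    have hq : 0 ≤ q := by positivity
    refine (le_of_eq (b := q * ((2 : ℝ) ^ (n + 1) * mass (msr ψ) (msr ψ)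
      (level (1 / 2) 2 ((1 / 2 : ℝ) ^ e.1) ((1 / 2 : ℝ) ^ e.2) ψ ψ) F F)) ?_).trans ?_
    · simp only [mass, mul_sum, coef, ← hn]
      exact sum_congr rfl fun v _ => sum_congr rfl fun w _ => by ring
    refine (mul_le_mul_of_nonneg_left (hlevel ψ F e.1 e.2 x hψ h0 le_rfl) hq).trans ?_
    have hT : S + S ^ (3 / 2 : ℝ) ≤ 2 + (2 : ℝ) ^ (3 / 2 : ℝ) :=
      add_le_add hS2 (Real.rpow_le_rpow hS hS2 (by norm_num))
    have hT0 : 0 ≤ S + S ^ (3 / 2 : ℝ) := add_nonneg hS (Real.rpow_nonneg hS _)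
    have hexp : ((2 : ℝ) ^ (-s)) ^ n * (2 : ℝ) ^ x ≤ r ^ e.1 * r ^ e.2 := by
      rw [hr, ← Real.rpow_natCast ((2 : ℝ) ^ (-(s / 4))), ← Real.rpow_natCast ((2 : ℝ) ^ (-(s / 4))),
        ← Real.rpow_natCast ((2 : ℝ) ^ (-s)), ← Real.rpow_mul (by norm_num),
        ← Real.rpow_mul (by norm_num), ← Real.rpow_mul (by norm_num),
        ← Real.rpow_add (by norm_num), ← Real.rpow_add (by norm_num)]
      refine Real.rpow_le_rpow_of_exponent_le (by norm_num) ?_
      have hnR : (n : ℝ) = min (e.1 : ℝ) e.2 := by rw [hn]; push_cast; rfl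
      rcases le_total (e.1 : ℝ) e.2 with hle | hle
      · rw [min_eq_left hle] at hnR
        simp only [hx]
        nlinarith [mul_nonneg (sub_nonneg.2 hle) (show 0 ≤ 1 / 2 - s / 2 by linarith)]
      · rw [min_eq_right hle] at hnR
        simp only [hx]
        nlinarith [mul_nonneg (sub_nonneg.2 hle) (show 0 ≤ 1 / 2 - s / 2 by linarith)]
    calc q * (Cl * (2 : ℝ) ^ x * (S + S ^ (3 / 2 : ℝ)))
        = 2 * K * Cl * (S + S ^ (3 / 2 : ℝ)) * (((2 : ℝ) ^ (-s)) ^ n * (2 : ℝ) ^ x) := by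
          simp only [q]; ring
      _ ≤ _ := mul_le_mul (mul_le_mul_of_nonneg_left hT (by positivity)) hexp (by positivity)
          (by positivity)
  calc ∫ t, major ψ F M t ∂μ
      = ∑ v ∈ F, ∑ w ∈ F, ∑ e ∈ R,
          msr ψ v * msr ψ w * coef ψ e v w * μ.real (hitSet e v w) := by
        simp only [major]
        rw [integral_finsetSum _ fun v _ => integrable_finsetSum _ fun w _ =>
          integrable_finsetSum _ fun e _ => hint v w e]
        refine sum_congr rfl fun v _ => ?_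
        rw [integral_finsetSum _ fun w _ => integrable_finsetSum _ fun e _ => hint v w e]
        refine sum_congr rfl fun w _ => ?_
        rw [integral_finsetSum _ fun e _ => hint v w e]
        refine sum_congr rfl fun e _ => ?_
        rw [integral_const_mul, integral_indicator_const _ (measurableSet_hitSet e v w),
          smul_eq_mul, mul_one]
    _ = ∑ e ∈ R, ∑ v ∈ F, ∑ w ∈ F,
          msr ψ v * msr ψ w * coef ψ e v w * μ.real (hitSet e v w) := by
        rw [sum_comm]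
        refine (sum_congr rfl fun w _ => sum_comm).trans ?_
        rw [sum_comm]
        exact sum_congr rfl fun e _ => sum_comm
    _ ≤ ∑ e ∈ R, 2 * K * Cl * (2 + (2 : ℝ) ^ (3 / 2 : ℝ)) * (r ^ e.1 * r ^ e.2) :=
        sum_le_sum hterm
    _ ≤ _ := by
        rw [← mul_sum]
        exact mul_le_mul_of_nonneg_left (sum_geo_sq hr0 hr1 R) (by positivity)

/-- The small part. -/
lemma ae_decay_small {μ : Measure ℝ} [IsFiniteMeasure μ] {a C : ℝ} (ha : 0 < a) (hC : 0 ≤ C)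
    (h : ∀ n : ℕ, 1 ≤ n → |∫ t, Real.cos (2 * Real.pi * n * t) ∂μ| ≤ C * (n : ℝ) ^ (-a))
    (δ : ℕ → ℝ) (hδ : ∀ q, 0 ≤ δ q) (hδ1 : ∀ q, δ q ≤ 1 / 16)
    (hdiv : ¬ Summable fun q : ℕ => rho q * δ q) :
    ∀ᵐ γ ∂μ, ∀ᵐ x : ℝ, {q : ℕ | 1 ≤ q ∧ ∃ b : ℤ, |(q : ℝ) * x - b - γ| < δ q}.Infinite := by
  obtain ⟨K, hK, hmajor⟩ := major_integral ha hC h
  obtain ⟨Cm, hCm, hmom⟩ := mom_le
  have hδ2 : ∀ q, δ q ≤ 1 / 2 := fun q => (hδ1 q).trans (by norm_num)
  have hfam : ∀ k : ℕ, ∃ (F : Finset ℕ) (M : ℕ), (∀ q ∈ F, max k 1 ≤ q ∧ 0 < δ q ∧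
      (1 / 2 : ℝ) ^ M ≤ δ q) ∧ 1 ≤ tot (msr δ) F ∧ tot (msr δ) F ≤ 2 := by
    intro k
    have hex : ∃ u : Finset ℕ, (∀ q ∈ u, max k 1 ≤ q ∧ 0 < δ q) ∧ 1 ≤ tot (msr δ) u := by
      by_contra hcon
      push Not at hcon
      refine hdiv (summable_of_sum_le (c := (∑ q ∈ range (max k 1), rho q * δ q) + 1)
        (fun q => mul_nonneg (Gcd.rho_nonneg q) (hδ q)) fun u => ?_)
      rw [← sum_filter_add_sum_filter_not u (fun q => q < max k 1)]
      refine add_le_add (sum_le_sum_of_subset_of_nonneg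
        (fun q hq => mem_range.2 (mem_filter.1 hq).2)
        fun q _ _ => mul_nonneg (Gcd.rho_nonneg q) (hδ q)) ?_
      have := hcon ((u.filter fun q => ¬ q < max k 1).filter fun q => 0 < δ q) fun q hq =>
        ⟨not_lt.1 (mem_filter.1 (mem_filter.1 hq).1).2, (mem_filter.1 hq).2⟩
      refine le_trans (le_of_eq ?_) this.le
      refine (sum_subset (filter_subset _ _) fun q hq hq' => ?_).symm
      have : δ q = 0 := le_antisymm (not_lt.1 fun hp => hq' (mem_filter.2 ⟨hq, hp⟩)) (hδ q)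
      simp [msr, this]
    obtain ⟨u, hu, hu1⟩ := hex
    obtain ⟨F, hF, hF1, hF2⟩ := exists_sub (msr_le_one hδ hδ2) u hu1
    have hev : ∀ᶠ M : ℕ in Filter.atTop, ∀ q ∈ F, (1 / 2 : ℝ) ^ M ≤ δ q :=
      (Finset.eventually_all F).2 fun q hq =>
        (tendsto_pow_atTop_nhds_zero_of_lt_one (by norm_num) (by norm_num)).eventually
          (eventually_le_nhds (hu q (hF hq)).2)
    obtain ⟨M, hM⟩ := hev.exists
    exact ⟨F, M, fun q hq => ⟨(hu q (hF hq)).1, (hu q (hF hq)).2, hM q hq⟩, hF1, hF2⟩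
  choose F M hF hF1 hF2 using hfam
  have h0 : ∀ k, 0 ∉ F k := fun k hk => by
    have := (hF k 0 hk).1
    omega
  set f : ℕ → ℝ → ENNReal := fun k t => ENNReal.ofReal (major δ (F k) (M k) t)
  have hf : ∀ k, Measurable (f k) := fun k => (measurable_major _ _ _).ennreal_ofReal
  have hlim : ∫⁻ t, Filter.liminf (fun k => f k t) Filter.atTop ∂μ ≤ ENNReal.ofReal K :=
    (lintegral_liminf_le hf).trans (Filter.liminf_le_of_frequently_le'
      (Filter.Frequently.of_forall fun k => hmajor δ (F k) (M k) hδ (h0 k) (hF2 k)))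
  have hfin : ∀ᵐ t ∂μ, Filter.liminf (fun k => f k t) Filter.atTop < ⊤ :=
    ae_lt_top (.liminf hf) (hlim.trans_lt ENNReal.ofReal_lt_top).ne
  filter_upwards [hfin] with γ hγ
  obtain ⟨B, hB0, hB, -⟩ := ENNReal.lt_iff_exists_real_btwn.1 hγ
  have hfreq := Filter.frequently_lt_of_liminf_lt (by isBoundedDefault) hB
  refine ae_of_moments hδ hδ2 ⟨Cm * (2 + B), fun N => ?_⟩
  obtain ⟨k, hkN, hk⟩ := Filter.frequently_atTop.1 hfreq N
  set S := tot (msr δ) (F k)
  have hS1 : 1 ≤ S := hF1 k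
  refine ⟨F k, fun q hq => hkN.trans (le_trans (le_max_left _ _) (hF k q hq).1), by linarith,
    ?_⟩
  refine (hmom γ (1 / 2) δ (F k) (by norm_num) hδ (h0 k)
    fun q hq => ⟨(hF k q hq).2.1, hδ1 q⟩).trans ?_
  have hO := mass_offK_le γ hδ (h0 k) fun q hq => (hF k q hq).2.2
  have hmaj : major δ (F k) (M k) γ ≤ B :=
    ((ENNReal.ofReal_lt_ofReal_iff_of_nonneg (major_nonneg hδ _ _ _)).1 hk).le
  rw [mul_assoc]
  refine mul_le_mul_of_nonneg_left ?_ hCm.le
  have hSS : S ≤ S ^ 2 := le_self_pow₀ hS1 (by norm_num)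
  have : B ≤ B * S ^ 2 := le_mul_of_one_le_right hB0 (one_le_pow₀ hS1)
  linarith

/-- **Q1 for almost every shift** with respect to a measure with decaying cosine coefficients. -/
theorem ae_decay (μ : Measure ℝ) [IsFiniteMeasure μ] {a C : ℝ} (ha : 0 < a)
    (h : ∀ n : ℕ, 1 ≤ n → |∫ t, Real.cos (2 * Real.pi * n * t) ∂μ| ≤ C * (n : ℝ) ^ (-a))
    (ψ : ℕ → ℝ) (hψ : ∀ q, 0 ≤ ψ q) (hdiv : ¬ Summable fun q : ℕ => rho q * ψ q) :
    ∀ᵐ γ ∂μ, ∀ᵐ x : ℝ, {q : ℕ | 1 ≤ q ∧ ∃ b : ℤ, |(q : ℝ) * x - b - γ| < ψ q}.Infinite := by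
  have hC : 0 ≤ C := by simpa using (abs_nonneg _).trans (h 1 le_rfl)
  set c : ℝ := 1 / 16 with hc
  have hc0 : 0 < c := by norm_num
  by_cases hbig : Summable fun q : ℕ => rho q * (if c < ψ q then ψ q else 0)
  · set δ : ℕ → ℝ := fun q => if c < ψ q then 0 else ψ q with hδdef
    have hδ : ∀ q, 0 ≤ δ q := fun q => by simp only [hδdef]; split_ifs <;> simp [hψ q]
    have hδc : ∀ q, δ q ≤ c := fun q => by
      simp only [hδdef]; split_ifs with h1
      · exact hc0.le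
      · exact not_lt.1 h1
    have hdiv' : ¬ Summable fun q : ℕ => rho q * δ q := by
      intro hs
      refine hdiv ((hbig.add hs).congr fun q => ?_)
      simp only [hδdef]
      split_ifs <;> simp
    filter_upwards [ae_decay_small ha hC h δ hδ hδc hdiv'] with γ hγ
    filter_upwards [hγ] with x hx
    refine hx.mono ?_
    rintro q ⟨hq, b, hb⟩
    refine ⟨hq, b, lt_of_lt_of_le hb ?_⟩
    simp only [hδdef]; split_ifs <;> simp [hψ q]
  · refine Filter.Eventually.of_forall fun γ => ae_infinite_extra_power (fun _ => γ) ψ hψ 1 one_pos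
      fun hs => hbig ?_
    refine Summable.of_nonneg_of_le (fun q => mul_nonneg (Gcd.rho_nonneg q) ?_) (fun q => ?_)
      (hs.mul_left c⁻¹)
    · split_ifs <;> simp [hψ q]
    split_ifs with h1
    · show rho q * ψ q ≤ c⁻¹ * (rho q * ψ q ^ ((1 : ℝ) + 1))
      rw [show (1 : ℝ) + 1 = (2 : ℕ) by norm_num, Real.rpow_natCast,
        show c⁻¹ * (rho q * ψ q ^ 2) = rho q * ψ q * (c⁻¹ * ψ q) by ring]
      refine le_mul_of_one_le_right (mul_nonneg (Gcd.rho_nonneg q) (hψ q)) ?_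
      rw [inv_mul_eq_div, one_le_div hc0]
      exact h1.le
    · rw [mul_zero]
      exact mul_nonneg (inv_nonneg.2 hc0.le)
        (mul_nonneg (Gcd.rho_nonneg q) (Real.rpow_nonneg (hψ q) _))

end

end Vale.Agent.P028.Sel
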