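import Vale.Agent.P028.Sel.BandSum

/-!
# Full measure for every shift: polynomially small `ψ`, and a doubly logarithmic loss
-/

open MeasureTheory Finset

namespace Vale.Agent.P028.Sel

noncomputable section

open Gcd (rho quo wt msr tot mass level)
open scoped Classical

/-- Bounded second moments give full measure. -/
lemma ae_of_moments {γ : ℝ} {δ : ℕ → ℝ} (hδ : ∀ q, 0 ≤ δ q) (hδ1 : ∀ q, δ q ≤ 1 / 2)
    (h : ∃ K : ℝ, ∀ N : ℕ, ∃ F : Finset ℕ, (∀ q ∈ F, N ≤ q) ∧ 0 < tot (msr δ) F ∧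
      mom γ δ F ≤ K * tot (msr δ) F ^ 2) :
    ∀ᵐ x : ℝ, {q : ℕ | 1 ≤ q ∧ ∃ a : ℤ, |(q : ℝ) * x - a - γ| < δ q}.Infinite :=
  ae_infinite_of_good (fun _ => γ) δ (fun q a => sel γ (δ q) q a) hδ hδ1
    (fun q a => sel_nonneg γ (δ q) q a) (equi_sel γ δ) h

lemma le_half {t : ℝ} {m : ℕ} (hm : 1 ≤ m) (h : t ≤ (1 / 2 : ℝ) ^ m) : t ≤ 1 / 2 :=
  h.trans (pow_le_of_le_one (by norm_num) (by norm_num) (by omega))

lemma le_sixteenth {t : ℝ} {m : ℕ} (hm : 4 ≤ m) (h : t ≤ (1 / 2 : ℝ) ^ m) : t ≤ 1 / 16 :=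
  h.trans ((pow_le_pow_of_le_one (by norm_num) (by norm_num) hm).trans_eq (by norm_num))

lemma rho_le_one {q : ℕ} : rho q ≤ 1 := by
  rcases Nat.eq_zero_or_pos q with rfl | hq
  · simp [rho]
  · rw [Gcd.rho_eq_prod hq.ne']
    exact prod_le_one (fun p hp => (Gcd.one_sub_inv_pos (Nat.prime_of_mem_primeFactors hp)).le)
      fun p _ => Gcd.one_sub_inv_le_one p

lemma msr_le_one {δ : ℕ → ℝ} (hδ : ∀ q, 0 ≤ δ q) (hδ1 : ∀ q, δ q ≤ 1 / 2) (q : ℕ) :
    msr δ q ≤ 1 := by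
  have h1 : rho q * δ q ≤ 1 * (1 / 2) :=
    mul_le_mul rho_le_one (hδ1 q) (hδ q) zero_le_one
  show rho q * δ q ≤ 1
  linarith

/-- The doubly logarithmic weight. -/
def llog (t : ℝ) : ℝ := 1 + Real.log (1 + |Real.log t|)

lemma one_le_llog (t : ℝ) : 1 ≤ llog t :=
  le_add_of_nonneg_right (Real.log_nonneg (le_add_of_nonneg_right (abs_nonneg _)))

/-- The block of a band. -/
def blk (δ : ℕ → ℝ) (q : ℕ) : ℕ := Nat.log 2 (Nat.log 2 (bandOf δ q))

lemma blk_spec {δ : ℕ → ℝ} {q L : ℕ} (hL : 4 ≤ L) (h : 0 < δ q) (h' : δ q ≤ (1 / 2 : ℝ) ^ L) :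
    (1 / 2 : ℝ) ^ ((2 ^ 2 ^ blk δ q) ^ 2) ≤ δ q ∧ δ q ≤ (1 / 2 : ℝ) ^ (2 ^ 2 ^ blk δ q) ∧
      L < (2 ^ 2 ^ blk δ q) ^ 2 ∧ (2 : ℝ) ^ blk δ q / 4 ≤ llog (δ q) := by
  have hlt1 : δ q < 1 := lt_of_le_of_lt (le_half (by omega) h') (by norm_num)
  obtain ⟨h1, h2⟩ := bandOf_spec h hlt1
  set l := bandOf δ q with hl
  have hlL : L ≤ l := by
    have := (pow_lt_pow_iff_right_of_lt_one₀ (by norm_num : (0 : ℝ) < 1 / 2) (by norm_num)).1
      (h1.trans_le h')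
    omega
  set i := blk δ q with hi
  have hl0 : l ≠ 0 := by omega
  have hlog0 : Nat.log 2 l ≠ 0 := by
    have := Nat.log_pos (by norm_num : 1 < 2) (by omega : 2 ≤ l)
    omega
  have ha : 2 ^ 2 ^ i ≤ l := by
    refine le_trans (Nat.pow_le_pow_right (by norm_num) ?_) (Nat.pow_log_le_self 2 hl0)
    exact Nat.pow_log_le_self 2 hlog0
  have hb : l < (2 ^ 2 ^ i) ^ 2 := by
    refine lt_of_lt_of_le (Nat.lt_pow_succ_log_self (by norm_num : 1 < 2) l) ?_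
    rw [← pow_mul, ← pow_succ]
    exact Nat.pow_le_pow_right (by norm_num) (Nat.lt_pow_succ_log_self (by norm_num) _)
  refine ⟨(pow_le_pow_of_le_one (by norm_num) (by norm_num) (by omega)).trans h1.le,
    h2.trans (pow_le_pow_of_le_one (by norm_num) (by norm_num) ha), lt_of_le_of_lt hlL hb, ?_⟩
  have hl2 := Real.log_two_gt_d9
  have hlab : (l : ℝ) * Real.log 2 ≤ |Real.log (δ q)| := by
    have h3 := Real.log_le_log h h2
    rw [Real.log_pow, one_div, Real.log_inv] at h3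
    rw [abs_of_nonpos (Real.log_nonpos h.le hlt1.le)]
    linarith
  have hlR : ((2 : ℝ) ^ 2 ^ i) ≤ l := by exact_mod_cast ha
  have h4 : (2 : ℝ) ^ i * Real.log 2 + Real.log (1 / 2) ≤ Real.log (1 + |Real.log (δ q)|) := by
    rw [show (2 : ℝ) ^ i = ((2 ^ i : ℕ) : ℝ) by push_cast; rfl, ← Real.log_pow,
      ← Real.log_mul (by positivity) (by norm_num)]
    refine Real.log_le_log (by positivity) ?_
    have hl0R : (0 : ℝ) ≤ l := Nat.cast_nonneg l
    nlinarith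
  rw [one_div, Real.log_inv] at h4
  have := Real.log_two_lt_d9
  have : (2 : ℝ) ^ i * (1 / 4) ≤ (2 : ℝ) ^ i * Real.log 2 := by gcongr; linarith
  simp only [llog]
  linarith

/-- Selection of a heavy block. -/
lemma exists_block {η : ℝ} (hη : 0 < η) (δ : ℕ → ℝ) (hδ : ∀ q, 0 ≤ δ q) {L : ℕ} (hL : 4 ≤ L)
    (hδL : ∀ q, δ q ≤ (1 / 2 : ℝ) ^ L)
    (h : ¬ Summable fun q : ℕ => rho q * δ q / llog (δ q) ^ η) (N : ℕ) :
    ∃ (i : ℕ) (F : Finset ℕ), (∀ q ∈ F, N ≤ q ∧ 0 < δ q ∧ blk δ q = i) ∧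
      ((2 : ℝ) ^ (η / 2)) ^ i ≤ tot (msr δ) F := by
  by_contra hcon
  push Not at hcon
  apply h
  set G : ℝ := (2 : ℝ) ^ (-(η / 2)) with hG
  have hG0 : 0 < G := by positivity
  have hG1 : G < 1 := Real.rpow_lt_one_of_one_lt_of_neg (by norm_num) (by linarith)
  set f := fun q : ℕ => rho q * δ q / llog (δ q) ^ η
  have hf0 : ∀ q, 0 ≤ f q := fun q => div_nonneg (mul_nonneg (Gcd.rho_nonneg q) (hδ q))
    (Real.rpow_nonneg (zero_le_one.trans (one_le_llog _)) _)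
  refine summable_of_sum_le
    (c := (∑ q ∈ range N, f q) + (4 : ℝ) ^ η * ∑' i : ℕ, G ^ i) hf0 fun u => ?_
  rw [← sum_filter_add_sum_filter_not u (fun q => q < N)]
  refine add_le_add ?_ ?_
  · exact sum_le_sum_of_subset_of_nonneg
      (fun q hq => mem_range.2 (mem_filter.1 hq).2) fun q _ _ => hf0 q
  set V := (u.filter fun q => ¬ q < N).filter fun q => 0 < δ q
  have hV : ∑ q ∈ u.filter (fun q => ¬ q < N), f q = ∑ q ∈ V, f q := by
    refine (sum_subset (filter_subset _ _) fun q hq hq' => ?_).symm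
    have : δ q = 0 := le_antisymm (not_lt.1 fun hp => hq' (mem_filter.2 ⟨hq, hp⟩)) (hδ q)
    simp [f, this]
  rw [hV, ← sum_fiberwise_of_maps_to (fun q hq => mem_image_of_mem (blk δ) hq) f]
  refine le_trans (sum_le_sum (g := fun i => (4 : ℝ) ^ η * G ^ i) fun i _ => ?_) ?_
  · set F := V.filter fun q => blk δ q = i
    have hmem : ∀ q ∈ F, N ≤ q ∧ 0 < δ q ∧ blk δ q = i := fun q hq => by
      obtain ⟨hq1, hq2⟩ := mem_filter.1 hq
      obtain ⟨hq3, hq4⟩ := mem_filter.1 hq1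
      exact ⟨not_lt.1 (mem_filter.1 hq3).2, hq4, hq2⟩
    have hS : tot (msr δ) F < ((2 : ℝ) ^ (η / 2)) ^ i := hcon i F hmem
    have hd : (0 : ℝ) < ((2 : ℝ) ^ i / 4) ^ η := by positivity
    have hp : ∀ q ∈ F, f q ≤ msr δ q / ((2 : ℝ) ^ i / 4) ^ η := fun q hq => by
      obtain ⟨-, hpos, hb⟩ := hmem q hq
      obtain ⟨-, -, -, h4⟩ := blk_spec hL hpos (hδL q)
      rw [hb] at h4
      exact div_le_div_of_nonneg_left (mul_nonneg (Gcd.rho_nonneg q) (hδ q)) hd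
        (Real.rpow_le_rpow (by positivity) h4 hη.le)
    calc ∑ q ∈ F, f q ≤ tot (msr δ) F / ((2 : ℝ) ^ i / 4) ^ η := by
          rw [tot, sum_div]; exact sum_le_sum hp
      _ ≤ ((2 : ℝ) ^ (η / 2)) ^ i / ((2 : ℝ) ^ i / 4) ^ η :=
          div_le_div_of_nonneg_right hS.le hd.le
      _ = _ := by
          rw [Real.div_rpow (by positivity) (by norm_num), hG, ← Real.rpow_natCast (2 : ℝ),
            ← Real.rpow_natCast ((2 : ℝ) ^ (η / 2)), ← Real.rpow_natCast ((2 : ℝ) ^ (-(η / 2))),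
            ← Real.rpow_mul (by norm_num), ← Real.rpow_mul (by norm_num),
            ← Real.rpow_mul (by norm_num), div_div_eq_mul_div, mul_comm ((2 : ℝ) ^ _),
            mul_div_assoc, ← Real.rpow_sub (by norm_num)]
          ring_nf
  · rw [← mul_sum]
    exact mul_le_mul_of_nonneg_left ((summable_geometric_of_lt_one hG0.le hG1).sum_le_tsum _
      fun i _ => by positivity) (by positivity)

/-- Full measure with a doubly logarithmic loss, for small `δ`. -/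
lemma ae_llog_small (η : ℝ) (hη : 0 < η) : ∃ L : ℕ, 4 ≤ L ∧ ∀ (γ : ℝ) (δ : ℕ → ℝ),
    (∀ q, 0 ≤ δ q) → (∀ q, δ q ≤ (1 / 2 : ℝ) ^ L) →
    ¬ Summable (fun q : ℕ => rho q * δ q / llog (δ q) ^ η) →
    ∀ᵐ x : ℝ, {q : ℕ | 1 ≤ q ∧ ∃ a : ℤ, |(q : ℝ) * x - a - γ| < δ q}.Infinite := by
  obtain ⟨Cn, L₀, hCn, hnar⟩ := narrow_sum (η / 4) (by linarith)
  obtain ⟨Cm, hCm, hmom⟩ := mom_le
  refine ⟨(max L₀ 4) ^ 2,
    le_trans (le_max_right L₀ 4) (Nat.le_self_pow (by norm_num) _), ?_⟩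
  intro γ δ hδ hδL h
  set L := (max L₀ 4) ^ 2 with hLdef
  have hL4 : 4 ≤ L := le_trans (le_max_right L₀ 4) (Nat.le_self_pow (by norm_num) _)
  refine ae_of_moments hδ (fun q => le_half (by omega) (hδL q)) ?_
  refine ⟨Cm * (2 + 2 * Cn * (2 : ℝ) ^ (η / 4)), fun N => ?_⟩
  obtain ⟨i, F, hF, hS⟩ := exists_block hη δ hδ hL4 hδL h (max N 1)
  set S := tot (msr δ) F with hSdef
  have hG1 : 1 ≤ (2 : ℝ) ^ (η / 2) := Real.one_le_rpow (by norm_num) (by linarith)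
  have hS1 : 1 ≤ S := le_trans (one_le_pow₀ hG1) hS
  refine ⟨F, fun q hq => le_trans (le_max_left _ _) (hF q hq).1, by linarith, ?_⟩
  obtain ⟨q₀, hq₀⟩ : F.Nonempty := by
    by_contra hne
    rw [not_nonempty_iff_eq_empty] at hne
    rw [hSdef, hne, tot, sum_empty] at hS1
    linarith
  set m := 2 ^ 2 ^ i with hmdef
  have hband : ∀ q ∈ F, (1 / 2 : ℝ) ^ (m ^ 2) ≤ δ q ∧ δ q ≤ (1 / 2 : ℝ) ^ m ∧ L < m ^ 2 := by
    intro q hq
    obtain ⟨h1, h2, h3, -⟩ := blk_spec hL4 (hF q hq).2.1 (hδL q)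
    rw [(hF q hq).2.2] at h1 h2 h3
    exact ⟨h1, h2, h3⟩
  have hm : max L₀ 4 < m :=
    (Nat.pow_lt_pow_iff_left (by norm_num)).1 (hband q₀ hq₀).2.2
  have h0 : 0 ∉ F := fun h => by have := (hF 0 h).1; simp at this
  have hF16 : ∀ q ∈ F, 0 < δ q ∧ δ q ≤ 1 / 16 := fun q hq =>
    ⟨(hF q hq).2.1, le_sixteenth (by omega) (hband q hq).2.1⟩
  refine (hmom γ (gainExp / 32) δ F (by norm_num [gainExp]) hδ h0 hF16).trans ?_
  rw [← hSdef]
  set Λ := 1 + Real.log (((m ^ 2 : ℕ) : ℝ) / m) with hΛdef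
  have hO := hnar γ δ m (m ^ 2) F hδ h0 (by omega)
    (Nat.le_self_pow (by norm_num) m) le_rfl fun q hq => ⟨(hband q hq).1, (hband q hq).2.1⟩
  rw [← hSdef, ← hΛdef] at hO
  have hmR : (0 : ℝ) < m := by exact_mod_cast (by omega : 0 < m)
  have hΛ : Λ = 1 + (2 : ℝ) ^ i * Real.log 2 := by
    rw [hΛdef, Nat.cast_pow, sq, mul_div_assoc, div_self hmR.ne', mul_one, hmdef]
    push_cast
    rw [Real.log_pow]
    push_cast
    ring
  have hΛ0 : 0 ≤ Λ := by rw [hΛ]; positivity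
  have hΛle : Λ ^ (η / 4) ≤ (2 : ℝ) ^ (η / 4) * S ^ (1 / 2 : ℝ) := by
    have h1 : Λ ≤ 2 * (2 : ℝ) ^ i := by
      rw [hΛ]
      have := Real.log_two_lt_d9
      have : (1 : ℝ) ≤ (2 : ℝ) ^ i := one_le_pow₀ (by norm_num)
      nlinarith
    refine (Real.rpow_le_rpow hΛ0 h1 (by linarith)).trans ?_
    rw [Real.mul_rpow (by norm_num) (by positivity)]
    refine mul_le_mul_of_nonneg_left ?_ (by positivity)
    refine le_trans (le_of_eq ?_) (Real.rpow_le_rpow (by positivity) hS (by norm_num))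
    rw [← Real.rpow_natCast (2 : ℝ), ← Real.rpow_natCast ((2 : ℝ) ^ (η / 2)),
      ← Real.rpow_mul (by positivity), ← Real.rpow_mul (by positivity), ← Real.rpow_mul (by positivity)]
    ring_nf
  have hS32 : S + S ^ (3 / 2 : ℝ) ≤ 2 * S ^ (3 / 2 : ℝ) := by
    have := Real.self_le_rpow_of_one_le hS1 (show (1 : ℝ) ≤ 3 / 2 by norm_num)
    linarith
  have hss : S ^ (1 / 2 : ℝ) * S ^ (3 / 2 : ℝ) = S ^ 2 := by
    rw [← Real.rpow_add (by linarith)]; norm_num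
  have hOle : mass (msr δ) (msr δ) (offK γ (gainExp / 32) δ) F F ≤
      2 * Cn * (2 : ℝ) ^ (η / 4) * S ^ 2 := by
    refine hO.trans ?_
    calc Cn * Λ ^ (η / 4) * (S + S ^ (3 / 2 : ℝ))
        ≤ Cn * ((2 : ℝ) ^ (η / 4) * S ^ (1 / 2 : ℝ)) * (2 * S ^ (3 / 2 : ℝ)) := by gcongr
      _ = 2 * Cn * (2 : ℝ) ^ (η / 4) * (S ^ (1 / 2 : ℝ) * S ^ (3 / 2 : ℝ)) := by ring
      _ = _ := by rw [hss]
  have hSS : S ≤ S ^ 2 := le_self_pow₀ hS1 (by norm_num)
  calc Cm * (S + S ^ 2 + _) ≤ Cm * (S ^ 2 + S ^ 2 + 2 * Cn * (2 : ℝ) ^ (η / 4) * S ^ 2) := by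
        gcongr
    _ = _ := by ring

/-- Full measure with a doubly logarithmic loss. -/
theorem ae_llog (γ : ℝ) (ψ : ℕ → ℝ) (hψ : ∀ q, 0 ≤ ψ q) (η : ℝ) (hη : 0 < η)
    (h : ¬ Summable fun q : ℕ => rho q * ψ q / llog (ψ q) ^ η) :
    ∀ᵐ x : ℝ, {q : ℕ | 1 ≤ q ∧ ∃ a : ℤ, |(q : ℝ) * x - a - γ| < ψ q}.Infinite := by
  obtain ⟨L, hL4, hsmall⟩ := ae_llog_small η hη
  set c := (1 / 2 : ℝ) ^ L with hc
  have hc0 : 0 < c := by positivity
  have hw : ∀ q, 1 ≤ llog (ψ q) ^ η := fun q => Real.one_le_rpow (one_le_llog _) hη.le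
  by_cases hbig : Summable fun q : ℕ => rho q * (if c < ψ q then ψ q else 0)
  · set δ : ℕ → ℝ := fun q => if c < ψ q then 0 else ψ q with hδdef
    have hδ : ∀ q, 0 ≤ δ q := fun q => by simp only [hδdef]; split_ifs <;> simp [hψ q]
    have hδc : ∀ q, δ q ≤ c := fun q => by
      simp only [hδdef]; split_ifs with h1
      · exact hc0.le
      · exact not_lt.1 h1
    have hdiv : ¬ Summable fun q : ℕ => rho q * δ q / llog (δ q) ^ η := by
      intro hs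
      refine h (Summable.of_nonneg_of_le (fun q => div_nonneg
        (mul_nonneg (Gcd.rho_nonneg q) (hψ q)) (zero_le_one.trans (hw q))) (fun q => ?_)
        (hbig.add hs))
      simp only [hδdef]
      split_ifs with h1
      · rw [mul_zero, zero_div, add_zero]
        exact div_le_self (mul_nonneg (Gcd.rho_nonneg q) (hψ q)) (hw q)
      · rw [mul_zero, zero_add]
    filter_upwards [hsmall γ δ hδ hδc hdiv] with x hx
    refine hx.mono ?_
    rintro q ⟨hq, a, ha⟩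
    refine ⟨hq, a, lt_of_lt_of_le ha ?_⟩
    simp only [hδdef]; split_ifs <;> simp [hψ q]
  · refine ae_infinite_extra_power (fun _ => γ) ψ hψ 1 one_pos fun hs => hbig ?_
    refine Summable.of_nonneg_of_le (fun q => mul_nonneg (Gcd.rho_nonneg q) ?_) (fun q => ?_)
      (hs.mul_left c⁻¹)
    · split_ifs <;> simp [hψ q]
    split_ifs with h1
    · show rho q * ψ q ≤ c⁻¹ * (rho q * ψ q ^ ((1 : ℝ) + 1))
      rw [show (1 : ℝ) + 1 = (2 : ℕ) by norm_num, Real.rpow_natCast,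
        show c⁻¹ * (rho q * ψ q ^ 2) = rho q * ψ q * (c⁻¹ * ψ q) by ring]
      refine le_mul_of_one_le_right (mul_nonneg (Gcd.rho_nonneg q) (hψ q)) ?_
      rw [inv_mul_eq_div, one_le_div hc0]
      exact h1.le
    · rw [mul_zero]
      exact mul_nonneg (inv_nonneg.2 hc0.le)
        (mul_nonneg (Gcd.rho_nonneg q) (Real.rpow_nonneg (hψ q) _))

/-- The window of a denominator. -/
def win (q : ℕ) : ℕ := Nat.log 2 (Nat.log 2 q)

lemma win_spec {q : ℕ} (hq : 2 ≤ q) : 2 ^ 2 ^ win q ≤ q ∧ q < 2 ^ 2 ^ (win q + 1) := by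
  have hlog0 : Nat.log 2 q ≠ 0 := (Nat.log_pos (by norm_num : 1 < 2) hq).ne'
  refine ⟨le_trans (Nat.pow_le_pow_right (by norm_num) (Nat.pow_log_le_self 2 hlog0))
    (Nat.pow_log_le_self 2 (by omega)), lt_of_lt_of_le
    (Nat.lt_pow_succ_log_self (by norm_num : 1 < 2) q) ?_⟩
  exact Nat.pow_le_pow_right (by norm_num) (Nat.lt_pow_succ_log_self (by norm_num) _)

/-- Far windows are at levels `D ≥ 1`. -/
lemma far_windows {δ δ' : ℝ} {v w : ℕ} (hv : 2 ≤ v) (hw : 2 ≤ w)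
    (hδ : 1 / (v : ℝ) ^ 2 ≤ δ) (h : win v + 3 ≤ win w) : 1 ≤ scaleD δ δ' v w := by
  have h1 : v * v ^ 2 ≤ w := by
    refine le_trans ?_ (win_spec hw).1
    refine le_trans (Nat.mul_le_mul (win_spec hv).2.le (Nat.pow_le_pow_left (win_spec hv).2.le 2)) ?_
    rw [← pow_mul, ← pow_add]
    refine Nat.pow_le_pow_right (by norm_num) ?_
    calc 2 ^ (win v + 1) + 2 ^ (win v + 1) * 2 ≤ 2 ^ (win v + 3) := by
          rw [pow_succ, pow_succ, pow_succ, pow_succ]; omega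
      _ ≤ 2 ^ win w := Nat.pow_le_pow_right (by norm_num) h
  have hy : w ≤ quo w v * v := by
    conv_lhs => rw [← quo_mul_gcd w v]
    exact Nat.mul_le_mul_left _ (Nat.le_of_dvd (by omega) (Nat.gcd_dvd_right w v))
  have h3 : v ^ 2 ≤ quo w v :=
    Nat.le_of_mul_le_mul_left (by rw [mul_comm v (quo w v)]; exact h1.trans hy) (by omega : 0 < v)
  have h4 : ((v : ℝ) ^ 2) ≤ (quo w v : ℝ) := by exact_mod_cast h3
  have hv0 : (0 : ℝ) < (v : ℝ) ^ 2 := by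
    have : (0 : ℝ) < v := by exact_mod_cast (by omega : 0 < v)
    positivity
  refine le_trans ?_ (le_max_left _ _)
  calc (1 : ℝ) = (v : ℝ) ^ 2 * (1 / (v : ℝ) ^ 2) := by field_simp
    _ ≤ (quo w v : ℝ) * δ :=
        mul_le_mul h4 hδ (by positivity) (Nat.cast_nonneg _)

/-- A subfamily with total between `1` and `2`. -/
lemma exists_sub {μ : ℕ → ℝ} (hμ1 : ∀ q, μ q ≤ 1) (u : Finset ℕ) (hu : 1 ≤ tot μ u) :
    ∃ F ⊆ u, 1 ≤ tot μ F ∧ tot μ F ≤ 2 := by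
  induction u using Finset.induction_on with
  | empty => simp [tot] at hu; linarith
  | @insert a s ha ih =>
    by_cases hs : 1 ≤ tot μ s
    · obtain ⟨F, hF, h⟩ := ih hs
      exact ⟨F, hF.trans (subset_insert a s), h⟩
    · refine ⟨insert a s, subset_rfl, hu, ?_⟩
      have := hμ1 a
      simp only [tot, not_le] at hs ⊢
      rw [sum_insert ha]
      linarith

/-- The pairs at levels `D < 1` are covered by three consecutive windows. -/
lemma near_cover {γ τ : ℝ} {δ : ℕ → ℝ} {F : Finset ℕ} (hδ : ∀ q, 0 ≤ δ q)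
    (hF : ∀ q ∈ F, 2 ≤ q ∧ 1 / (q : ℝ) ^ 2 ≤ δ q) :
    mass (msr δ) (msr δ) (offK γ τ δ) F F ≤ ∑ i ∈ F.image win,
      mass (msr δ) (msr δ) (offK γ τ δ) (F.filter fun q => i ≤ win q ∧ win q ≤ i + 2)
        (F.filter fun q => i ≤ win q ∧ win q ≤ i + 2) := by
  set μ := msr δ
  have hμ : ∀ q, 0 ≤ μ q := Gcd.msr_nonneg hδ
  have hpos : ∀ q ∈ F, 0 < δ q := fun q hq => by
    refine lt_of_lt_of_le ?_ (hF q hq).2
    have : (0 : ℝ) < q := by exact_mod_cast (show 0 < q by have := (hF q hq).1; omega)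
    positivity
  set u := fun v w => μ v * μ w * offK γ τ δ v w
  have hu0 : ∀ v ∈ F, ∀ w ∈ F, 0 ≤ u v w := fun v hv w hw => by
    refine mul_nonneg (mul_nonneg (hμ v) (hμ w)) ?_
    unfold offK
    split_ifs
    · exact le_rfl
    · exact narrowK_nonneg (hpos v hv) v (by have := (hF w hw).1; omega)
  set near := fun (i v w : ℕ) =>
    if (i ≤ win v ∧ win v ≤ i + 2) ∧ (i ≤ win w ∧ win w ≤ i + 2) then u v w else 0
  have hn0 : ∀ v ∈ F, ∀ w ∈ F, ∀ i, 0 ≤ near i v w := fun v hv w hw i => by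
    simp only [near]; split_ifs
    · exact hu0 v hv w hw
    · exact le_rfl
  refine le_trans (sum_le_sum fun v hv => sum_le_sum
    (g := fun w => ∑ i ∈ F.image win, near i v w) fun w hw => ?_) (le_of_eq ?_)
  · show u v w ≤ _
    by_cases hz : u v w = 0
    · rw [hz]; exact sum_nonneg fun i _ => hn0 v hv w hw i
    have hD : scaleD (δ v) (δ w) v w < 1 := by
      by_contra hc
      apply hz
      simp only [u, offK, narrowK]
      split_ifs with h1 h2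
      · ring
      · exact absurd h2.1 hc
      · ring
    have h1 : ¬ win v + 3 ≤ win w := fun h =>
      absurd (far_windows (δ' := δ w) (hF v hv).1 (hF w hw).1 (hF v hv).2 h) (not_le.2 hD)
    have h2 : ¬ win w + 3 ≤ win v := fun h => by
      have h3 := far_windows (δ' := δ v) (hF w hw).1 (hF v hv).1 (hF w hw).2 h
      unfold scaleD at h3 hD
      rw [max_comm] at h3
      linarith
    rcases le_total (win v) (win w) with h | h
    · refine le_trans (le_of_eq ?_) (single_le_sum (fun i _ => hn0 v hv w hw i)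
        (mem_image_of_mem win hv))
      simp only [near]
      rw [if_pos ⟨⟨le_rfl, by omega⟩, h, by omega⟩]
    · refine le_trans (le_of_eq ?_) (single_le_sum (fun i _ => hn0 v hv w hw i)
        (mem_image_of_mem win hw))
      simp only [near]
      rw [if_pos ⟨⟨h, by omega⟩, le_rfl, by omega⟩]
  · refine (sum_congr rfl fun v _ => sum_comm).trans ?_
    rw [sum_comm]
    refine sum_congr rfl fun i _ => ?_
    simp only [mass, near, u, sum_filter, ite_and]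
    refine sum_congr rfl fun v _ => ?_
    split_ifs <;> simp

/-- Full measure for polynomially small `δ`. -/
lemma ae_poly_small (η : ℝ) (hη : 0 < η) (hη1 : η ≤ 1) : ∃ Q : ℕ, 2 ≤ Q ∧
    ∀ (γ : ℝ) (δ : ℕ → ℝ), (∀ q, 0 ≤ δ q) →
    (∀ q, δ q ≠ 0 → Q ≤ q ∧ 1 / (q : ℝ) ^ 2 ≤ δ q ∧ δ q ≤ (q : ℝ) ^ (-η)) →
    ¬ Summable (fun q : ℕ => rho q * δ q) →
    ∀ᵐ x : ℝ, {q : ℕ | 1 ≤ q ∧ ∃ a : ℤ, |(q : ℝ) * x - a - γ| < δ q}.Infinite := by
  obtain ⟨Cn, L₀, hCn, hnar⟩ := narrow_sum 1 one_pos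
  obtain ⟨Cm, hCm, hmom⟩ := mom_le
  set i₀ := ⌈max (64 / η ^ 2) (((L₀ : ℝ) + 5) / η)⌉₊ with hi₀
  refine ⟨2 ^ 2 ^ i₀, Nat.le_self_pow (by positivity) 2, ?_⟩
  intro γ δ hδ hsupp hdiv
  have hwin : ∀ q, δ q ≠ 0 → 2 ≤ q ∧ i₀ ≤ win q := fun q hq => by
    have h := (hsupp q hq).1
    have h2 : 2 ≤ q := le_trans (Nat.le_self_pow (by positivity) 2) h
    refine ⟨h2, ?_⟩
    have h3 : 2 ^ i₀ ≤ Nat.log 2 q := Nat.le_log_of_pow_le (by norm_num) h
    exact Nat.le_log_of_pow_le (by norm_num) h3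
  have hfloor : ∀ i, i₀ ≤ i → L₀ + 4 ≤ ⌊η * 2 ^ i⌋₊ ∧ 2 ^ (i + 4) ≤ ⌊η * 2 ^ i⌋₊ ^ 2 ∧
      ⌊η * 2 ^ i⌋₊ ≤ 2 ^ (i + 4) ∧ η * 2 ^ i / 2 ≤ (⌊η * 2 ^ i⌋₊ : ℝ) := by
    intro i hi
    have hpow : (i₀ : ℝ) ≤ (2 : ℝ) ^ i := by
      have := Nat.lt_two_pow_self (n := i)
      exact_mod_cast (show i₀ ≤ 2 ^ i by omega)
    have hi₀' := Nat.le_ceil (max (64 / η ^ 2) (((L₀ : ℝ) + 5) / η))
    rw [← hi₀] at hi₀'
    have hA : 64 / η ^ 2 ≤ (2 : ℝ) ^ i := (le_max_left _ _).trans (hi₀'.trans hpow)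
    have hB : ((L₀ : ℝ) + 5) / η ≤ (2 : ℝ) ^ i := (le_max_right _ _).trans (hi₀'.trans hpow)
    rw [div_le_iff₀ (by positivity)] at hA hB
    have hfl : η * 2 ^ i - 1 < (⌊η * 2 ^ i⌋₊ : ℝ) := by
      linarith [Nat.lt_floor_add_one (η * (2 : ℝ) ^ i)]
    have hfu := Nat.floor_le (show 0 ≤ η * (2 : ℝ) ^ i by positivity)
    have hL : (0 : ℝ) ≤ L₀ := Nat.cast_nonneg _
    have hhalf : η * 2 ^ i / 2 ≤ (⌊η * 2 ^ i⌋₊ : ℝ) := by linarith
    refine ⟨?_, ?_, ?_, hhalf⟩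
    · have : ((L₀ + 4 : ℕ) : ℝ) ≤ (⌊η * 2 ^ i⌋₊ : ℝ) := by push_cast; linarith
      exact_mod_cast this
    · have : ((2 ^ (i + 4) : ℕ) : ℝ) ≤ ((⌊η * 2 ^ i⌋₊ ^ 2 : ℕ) : ℝ) := by
        push_cast
        refine le_trans ?_ (pow_le_pow_left₀ (by positivity) hhalf 2)
        rw [pow_add]
        nlinarith [show (0 : ℝ) < (2 : ℝ) ^ i by positivity]
      exact_mod_cast this
    · have : (⌊η * 2 ^ i⌋₊ : ℝ) ≤ ((2 ^ (i + 4) : ℕ) : ℝ) := by
        push_cast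
        rw [pow_add]
        nlinarith [show (0 : ℝ) < (2 : ℝ) ^ i by positivity]
      exact_mod_cast this
  have hband : ∀ q, δ q ≠ 0 → ∀ i, i ≤ win q → win q ≤ i + 2 →
      (1 / 2 : ℝ) ^ 2 ^ (i + 4) ≤ δ q ∧ δ q ≤ (1 / 2 : ℝ) ^ ⌊η * 2 ^ i⌋₊ := by
    intro q hq i hi hi'
    obtain ⟨hq2, -⟩ := hwin q hq
    obtain ⟨-, hlo, hhi⟩ := hsupp q hq
    obtain ⟨hw1, hw2⟩ := win_spec hq2
    have hqR : (0 : ℝ) < q := by exact_mod_cast (by omega : 0 < q)
    constructor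
    · refine le_trans ?_ hlo
      rw [one_div_pow]
      refine one_div_le_one_div_of_le (by positivity) ?_
      have : q ^ 2 ≤ 2 ^ 2 ^ (i + 4) := by
        refine (Nat.pow_le_pow_left hw2.le 2).trans ?_
        rw [← pow_mul, ← pow_succ]
        exact Nat.pow_le_pow_right (by norm_num) (Nat.pow_le_pow_right (by norm_num) (by omega))
      exact_mod_cast this
    · refine hhi.trans ?_
      have h1 : ((2 : ℝ) ^ 2 ^ i) ≤ q := by
        exact_mod_cast le_trans (Nat.pow_le_pow_right (by norm_num)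
          (Nat.pow_le_pow_right (by norm_num) hi)) hw1
      refine (Real.rpow_le_rpow_of_nonpos (by positivity) h1 (by linarith)).trans ?_
      rw [← Real.rpow_natCast (1 / 2 : ℝ), ← Real.rpow_natCast (2 : ℝ) (2 ^ i),
        ← Real.rpow_mul (by norm_num), one_div, Real.inv_rpow (by norm_num),
        ← Real.rpow_neg (by norm_num)]
      refine Real.rpow_le_rpow_of_exponent_le (by norm_num) ?_
      have := Nat.floor_le (show 0 ≤ η * (2 : ℝ) ^ i by positivity)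
      push_cast
      linarith
  have hδ4 : ∀ q, δ q ≤ 1 / 16 := fun q => by
    by_cases hq : δ q = 0
    · rw [hq]; norm_num
    obtain ⟨-, hi⟩ := hwin q hq
    exact le_sixteenth (le_trans (by omega) (hfloor _ hi).1) (hband q hq _ le_rfl (by omega)).2
  have hδ2 : ∀ q, δ q ≤ 1 / 2 := fun q => le_trans (hδ4 q) (by norm_num)
  refine ae_of_moments hδ hδ2 ⟨Cm * (6 + Cn * (1 + 32 / η) * 18), fun N => ?_⟩
  set μ := msr δ with hμdef
  have hμ : ∀ q, 0 ≤ μ q := Gcd.msr_nonneg hδ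
  obtain ⟨u, hu, hu1⟩ : ∃ u : Finset ℕ, (∀ q ∈ u, N ≤ q ∧ δ q ≠ 0) ∧ 1 ≤ tot μ u := by
    by_contra hcon
    push Not at hcon
    refine hdiv (summable_of_sum_le (c := ∑ q ∈ range N, μ q + 1) hμ fun u => ?_)
    rw [← sum_filter_add_sum_filter_not u (fun q => q < N)]
    refine add_le_add (sum_le_sum_of_subset_of_nonneg
      (fun q hq => mem_range.2 (mem_filter.1 hq).2) fun q _ _ => hμ q) ?_
    refine le_of_eq_of_le (sum_subset (filter_subset (fun q => δ q ≠ 0) _) fun q hq hq' => ?_).symm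
      (hcon _ fun q hq => ⟨not_lt.1 (mem_filter.1 (mem_filter.1 hq).1).2, (mem_filter.1 hq).2⟩).le
    have hz : δ q = 0 := not_not.1 fun hp => hq' (mem_filter.2 ⟨hq, hp⟩)
    show rho q * δ q = 0
    rw [hz, mul_zero]
  obtain ⟨F, hFu, hS1, hS2⟩ := exists_sub (msr_le_one hδ hδ2) u hu1
  set S := tot μ F with hSdef
  refine ⟨F, fun q hq => (hu q (hFu hq)).1, by linarith, ?_⟩
  have hFδ : ∀ q ∈ F, δ q ≠ 0 := fun q hq => (hu q (hFu hq)).2
  have h0 : 0 ∉ F := fun h => by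
    obtain ⟨h2, -⟩ := hwin 0 (hFδ 0 h)
    omega
  have hFpos : ∀ q ∈ F, 0 < δ q ∧ δ q ≤ 1 / 16 := fun q hq =>
    ⟨lt_of_le_of_ne (hδ q) (Ne.symm (hFδ q hq)), hδ4 q⟩
  refine (hmom γ (gainExp / 32) δ F (by norm_num [gainExp]) hδ h0 hFpos).trans ?_
  rw [← hμdef, ← hSdef]
  set O := mass μ μ (offK γ (gainExp / 32) δ) F F
  have hO : O ≤ Cn * (1 + 32 / η) * 18 := by
    refine (near_cover (τ := gainExp / 32) hδ fun q hq =>
      ⟨(hwin q (hFδ q hq)).1, (hsupp q (hFδ q hq)).2.1⟩).trans ?_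
    set G := fun i => F.filter fun q => i ≤ win q ∧ win q ≤ i + 2
    have hterm : ∀ i ∈ F.image win, mass μ μ (offK γ (gainExp / 32) δ) (G i) (G i) ≤
        Cn * (1 + 32 / η) * 3 * tot μ (G i) := by
      intro i hi
      obtain ⟨q, hq, rfl⟩ := mem_image.1 hi
      obtain ⟨h1, h2, h3, h4⟩ := hfloor _ (hwin q (hFδ q hq)).2
      set m := ⌊η * 2 ^ win q⌋₊
      set s := tot μ (G (win q))
      have hs : 0 ≤ s := Gcd.tot_nonneg hμ _
      have hs2 : s ≤ 2 :=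
        (sum_le_sum_of_subset_of_nonneg (filter_subset _ _) fun q _ _ => hμ q).trans hS2
      refine (hnar γ δ m (2 ^ (win q + 4)) (G (win q)) hδ (fun h => h0 (mem_filter.1 h).1)
        (by omega) h3 h2 fun p hp => ?_).trans ?_
      · obtain ⟨hpF, hp1, hp2⟩ := mem_filter.1 hp
        exact hband p (hFδ p hpF) _ hp1 hp2
      have hm0 : (0 : ℝ) < m := by exact_mod_cast (by omega : 0 < m)
      have hratio : ((2 ^ (win q + 4) : ℕ) : ℝ) / m ≤ 32 / η := by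
        rw [div_le_div_iff₀ hm0 hη]
        push_cast
        rw [pow_add]
        linarith
      have hge1 : 1 ≤ ((2 ^ (win q + 4) : ℕ) : ℝ) / m := by
        rw [le_div_iff₀ hm0, one_mul]; exact_mod_cast h3
      have hlog : 1 + Real.log (((2 ^ (win q + 4) : ℕ) : ℝ) / m) ≤ 1 + 32 / η := by
        have := Real.log_le_sub_one_of_pos (show (0 : ℝ) <
          ((2 ^ (win q + 4) : ℕ) : ℝ) / m by linarith)
        linarith
      have hs3 : s ^ (3 / 2 : ℝ) ≤ 2 * s := by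
        rcases hs.eq_or_lt with h | h
        · rw [← h, Real.zero_rpow (by norm_num), mul_zero]
        · rw [show (3 / 2 : ℝ) = 1 / 2 + 1 by norm_num, Real.rpow_add_one h.ne']
          refine mul_le_mul_of_nonneg_right ?_ hs
          refine (Real.rpow_le_rpow hs (hs2.trans (by norm_num : (2 : ℝ) ≤ 4))
            (by norm_num)).trans (le_of_eq ?_)
          rw [show (4 : ℝ) = 2 ^ (2 : ℝ) by norm_num, ← Real.rpow_mul (by norm_num)]
          norm_num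
      have hlog0 : 0 ≤ 1 + Real.log (((2 ^ (win q + 4) : ℕ) : ℝ) / m) :=
        add_nonneg zero_le_one (Real.log_nonneg hge1)
      rw [Real.rpow_one]
      calc Cn * _ * (s + s ^ (3 / 2 : ℝ)) ≤ Cn * (1 + 32 / η) * (s + 2 * s) := by gcongr
        _ = _ := by ring
    refine (sum_le_sum hterm).trans ?_
    rw [← mul_sum]
    have hcount : ∑ i ∈ F.image win, tot μ (G i) ≤ 3 * S := by
      simp only [G, tot, sum_filter, hSdef]
      rw [sum_comm, mul_sum]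
      refine sum_le_sum fun q _ => ?_
      rw [← sum_filter, sum_const, nsmul_eq_mul]
      refine mul_le_mul_of_nonneg_right ?_ (hμ q)
      have hsub : (F.image win).filter (fun i => i ≤ win q ∧ win q ≤ i + 2) ⊆
          Icc (win q - 2) (win q) := fun i hi =>
        mem_Icc.2 ⟨by have := (mem_filter.1 hi).2.2; omega, (mem_filter.1 hi).2.1⟩
      have := (card_le_card hsub).trans_eq (Nat.card_Icc _ _)
      exact_mod_cast (show _ ≤ 3 by omega)
    have : 0 ≤ Cn * (1 + 32 / η) * 3 := by positivity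
    nlinarith
  have hSS : 1 ≤ S ^ 2 := one_le_pow₀ hS1
  have hK : 0 ≤ Cn * (1 + 32 / η) * 18 := by positivity
  calc Cm * (S + S ^ 2 + O) ≤ Cm * (2 + 2 ^ 2 + Cn * (1 + 32 / η) * 18) := by gcongr
    _ = Cm * (6 + Cn * (1 + 32 / η) * 18) * 1 := by ring
    _ ≤ _ := by gcongr

/-- Q1 for polynomially small `ψ`, for every shift. -/
theorem ae_poly (γ : ℝ) (ψ : ℕ → ℝ) (hψ : ∀ q, 0 ≤ ψ q) (η : ℝ) (hη : 0 < η)
    (hsmall : ∀ᶠ q : ℕ in Filter.atTop, ψ q ≤ (q : ℝ) ^ (-η))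
    (h : ¬ Summable fun q : ℕ => rho q * ψ q) :
    ∀ᵐ x : ℝ, {q : ℕ | 1 ≤ q ∧ ∃ a : ℤ, |(q : ℝ) * x - a - γ| < ψ q}.Infinite := by
  obtain ⟨Q, hQ2, hpoly⟩ := ae_poly_small (min η 1) (lt_min hη one_pos) (min_le_right _ _)
  obtain ⟨Q₁, hQ₁⟩ := Filter.eventually_atTop.1 hsmall
  set δ : ℕ → ℝ := fun q => if max Q Q₁ ≤ q ∧ 1 / (q : ℝ) ^ 2 ≤ ψ q then ψ q else 0 with hδdef
  have hδ : ∀ q, 0 ≤ δ q := fun q => by simp only [hδdef]; split_ifs <;> simp [hψ q]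
  have hsupp : ∀ q, δ q ≠ 0 →
      Q ≤ q ∧ 1 / (q : ℝ) ^ 2 ≤ δ q ∧ δ q ≤ (q : ℝ) ^ (-(min η 1)) := by
    intro q hq
    simp only [hδdef] at hq ⊢
    split_ifs at hq ⊢ with hc
    · refine ⟨le_trans (le_max_left _ _) hc.1, hc.2,
        (hQ₁ q (le_trans (le_max_right _ _) hc.1)).trans ?_⟩
      have : (1 : ℝ) ≤ q := by
        exact_mod_cast (le_trans (le_trans (by omega : 1 ≤ Q) (le_max_left _ _)) hc.1)
      exact Real.rpow_le_rpow_of_exponent_le this (neg_le_neg (min_le_left _ _))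
    · exact absurd rfl hq
  have hdiv : ¬ Summable fun q : ℕ => rho q * δ q := by
    intro hs
    apply h
    refine (summable_nat_add_iff (max Q Q₁)).1 ?_
    refine Summable.of_nonneg_of_le (fun n => mul_nonneg (Gcd.rho_nonneg _) (hψ _)) (fun n => ?_)
      ((summable_nat_add_iff (max Q Q₁)).2
        (hs.add (Real.summable_one_div_nat_pow.2 (by norm_num : 1 < 2))))
    have hρ := Gcd.rho_nonneg (n + max Q Q₁)
    simp only [hδdef]
    split_ifs with hc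
    · have : (0 : ℝ) ≤ 1 / ((n + max Q Q₁ : ℕ) : ℝ) ^ 2 := by positivity
      linarith
    · have hlt := not_le.1 fun h2 => hc ⟨Nat.le_add_left _ _, h2⟩
      rw [mul_zero, zero_add]
      exact (mul_le_of_le_one_left (hψ _) rho_le_one).trans hlt.le
  filter_upwards [hpoly γ δ hδ hsupp hdiv] with x hx
  refine hx.mono ?_
  rintro q ⟨hq, a, ha⟩
  refine ⟨hq, a, lt_of_lt_of_le ha ?_⟩
  simp only [hδdef]; split_ifs <;> simp [hψ q]

end

end Vale.Agent.P028.Sel
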