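import Vale.Agent.P028.Gcd.Weights

/-!
# What the counting lemma needs from a sieve
-/

open Finset

namespace Vale.Agent.P028.Sel

noncomputable section

open Classical in
/-- The survivors of sifting a progression by the primes of `P` not dividing its step. -/
def survivors (P : Finset ℕ) (c : ℤ) (M : ℕ) (N : ℕ) : Finset ℕ :=
  (range N).filter fun j : ℕ => ∀ p ∈ P, ¬ p ∣ M → ¬ (p : ℤ) ∣ c + (j : ℤ) * M

/-- The loss of the primes of `P` dividing `M`. -/
def stepLoss (P : Finset ℕ) (M : ℕ) : ℝ :=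
  ∏ p ∈ P.filter (fun p => p ∣ M), (p : ℝ) / ((p : ℝ) - 1)

/-- A sieve bound with density `1/L` and error `E`. -/
def SieveOk (P : Finset ℕ) (L E : ℝ) : Prop :=
  0 < L ∧ 0 ≤ E ∧ (∀ p ∈ P, p.Prime) ∧ ∀ (c : ℤ) (M N : ℕ), 0 < M →
    ((survivors P c M N).card : ℝ) ≤ N * stepLoss P M / L + E

lemma sieveOk_empty : SieveOk ∅ 1 1 := by
  refine ⟨one_pos, zero_le_one, by simp, fun c M N _ => ?_⟩
  have h : (survivors ∅ c M N).card ≤ N :=
    le_trans (card_le_card (filter_subset _ _)) (le_of_eq (card_range N))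
  have h' : ((survivors ∅ c M N).card : ℝ) ≤ N := by exact_mod_cast h
  simp [stepLoss]
  linarith

lemma div_pred_le {p : ℕ} (hp : p.Prime) :
    1 ≤ (p : ℝ) / ((p : ℝ) - 1) ∧ (p : ℝ) / ((p : ℝ) - 1) ≤ 2 := by
  have h : (2 : ℝ) ≤ p := by exact_mod_cast hp.two_le
  constructor
  · rw [le_div_iff₀ (by linarith)]; linarith
  · rw [div_le_iff₀ (by linarith)]; linarith

lemma one_le_stepLoss {P : Finset ℕ} (hP : ∀ p ∈ P, p.Prime) (M : ℕ) : 1 ≤ stepLoss P M :=
  one_le_prod fun p hp => (div_pred_le (hP p (mem_filter.1 hp).1)).1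

lemma stepLoss_nonneg {P : Finset ℕ} (hP : ∀ p ∈ P, p.Prime) (M : ℕ) : 0 ≤ stepLoss P M :=
  zero_le_one.trans (one_le_stepLoss hP M)

lemma stepLoss_le {P : Finset ℕ} (hP : ∀ p ∈ P, p.Prime) {M : ℕ} (hM : 0 < M) :
    stepLoss P M ≤ M := by
  have hsub : P.filter (fun p => p ∣ M) ⊆ M.primeFactors := fun p hp =>
    Nat.mem_primeFactors.2 ⟨hP p (mem_filter.1 hp).1, (mem_filter.1 hp).2, hM.ne'⟩
  calc stepLoss P M ≤ ∏ p ∈ P.filter (fun p => p ∣ M), (p : ℝ) := by
        refine prod_le_prod (fun p hp => ?_) fun p hp => ?_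
        · exact zero_le_one.trans (div_pred_le (hP p (mem_filter.1 hp).1)).1
        · exact (div_pred_le (hP p (mem_filter.1 hp).1)).2.trans
            (by exact_mod_cast (hP p (mem_filter.1 hp).1).two_le)
    _ ≤ ∏ p ∈ M.primeFactors, (p : ℝ) :=
        prod_le_prod_of_subset_of_one_le hsub (fun p _ => Nat.cast_nonneg p) fun p hp _ => by
          exact_mod_cast (Nat.prime_of_mem_primeFactors hp).one_le
    _ ≤ M := by
        rw [← Nat.cast_prod]; exact_mod_cast Nat.le_of_dvd hM (Nat.prod_primeFactors_dvd M)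

end

end Vale.Agent.P028.Sel
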