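import Vale.Agent.P028.Sel.Regime
import Vale.Agent.P028.Sel.Periodic
import Vale.Agent.P028.Sel.Sift

/-!
# The weights on one fibre of a pair of denominators
-/

open Finset

namespace Vale.Agent.P028.Sel

noncomputable section

open Gcd (rho quo)
open scoped Classical

/-- The coincidence form. -/
def coF (A A' : ℤ) (B B' x y : ℕ) (k : ℤ) : ℤ :=
  k * B * B' + A * B' * y - A' * B * x

/-- Both vertices can be selected at the parameter `k`. -/
def Kill (P P' : Finset ℕ) (A A' : ℤ) (B B' x y : ℕ) (k : ℤ) : Prop :=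
  (∀ p ∈ P, p ∣ x → ¬ (p : ℤ) ∣ k * B + A * y) ∧
    ∀ p ∈ P', p ∣ y → ¬ (p : ℤ) ∣ k * B' - A' * x

/-- The loss at the avoided primes of the quotients. -/
def killX (P P' : Finset ℕ) (x y : ℕ) : ℝ := stepLoss P x * stepLoss P' y

/-- The loss at coinciding classes. -/
def coinc (P P' : Finset ℕ) (A A' : ℤ) (B B' x y : ℕ) (k : ℤ) : ℝ :=
  ∏ p ∈ ((P ∩ P').filter fun p => ¬ p ∣ x ∧ ¬ p ∣ y).filter
      (fun p : ℕ => (p : ℤ) ∣ coF A A' B B' x y k),
    (p : ℝ) / ((p : ℝ) - 1)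

lemma pair_coord {q q' : ℕ} (hq : 0 < q) (k : ℤ) {a₀ b₀ a b : ℤ}
    (h0 : lat q q' (a₀, b₀) = k) (h : lat q q' (a, b) = k) :
    ∃ j : ℤ, a = a₀ + (quo q q' : ℤ) * j ∧ b = b₀ + (quo q' q : ℤ) * j := by
  have hg : 0 < q.gcd q' := Nat.gcd_pos_of_pos_left _ hq
  have hx : 0 < quo q q' := Gcd.quo_pos hq.ne'
  have hco : Nat.Coprime (quo q q') (quo q' q) := by
    unfold quo
    rw [Nat.gcd_comm q' q]
    exact Nat.coprime_div_gcd_div_gcd hg
  have e : (a - a₀) * (quo q' q : ℤ) = (b - b₀) * (quo q q' : ℤ) := by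
    unfold lat at h0 h
    linear_combination h - h0
  obtain ⟨j, hj⟩ : (quo q q' : ℤ) ∣ a - a₀ :=
    IsCoprime.dvd_of_dvd_mul_right
      (Int.isCoprime_iff_nat_coprime.2 (by simpa using hco) :
        IsCoprime (quo q q' : ℤ) (quo q' q : ℤ))
      ⟨b - b₀, by rw [e]; ring⟩
  refine ⟨j, by linarith, ?_⟩
  rw [hj, mul_assoc, mul_comm (b - b₀)] at e
  have := mul_left_cancel₀ (by exact_mod_cast hx.ne' : (quo q q' : ℤ) ≠ 0) e
  linarith

/-- The density of one prime. -/
lemma roots_two {p : ℕ} (hp : p.Prime) (c c' M M' : ℤ) (hM : ¬ (p : ℤ) ∣ M)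
    (hM' : ¬ (p : ℤ) ∣ M') :
    ((P031.roots (fun p j => ¬ (p : ℤ) ∣ c + (j : ℤ) * M ∧ ¬ (p : ℤ) ∣ c' + (j : ℤ) * M') p : ℕ) : ℝ)
        / p ≤
      (1 - (p : ℝ)⁻¹) ^ 2 *
        if (p : ℤ) ∣ c * M' - c' * M then (p : ℝ) / ((p : ℝ) - 1) else 1 := by
  have hpR : (2 : ℝ) ≤ p := by exact_mod_cast hp.two_le
  have h1 := roots_avoid_one hp c M hM
  have h1' := roots_avoid_one hp c' M' hM'
  unfold P031.roots at h1 h1' ⊢
  set S := (range p).filter fun j : ℕ => ¬ (p : ℤ) ∣ c + (j : ℤ) * M with hS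
  set S' := (range p).filter fun j : ℕ => ¬ (p : ℤ) ∣ c' + (j : ℤ) * M' with hS'
  have hset : (range p).filter (fun j : ℕ => ¬ (p : ℤ) ∣ c + (j : ℤ) * M ∧
      ¬ (p : ℤ) ∣ c' + (j : ℤ) * M') = S ∩ S' := by
    rw [hS, hS', ← filter_and]
  simp only
  rw [show ((range p).filter fun r : ℕ => ¬ (p : ℤ) ∣ c + (r : ℤ) * M ∧
    ¬ (p : ℤ) ∣ c' + (r : ℤ) * M') = S ∩ S' from by rw [← hset]]
  have hSc : S.card = p - 1 := by rw [hS]; convert h1
  have hSc' : S'.card = p - 1 := by rw [hS']; convert h1'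
  split_ifs with hd
  · have : ((S ∩ S').card : ℝ) ≤ (p : ℝ) - 1 := by
      have h := card_le_card (inter_subset_left (s₁ := S) (s₂ := S'))
      rw [hSc] at h
      have h' : ((S ∩ S').card : ℝ) ≤ ((p - 1 : ℕ) : ℝ) := by exact_mod_cast h
      rwa [Nat.cast_sub hp.one_lt.le, Nat.cast_one] at h'
    refine (div_le_div_of_nonneg_right this (by linarith)).trans (le_of_eq ?_)
    field_simp [show (p : ℝ) - 1 ≠ 0 by linarith]
  · have hne : S ≠ S' := by
      intro he
      apply hd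
      obtain ⟨j, hj1, hj2⟩ : ∃ j ∈ range p, (p : ℤ) ∣ c + (j : ℤ) * M := by
        by_contra hcon
        push Not at hcon
        have : S = range p := filter_true_of_mem hcon
        rw [this, card_range] at hSc
        have := hp.two_le
        omega
      have hj3 : (p : ℤ) ∣ c' + (j : ℤ) * M' := by
        by_contra hcon
        have : j ∈ S := he ▸ mem_filter.2 ⟨hj1, hcon⟩
        exact (mem_filter.1 this).2 hj2
      have := dvd_sub (hj2.mul_right M') (hj3.mul_right M)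
      rwa [show (c + (j : ℤ) * M) * M' - (c' + (j : ℤ) * M') * M = c * M' - c' * M by ring] at this
    have hlt : (S ∩ S').card < p - 1 := by
      refine lt_of_lt_of_le (card_lt_card (ssubset_of_subset_of_ne inter_subset_left fun h => ?_))
        hSc.le
      exact hne (eq_of_subset_of_card_le (inter_eq_left.1 h) (by rw [hSc, hSc']))
    have h' : ((S ∩ S').card : ℝ) + 2 ≤ p := by
      exact_mod_cast (by omega : (S ∩ S').card + 2 ≤ p)
    rw [mul_one]
    refine (div_le_div_of_nonneg_right (by linarith : ((S ∩ S').card : ℝ) ≤ (p : ℝ) - 2)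
      (by linarith)).trans ?_
    rw [show (1 - (p : ℝ)⁻¹) ^ 2 = ((p : ℝ) - 1) ^ 2 / p / p by field_simp,
      div_le_div_iff_of_pos_right (by linarith), le_div_iff₀ (by linarith)]
    nlinarith

/-- The weights along one fibre. -/
lemma fibre_sum (γ : ℝ) (q q' : ℕ) (hq : 0 < q) (hq' : 0 < q') (P P' : Finset ℕ)
    (hP : P ⊆ q.primeFactors) (hP' : P' ⊆ q'.primeFactors) (A A' : ℤ) (B B' : ℕ)
    (hB : ∀ p ∈ P, ¬ p ∣ B) (hB' : ∀ p ∈ P', ¬ p ∣ B') (k : ℤ) :
    ∑ e ∈ fibre γ γ q q' k, selW P A B q e.1 * selW P' A' B' q' e.2 ≤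
      if Kill P P' A A' B B' (quo q q') (quo q' q) k then
        8 * (q.gcd q' : ℝ) * (rho q * rho q') * killX P P' (quo q q') (quo q' q) *
          coinc P P' A A' B B' (quo q q') (quo q' q) k
      else 0 := by
  set x := quo q q' with hx
  set y := quo q' q with hy
  have hxy : x * q.gcd q' = q := quo_mul_gcd q q'
  have hyx : y * q.gcd q' = q' := by rw [Nat.gcd_comm]; exact quo_mul_gcd q' q
  have hco : Nat.Coprime x y := by
    rw [hx, hy]; unfold quo
    rw [Nat.gcd_comm q' q]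
    exact Nat.coprime_div_gcd_div_gcd (Nat.gcd_pos_of_pos_left _ hq)
  have hPp : ∀ p ∈ P, p.Prime := fun p hp => Nat.prime_of_mem_primeFactors (hP hp)
  have hP'p : ∀ p ∈ P', p.Prime := fun p hp => Nat.prime_of_mem_primeFactors (hP' hp)
  by_cases hkill : Kill P P' A A' B B' x y k
  swap
  · rw [if_neg hkill]
    refine le_of_eq (sum_eq_zero fun e he => ?_)
    have hlat : e.1 * (y : ℤ) - e.2 * (x : ℤ) = k := (mem_filter.1 he).2
    unfold Kill at hkill
    rw [not_and_or] at hkill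
    rcases hkill with h | h <;> push Not at h <;> obtain ⟨p, hp, hpx, hd⟩ := h
    · have hpx' : (p : ℤ) ∣ (x : ℤ) := Int.natCast_dvd_natCast.2 hpx
      have h1 : (p : ℤ) ∣ (e.1 * B + A) * y := by
        rw [show (e.1 * B + A) * (y : ℤ) = (k * B + A * y) + e.2 * B * x by
          linear_combination (B : ℤ) * hlat]
        exact dvd_add hd (hpx'.mul_left _)
      have h2 : ¬ (p : ℤ) ∣ (y : ℤ) := fun h2 => (hPp p hp).ne_one
        (Nat.dvd_one.1 (hco ▸ Nat.dvd_gcd hpx (Int.natCast_dvd_natCast.1 h2)))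
      have h3 := ((Nat.prime_iff_prime_int.1 (hPp p hp)).dvd_or_dvd h1).resolve_right h2
      rw [selW, if_neg (fun hall => hall p hp h3), zero_mul]
    · have hpy' : (p : ℤ) ∣ (y : ℤ) := Int.natCast_dvd_natCast.2 hpx
      have h1 : (p : ℤ) ∣ (e.2 * B' + A') * x := by
        rw [show (e.2 * B' + A') * (x : ℤ) = e.1 * B' * y - (k * B' - A' * x) by
          linear_combination -(B' : ℤ) * hlat]
        exact dvd_sub (hpy'.mul_left _) hd
      have h2 : ¬ (p : ℤ) ∣ (x : ℤ) := fun h2 => (hP'p p hp).ne_one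
        (Nat.dvd_one.1 (hco ▸ Nat.dvd_gcd (Int.natCast_dvd_natCast.1 h2) hpx))
      have h3 := ((Nat.prime_iff_prime_int.1 (hP'p p hp)).dvd_or_dvd h1).resolve_right h2
      rw [mul_comm, selW, if_neg (fun hall => hall p hp h3), zero_mul]
  rw [if_pos hkill]
  have hstep : ∀ {Q : Finset ℕ} (n : ℕ), (∀ p ∈ Q, p.Prime) → 0 ≤ stepLoss Q n :=
    fun n h => stepLoss_nonneg h n
  have hco0 : 0 ≤ coinc P P' A A' B B' x y k := prod_nonneg fun p hp =>
    zero_le_one.trans (div_pred_le (hPp p (mem_inter.1 (mem_filter.1 (mem_filter.1 hp).1).1).1)).1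
  rcases (fibre γ γ q q' k).eq_empty_or_nonempty with h0 | ⟨e₀, he₀⟩
  · rw [h0, sum_empty]
    have := hstep x hPp
    have := hstep y hP'p
    have := Gcd.rho_nonneg q
    have := Gcd.rho_nonneg q'
    unfold killX
    positivity
  set a₀ := e₀.1
  set b₀ := e₀.2
  have hl0 : lat q q' (a₀, b₀) = k := (mem_filter.1 he₀).2
  have hx0 : 0 < x := Gcd.quo_pos hq.ne'
  set lo : ℤ := ⌊-γ⌋ - 1
  -- offset of the first admissible `j`
  set j₀ : ℤ := -((a₀ - lo) / (x : ℤ)) with hj₀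
  set g := q.gcd q' with hg
  have hg0 : 0 < g := Nat.gcd_pos_of_pos_left _ hq
  set N : ℕ := 6 * g with hN
  set T := (P.filter fun p => ¬ p ∣ x) ∪ (P'.filter fun p => ¬ p ∣ y) with hT
  set c := (a₀ + x * j₀) * B + A with hc
  set c' := (b₀ + y * j₀) * B' + A' with hc'
  set G : ℕ → ℕ → Prop := fun p i =>
    (p ∈ P.filter (fun p => ¬ p ∣ x) → ¬ (p : ℤ) ∣ c + (i : ℤ) * (x * B)) ∧
      (p ∈ P'.filter (fun p => ¬ p ∣ y) → ¬ (p : ℤ) ∣ c' + (i : ℤ) * (y * B')) with hG
  have hTp : ∀ p ∈ T, p.Prime := fun p hp => by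
    rcases mem_union.1 hp with h | h
    · exact hPp p (mem_filter.1 h).1
    · exact hP'p p (mem_filter.1 h).1
  have hTg : ∀ p ∈ T, p ∣ g := fun p hp => by
    rcases mem_union.1 hp with h | h
    · obtain ⟨h1, h2⟩ := mem_filter.1 h
      exact ((hPp p h1).dvd_mul.1 (hxy.symm ▸ (Nat.mem_primeFactors.1 (hP h1)).2.1)).resolve_left h2
    · obtain ⟨h1, h2⟩ := mem_filter.1 h
      exact ((hP'p p h1).dvd_mul.1
        (hyx.symm ▸ (Nat.mem_primeFactors.1 (hP' h1)).2.1)).resolve_left h2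
  have hper : P031.Periodic' G T := fun p hp n => by
    simp only [hG]
    exact and_congr (imp_congr_right fun _ => periodic_affine T c (x * B) p hp n)
      (imp_congr_right fun _ => periodic_affine T c' (y * B') p hp n)
  have hlocal : ∀ e ∈ fibre γ γ q q' k, ∃ i : ℕ, i < N ∧
      e.1 = a₀ + (x : ℤ) * (j₀ + i) ∧ e.2 = b₀ + (y : ℤ) * (j₀ + i) := by
    intro e he
    obtain ⟨hein, hle⟩ := mem_filter.1 he
    obtain ⟨j, hj1, hj2⟩ := pair_coord hq k hl0 (show lat q q' (e.1, e.2) = k from hle)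
    have hidx := (mem_product.1 hein).1
    rw [idx, Finset.mem_Icc] at hidx
    have hlen : ⌊(q : ℝ) - γ⌋ + 2 - lo ≤ (q : ℤ) + 4 := by
      have a1 := Int.floor_le ((q : ℝ) - γ)
      have a2 := Int.lt_floor_add_one (-γ)
      have : ((⌊(q : ℝ) - γ⌋ + 2 - lo : ℤ) : ℝ) < (q : ℝ) + 5 := by
        simp only [lo]; push_cast; linarith
      have : ⌊(q : ℝ) - γ⌋ + 2 - lo < (q : ℤ) + 5 := by exact_mod_cast this
      omega
    rw [← hx] at hj1
    rw [← hy] at hj2
    have e1 := Int.mul_ediv_add_emod (a₀ - lo) (x : ℤ)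
    have e2 := Int.emod_nonneg (a₀ - lo) (by exact_mod_cast hx0.ne' : (x : ℤ) ≠ 0)
    have e3 := Int.emod_lt_of_pos (a₀ - lo) (by exact_mod_cast hx0 : (0 : ℤ) < x)
    have hxZ : (1 : ℤ) ≤ x := by exact_mod_cast hx0
    have hqZ : (q : ℤ) = (x : ℤ) * g := by exact_mod_cast hxy.symm
    have hgZ : (1 : ℤ) ≤ g := by exact_mod_cast hg0
    have hlow : j₀ ≤ j := by
      rw [hj₀]
      by_contra hcon
      have h3 : (x : ℤ) * (j + (a₀ - lo) / (x : ℤ)) ≤ (x : ℤ) * (-1) :=
        mul_le_mul_of_nonneg_left (by omega) (by omega)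
      nlinarith [hidx.1]
    have hhigh : j < j₀ + N := by
      by_contra hcon
      have h3 : (x : ℤ) * (N : ℤ) ≤ (x : ℤ) * (j - j₀) :=
        mul_le_mul_of_nonneg_left (by omega) (by omega)
      rw [hj₀] at h3
      have hN' : (N : ℤ) = 6 * g := by rw [hN]; push_cast; ring
      rw [hN'] at h3
      nlinarith [hidx.2, mul_le_mul_of_nonneg_left hgZ (by omega : (0 : ℤ) ≤ x)]
    refine ⟨(j - j₀).toNat, by omega, ?_, ?_⟩
    · rw [Int.toNat_of_nonneg (by omega), add_sub_cancel]; exact hj1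
    · rw [Int.toNat_of_nonneg (by omega), add_sub_cancel]; exact hj2
  choose f hf1 hf2 hf3 using hlocal
  set Good := (range N).filter fun i => ∀ p ∈ T, G p i with hGood
  set U := (fibre γ γ q q' k).filter fun e =>
    (∀ p ∈ P, ¬ (p : ℤ) ∣ e.1 * B + A) ∧ ∀ p ∈ P', ¬ (p : ℤ) ∣ e.2 * B' + A'
  have hsum : ∑ e ∈ fibre γ γ q q' k, selW P A B q e.1 * selW P' A' B' q' e.2 =
      (U.card : ℝ) * (keepW P q * keepW P' q') := by
    rw [← nsmul_eq_mul, ← sum_const, sum_filter]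
    refine sum_congr rfl fun e _ => ?_
    unfold selW
    by_cases h1 : ∀ p ∈ P, ¬ (p : ℤ) ∣ e.1 * B + A
    · by_cases h2 : ∀ p ∈ P', ¬ (p : ℤ) ∣ e.2 * B' + A'
      · split_ifs with h3
        · rfl
        · exact absurd ⟨h1, h2⟩ h3
      · simp only [h2, and_false, if_false, mul_zero]
    · simp only [h1, false_and, if_false, zero_mul]
  have hU : U.card ≤ Good.card := by
    refine card_le_card_of_injOn (fun e => if he : e ∈ fibre γ γ q q' k then f e he else 0)
      (fun e he => ?_) fun e he e' he' h => ?_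
    · obtain ⟨he1, hP1, hP2⟩ := mem_filter.1 he
      show (if he : e ∈ fibre γ γ q q' k then f e he else 0) ∈ Good
      rw [dif_pos he1]
      refine mem_filter.2 ⟨mem_range.2 (hf1 e he1), fun p _ => ⟨fun hp => ?_, fun hp => ?_⟩⟩
      · have h2 := hP1 p (mem_filter.1 hp).1
        rw [hf2 e he1] at h2
        convert h2 using 2
        rw [hc]; ring
      · have h2 := hP2 p (mem_filter.1 hp).1
        rw [hf3 e he1] at h2
        convert h2 using 2
        rw [hc']; ring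
    · obtain ⟨he1, -⟩ := mem_filter.1 (mem_coe.1 he)
      obtain ⟨he1', -⟩ := mem_filter.1 (mem_coe.1 he')
      simp only [dif_pos he1, dif_pos he1'] at h
      exact Prod.ext (by rw [hf2 e he1, hf2 e' he1', h]) (by rw [hf3 e he1, hf3 e' he1', h])
  have hTdvd : (∏ p ∈ T, p) ∣ g :=
    Finset.prod_primes_dvd g (fun p hp => (hTp p hp).prime) hTg
  have hcount : (Good.card : ℝ) ≤ 7 * g * ∏ p ∈ T, ((P031.roots G p : ℝ) / p) := by
    refine (le_trans (le_of_eq ?_) (card_classes_le T hTp hper N g hg0 hTdvd)).trans (le_of_eq ?_)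
    · rw [hGood]; congr 2; congr
    · rw [hN]; push_cast
      field_simp
      ring
  set D1 := P.filter fun p => ¬ p ∣ x
  set D2 := P'.filter fun p => ¬ p ∣ y
  set Cs := T.filter fun p : ℕ => (p ∈ D1 ∧ p ∈ D2) ∧ (p : ℤ) ∣ coF A A' B B' x y k
  have hnd : ∀ p ∈ D1, ¬ (p : ℤ) ∣ (x : ℤ) * B := fun p hp h => by
    obtain ⟨h1, h2⟩ := mem_filter.1 hp
    rcases (Nat.prime_iff_prime_int.1 (hPp p h1)).dvd_or_dvd h with h3 | h3
    · exact h2 (Int.natCast_dvd_natCast.1 h3)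
    · exact hB p h1 (Int.natCast_dvd_natCast.1 h3)
  have hnd' : ∀ p ∈ D2, ¬ (p : ℤ) ∣ (y : ℤ) * B' := fun p hp h => by
    obtain ⟨h1, h2⟩ := mem_filter.1 hp
    rcases (Nat.prime_iff_prime_int.1 (hP'p p h1)).dvd_or_dvd h with h3 | h3
    · exact h2 (Int.natCast_dvd_natCast.1 h3)
    · exact hB' p h1 (Int.natCast_dvd_natCast.1 h3)
  have hdens : ∀ p ∈ T, (P031.roots G p : ℝ) / p ≤
      (if p ∈ D1 then 1 - (p : ℝ)⁻¹ else 1) * (if p ∈ D2 then 1 - (p : ℝ)⁻¹ else 1) *
        (if p ∈ Cs then (p : ℝ) / ((p : ℝ) - 1) else 1) := by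
    intro p hp
    have hpp := hTp p hp
    have hp2 : (2 : ℝ) ≤ p := by exact_mod_cast hpp.two_le
    have h1sub : ((p - 1 : ℕ) : ℝ) / p = 1 - (p : ℝ)⁻¹ := by
      rw [Nat.cast_sub hpp.one_lt.le, Nat.cast_one]; field_simp
    by_cases h1 : p ∈ D1
    · by_cases h2 : p ∈ D2
      · have hr : P031.roots G p = P031.roots (fun p j => ¬ (p : ℤ) ∣ c + (j : ℤ) * (x * B) ∧
            ¬ (p : ℤ) ∣ c' + (j : ℤ) * (y * B')) p := by
          unfold P031.roots
          congr 1
          ext i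
          simp only [mem_filter, and_congr_right_iff, hG]
          intro _
          exact ⟨fun h => ⟨h.1 h1, h.2 h2⟩, fun h => ⟨fun _ => h.1, fun _ => h.2⟩⟩
        rw [hr, if_pos h1, if_pos h2]
        refine (roots_two hpp c c' _ _ (hnd p h1) (hnd' p h2)).trans (le_of_eq ?_)
        have hiff : (p : ℤ) ∣ c * (y * B') - c' * (x * B) ↔ p ∈ Cs := by
          have e : c * ((y : ℤ) * B') - c' * ((x : ℤ) * B) = coF A A' B B' x y k := by
            have hk : a₀ * (y : ℤ) - b₀ * (x : ℤ) = k := hl0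
            rw [hc, hc']; unfold coF
            linear_combination ((B : ℤ) * B') * hk
          rw [e]
          exact ⟨fun h => mem_filter.2 ⟨hp, ⟨h1, h2⟩, h⟩, fun h => (mem_filter.1 h).2.2⟩
        simp only [hiff]; ring
      · have hC : p ∉ Cs := fun h => h2 (mem_filter.1 h).2.1.2
        rw [if_pos h1, if_neg h2, if_neg hC, mul_one, mul_one, ← h1sub]
        refine le_of_eq (congrArg (fun n : ℕ => (n : ℝ) / p) ?_)
        rw [← roots_avoid_one hpp c ((x : ℤ) * B) (hnd p h1)]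
        unfold P031.roots
        congr 1
        ext i
        simp only [mem_filter, and_congr_right_iff, hG]
        intro _
        exact ⟨fun h => h.1 h1, fun h => ⟨fun _ => h, fun h' => absurd h' h2⟩⟩
    · have h2 : p ∈ D2 := (mem_union.1 hp).resolve_left h1
      have hC : p ∉ Cs := fun h => h1 (mem_filter.1 h).2.1.1
      rw [if_neg h1, if_pos h2, if_neg hC, one_mul, mul_one, ← h1sub]
      refine le_of_eq (congrArg (fun n : ℕ => (n : ℝ) / p) ?_)
      rw [← roots_avoid_one hpp c' ((y : ℤ) * B') (hnd' p h2)]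
      unfold P031.roots
      congr 1
      ext i
      simp only [mem_filter, and_congr_right_iff, hG]
      intro _
      exact ⟨fun h => h.2 h2, fun h => ⟨fun h' => absurd h' h1, fun _ => h⟩⟩
  have hprod : ∏ p ∈ T, ((P031.roots G p : ℝ) / p) ≤
      (∏ p ∈ D1, (1 - (p : ℝ)⁻¹)) * (∏ p ∈ D2, (1 - (p : ℝ)⁻¹)) *
        coinc P P' A A' B B' x y k := by
    refine (prod_le_prod (fun p _ => by positivity) hdens).trans (le_of_eq ?_)
    rw [prod_mul_distrib, prod_mul_distrib, prod_ite_mem, prod_ite_mem, prod_ite_mem,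
      inter_eq_right.2 (show D1 ⊆ T from subset_union_left),
      inter_eq_right.2 (show D2 ⊆ T from subset_union_right),
      inter_eq_right.2 (show Cs ⊆ T from filter_subset _ _)]
    congr 1
    unfold coinc
    refine prod_congr ?_ fun _ _ => rfl
    ext p
    simp only [Cs, D1, D2, hT, mem_filter, mem_union, mem_inter]
    tauto
  have hsplit : ∀ (Q : Finset ℕ) (n : ℕ), (∀ p ∈ Q, p.Prime) →
      ∏ p ∈ Q.filter (fun p => ¬ p ∣ n), (1 - (p : ℝ)⁻¹) =
        (∏ p ∈ Q, (1 - (p : ℝ)⁻¹)) * stepLoss Q n := by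
    intro Q n hQ
    rw [← prod_filter_mul_prod_filter_not Q (fun p => p ∣ n)]
    have h1 : (∏ p ∈ Q.filter (fun p => p ∣ n), (1 - (p : ℝ)⁻¹)) * stepLoss Q n = 1 := by
      rw [stepLoss, ← prod_mul_distrib]
      refine prod_eq_one fun p hp => ?_
      have : (1 : ℝ) < p := by exact_mod_cast (hQ p (mem_filter.1 hp).1).one_lt
      field_simp [show (p : ℝ) - 1 ≠ 0 by linarith]
    calc ∏ p ∈ Q.filter (fun p => ¬ p ∣ n), (1 - (p : ℝ)⁻¹)
        = ((∏ p ∈ Q.filter (fun p => p ∣ n), (1 - (p : ℝ)⁻¹)) * stepLoss Q n) *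
            ∏ p ∈ Q.filter (fun p => ¬ p ∣ n), (1 - (p : ℝ)⁻¹) := by rw [h1, one_mul]
      _ = _ := by ring
  rw [hsum]
  have hK := mul_nonneg (keepW_nonneg P q) (keepW_nonneg P' q')
  calc (U.card : ℝ) * (keepW P q * keepW P' q')
      ≤ 7 * g * (∏ p ∈ T, ((P031.roots G p : ℝ) / p)) * (keepW P q * keepW P' q') :=
        mul_le_mul_of_nonneg_right ((Nat.cast_le.2 hU).trans hcount) hK
    _ ≤ 7 * g * ((∏ p ∈ D1, (1 - (p : ℝ)⁻¹)) * (∏ p ∈ D2, (1 - (p : ℝ)⁻¹)) *
          coinc P P' A A' B B' x y k) * (keepW P q * keepW P' q') := by gcongr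
    _ = 7 * g * (rho q * rho q') * killX P P' x y * coinc P P' A A' B B' x y k := by
        rw [hsplit P x hPp, hsplit P' y hP'p, ← keepW_mul P hq.ne' hP, ← keepW_mul P' hq'.ne' hP']
        unfold killX
        ring
    _ ≤ _ := by
        have h1 := hstep x hPp
        have h2 := hstep y hP'p
        have := Gcd.rho_nonneg q
        have := Gcd.rho_nonneg q'
        unfold killX
        gcongr
        norm_num

end

end Vale.Agent.P028.Sel
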