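import Vale.Agent.P028.Sel.Resonance

/-!
# The law of bad and of hit defects
-/

open Finset Filter

namespace Vale.Agent.P028.Sel

noncomputable section

/-- If `δ` is not tiny against the number of bands it is huge against the scale `2 ^ (-m)`. -/
lemma large_regime (θ : ℝ) (hθ : 0 < θ) : ∃ L₀ : ℕ, 40 ≤ L₀ ∧ ∀ (δ : ℝ) (m M : ℕ),
    L₀ ≤ m → m ≤ M → M ≤ m ^ 2 → 0 < δ → 1 < δ ^ (16 * θ) * ((M : ℝ) + 1) →
      δ ^ (-2 : ℝ) ≤ (2 : ℝ) ^ ((m : ℝ) / 20) := by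
  obtain ⟨k, hk⟩ := exists_nat_ge (1 / (8 * θ))
  set r : ℝ := (2 : ℝ) ^ (-(1 / 20) : ℝ) with hr
  have hr0 : 0 < r := by positivity
  have hr1 : r < 1 := Real.rpow_lt_one_of_one_lt_of_neg (by norm_num) (by norm_num)
  have hlim := (tendsto_pow_const_mul_const_pow_of_lt_one (2 * k) hr0.le hr1).eventually
    (eventually_le_nhds (show (0 : ℝ) < 1 / 2 ^ k by positivity))
  obtain ⟨N, hN⟩ := eventually_atTop.1 hlim
  refine ⟨max N 40, le_max_right _ _, fun δ m M hm hmM hM2 hδ hlarge => ?_⟩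
  have hm40 : (40 : ℝ) ≤ m := by exact_mod_cast le_trans (le_max_right _ _) hm
  have hN' := hN m (le_trans (le_max_left _ _) hm)
  have hM1 : (0 : ℝ) < (M : ℝ) + 1 := by positivity
  have h1 : δ ^ (-2 : ℝ) ≤ ((M : ℝ) + 1) ^ (1 / (8 * θ)) := by
    have h0 : δ ^ (-(16 * θ)) ≤ (M : ℝ) + 1 := by
      rw [Real.rpow_neg hδ.le, inv_le_iff_one_le_mul₀ (Real.rpow_pos_of_pos hδ _)]
      linarith
    refine le_trans (le_of_eq ?_) (Real.rpow_le_rpow (Real.rpow_nonneg hδ.le _) h0 (by positivity))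
    rw [← Real.rpow_mul hδ.le]
    congr 1
    field_simp
    ring
  have h2 : (M : ℝ) + 1 ≤ 2 * (m : ℝ) ^ 2 := by
    have : (M : ℝ) ≤ (m : ℝ) ^ 2 := by exact_mod_cast hM2
    nlinarith
  refine h1.trans (((Real.rpow_le_rpow hM1.le h2 (by positivity)).trans
    (Real.rpow_le_rpow_of_exponent_le (by nlinarith) hk)).trans ?_)
  rw [Real.rpow_natCast, mul_pow, ← pow_mul]
  have e : r ^ m = ((2 : ℝ) ^ ((m : ℝ) / 20))⁻¹ := by
    rw [hr, ← Real.rpow_natCast, ← Real.rpow_mul (by norm_num), ← Real.rpow_neg (by norm_num)]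
    ring_nf
  rw [e, le_div_iff₀ (by positivity)] at hN'
  have hp : (0 : ℝ) < (2 : ℝ) ^ ((m : ℝ) / 20) := by positivity
  rw [mul_comm _ ((2 : ℝ) ^ k), ← mul_assoc, ← div_eq_mul_inv, div_le_iff₀ hp, one_mul] at hN'
  exact hN'

lemma log_cut {m M : ℕ} (hm : 40 ≤ m) (hmM : m ≤ M) :
    1 ≤ m / 10 ∧ m / 10 ≤ M ∧
      1 + Real.log ((M : ℝ) / ((m / 10 : ℕ) : ℝ)) ≤ 5 * (1 + Real.log ((M : ℝ) / m)) := by
  refine ⟨by omega, by omega, ?_⟩
  set k := m / 10 with hk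
  have hkm : (m : ℝ) ≤ 20 * k := by exact_mod_cast (by omega : m ≤ 20 * k)
  have hm0 : (0 : ℝ) < m := by exact_mod_cast (by omega : 0 < m)
  have hM0 : (0 : ℝ) < M := by exact_mod_cast (by omega : 0 < M)
  have hk0 : (0 : ℝ) < k := by linarith
  have h1 : (M : ℝ) / k ≤ 20 * ((M : ℝ) / m) := by
    rw [← mul_div_assoc, div_le_div_iff₀ hk0 hm0]; nlinarith
  have h2 := Real.log_le_log (by positivity) h1
  rw [Real.log_mul (by norm_num) (by positivity)] at h2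
  have h20 : Real.log 20 ≤ 4 := by
    rw [Real.log_le_iff_le_exp (by norm_num)]
    have := Real.add_one_le_exp (4 : ℝ)
    have h := Real.exp_one_gt_d9
    have e : Real.exp 4 = Real.exp 1 ^ 4 := by rw [← Real.exp_nat_mul]; norm_num
    rw [e]
    exact le_trans (by norm_num : (20 : ℝ) ≤ (2.7 : ℝ) ^ 4)
      (pow_le_pow_left₀ (by norm_num) (by linarith) 4)
  have h0 : 0 ≤ Real.log ((M : ℝ) / m) :=
    Real.log_nonneg (by rw [le_div_iff₀ hm0, one_mul]; exact_mod_cast hmM)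
  linarith

/-- The condition linking the level and the bands. -/
def Bands (θ δ : ℝ) (m M : ℕ) : Prop := (1 + Real.log ((M : ℝ) / m)) * δ ^ (8 * θ) ≤ 1

/-- The defects `s` with a resonance against `n₀`. -/
def Bad (γ θ δ : ℝ) (B' n₀ s : ℕ) : Prop :=
  ∃ q : ℕ, 0 < q ∧ (q : ℝ) ≤ δ ^ (-(64 * θ)) ∧
    ∃ a : ℤ, |(q : ℝ) * B' * s * γ - a| < δ ^ (1 - 400 * θ) / n₀

lemma bad_law (θ : ℝ) (hθ : 0 < θ) : ∃ K : ℝ, ∃ L₀ : ℕ, 0 < K ∧ ∀ (δ γ : ℝ) (m M : ℕ),
    Small θ δ → L₀ ≤ m → m ≤ M → M ≤ m ^ 2 → Bands θ δ m M →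
    ∀ (A : ℕ), 0 < A → ∀ (T : Finset ℕ), T ⊆ A.divisors → ∀ (B' n₀ : ℕ), 0 < B' → 0 < n₀ →
      (B' : ℝ) ≤ δ ^ (-(64 * θ)) →
      (∀ s ∈ T, δ ^ (1 + θ) * 2 ^ m ≤ (B' : ℝ) * n₀ * (s : ℕ) ∧
        (B' : ℝ) * n₀ * (s : ℕ) ≤ 2 ^ M ∧ Far γ θ δ ((B' : ℝ) * n₀ * (s : ℕ))) →
      (∀ s ∈ T, Bad γ θ δ B' n₀ s) → ∑ s ∈ T, law A s ≤ K * δ ^ (32 * θ) := by
  classical
  obtain ⟨K, hK, hfar⟩ := law_far
  obtain ⟨L₀, hL40, hlarge⟩ := large_regime θ hθ
  refine ⟨5 * K + 1, L₀, by positivity, ?_⟩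
  intro δ γ m M h hm hmM hM2 hbands A hA T hT B' n₀ hB' hn₀ hB'le hT1 hbad
  have hθ' := h.hθ'
  have hδ := h.hδ
  have hn0R : (1 : ℝ) ≤ n₀ := by exact_mod_cast hn₀
  have hB'R : (1 : ℝ) ≤ B' := by exact_mod_cast hB'
  set Qn := ⌊δ ^ (-(64 * θ))⌋₊ with hQn
  set Tq := fun q : ℕ => T.filter fun s : ℕ =>
    ∃ a : ℤ, |(q : ℝ) * B' * s * γ - a| < δ ^ (1 - 400 * θ) / n₀ with hTq
  have hcover : ∑ s ∈ T, law A s ≤ ∑ q ∈ Icc 1 Qn, ∑ s ∈ Tq q, law A s := by
    simp only [hTq, sum_filter]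
    rw [sum_comm]
    refine sum_le_sum fun s hs => ?_
    obtain ⟨q, hq, hqle, a, ha⟩ := hbad s hs
    refine le_trans (le_of_eq (if_pos ⟨a, ha⟩).symm) (single_le_sum (f := fun q : ℕ =>
      if ∃ a : ℤ, |(q : ℝ) * B' * s * γ - a| < δ ^ (1 - 400 * θ) / n₀ then law A s else 0)
      (fun i _ => ?_) (mem_Icc.2 ⟨hq, Nat.le_floor hqle⟩))
    split_ifs
    · exact law_nonneg _ _
    · exact le_rfl
  refine hcover.trans ?_
  suffices hper : ∀ q ∈ Icc 1 Qn, ∑ s ∈ Tq q, law A s ≤ (5 * K + 1) * δ ^ (96 * θ) by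
    refine (sum_le_sum hper).trans ?_
    rw [sum_const, nsmul_eq_mul, Nat.card_Icc, Nat.add_sub_cancel]
    calc (Qn : ℝ) * ((5 * K + 1) * δ ^ (96 * θ))
        ≤ δ ^ (-(64 * θ)) * ((5 * K + 1) * δ ^ (96 * θ)) :=
          mul_le_mul_of_nonneg_right (Nat.floor_le (by positivity)) (by positivity)
      _ = (5 * K + 1) * (δ ^ (-(64 * θ)) * δ ^ (96 * θ)) := by ring
      _ ≤ _ := by
          rw [h.mul_pow]
          exact mul_le_mul_of_nonneg_left (h.mono (by linarith)) (by positivity)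
  intro q hq
  obtain ⟨hq1, hqQ⟩ := mem_Icc.1 hq
  have hqR : (1 : ℝ) ≤ q := by exact_mod_cast hq1
  have hqle : (q : ℝ) ≤ δ ^ (-(64 * θ)) :=
    le_trans (by exact_mod_cast hqQ) (Nat.floor_le (by positivity))
  have hqB : (q : ℝ) * B' ≤ δ ^ (-(128 * θ)) := by
    refine (mul_le_mul hqle hB'le (by positivity) (by positivity)).trans (le_of_eq ?_)
    rw [h.mul_pow]; ring_nf
  set Ts := Tq q with hTs
  have hsub : Ts ⊆ T := filter_subset _ _
  -- a resonance at a small denominator contradicts `Far`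
  have hclose : ∀ s ∈ Ts, ∃ a : ℤ, |(q : ℝ) * B' * s * γ - a| < δ ^ (1 - 400 * θ) / n₀ ∧
      |γ - (a : ℝ) / ((q * B' * s : ℕ) : ℝ)| * ((B' : ℝ) * n₀ * s) < δ ^ (1 - 400 * θ) ∧
      0 < q * B' * s := by
    intro s hs
    obtain ⟨hsT, a, ha⟩ := mem_filter.1 hs
    have hs0 : 0 < s := Nat.pos_of_mem_divisors (hT hsT)
    refine ⟨a, ha, ?_, Nat.mul_pos (Nat.mul_pos hq1 hB') hs0⟩
    have hsR : (0 : ℝ) < s := by exact_mod_cast hs0
    push_cast
    have hpos : (0 : ℝ) < (q : ℝ) * B' * s := by positivity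
    rw [show γ - (a : ℝ) / ((q : ℝ) * B' * s) = ((q : ℝ) * B' * s * γ - a) / (q * B' * s) by
      field_simp, abs_div, abs_of_pos hpos]
    rw [lt_div_iff₀ (by linarith : (0 : ℝ) < n₀)] at ha
    calc |(q : ℝ) * B' * s * γ - a| / ((q : ℝ) * B' * s) * ((B' : ℝ) * n₀ * s)
        = |(q : ℝ) * B' * s * γ - a| * n₀ / q := by field_simp
      _ ≤ |(q : ℝ) * B' * s * γ - a| * n₀ := div_le_self (by positivity) hqR
      _ < _ := ha
  have hlow : ∀ s ∈ Ts, δ ^ (-(32769 * θ)) ≤ (s : ℝ) := by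
    intro s hs
    by_contra hc
    obtain ⟨a, -, ha, hpos⟩ := hclose s hs
    have hB : ((q * B' * s : ℕ) : ℝ) ≤ δ ^ (-(40000 * θ)) := by
      push_cast
      refine (mul_le_mul hqB (not_le.1 hc).le (Nat.cast_nonneg _) (by positivity)).trans ?_
      rw [h.mul_pow]; exact h.mono (by linarith)
    have := ((hT1 s (hsub hs)).2.2) a _ hpos hB
    have h2 : δ ^ (1 - 400 * θ) ≤ δ ^ (1 - 40000 * θ) := h.mono (by linarith)
    linarith
  have hup : ∀ s ∈ Ts, s < 2 ^ (M + 1) := by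
    intro s hs
    have h1 := (hT1 s (hsub hs)).2.1
    have h2 : (s : ℝ) ≤ (B' : ℝ) * n₀ * s :=
      le_mul_of_one_le_left (Nat.cast_nonneg _) (by nlinarith)
    have h3 : (s : ℝ) < ((2 ^ (M + 1) : ℕ) : ℝ) := by
      push_cast; rw [pow_succ]
      have : (0 : ℝ) < 2 ^ M := by positivity
      linarith
    exact_mod_cast h3
  obtain ⟨hplain, hsieve⟩ := hfar θ δ γ h A hA Ts (hsub.trans hT) (q * B') 0
    (δ ^ (1 - 400 * θ) / n₀) ((B' : ℝ) * n₀) M (Nat.mul_pos hq1 hB')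
    (by push_cast; exact hqB.trans (h.mono (by linarith))) (by positivity)
    ((div_le_self (by positivity) hn0R).trans (h.mono (by linarith))) (by positivity)
    (by
      push_cast
      rw [show δ ^ (1 - 400 * θ) / n₀ * ((B' : ℝ) * n₀) / ((q : ℝ) * B') = δ ^ (1 - 400 * θ) / q by
        field_simp]
      exact (div_le_self (by positivity) hqR).trans (h.mono (by linarith)))
    (fun s hs => by
      obtain ⟨a, ha, -, -⟩ := hclose s hs
      refine ⟨a, ?_⟩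
      push_cast
      rw [sub_zero, show γ * ((q : ℝ) * B') * s = (q : ℝ) * B' * s * γ by ring]
      exact ha)
    hlow hup (fun s hs => (hT1 s (hsub hs)).2.2)
  rcases le_or_gt (δ ^ (16 * θ) * ((M : ℝ) + 1)) 1 with hsm | hlg
  · calc _ ≤ K * δ ^ (128 * θ) * ((M : ℝ) + 1) := hplain
      _ = K * δ ^ (112 * θ) * (δ ^ (16 * θ) * ((M : ℝ) + 1)) := by
          rw [show δ ^ (128 * θ) = δ ^ (112 * θ) * δ ^ (16 * θ) by rw [h.mul_pow]; ring_nf]; ring
      _ ≤ K * δ ^ (112 * θ) * 1 := mul_le_mul_of_nonneg_left hsm (by positivity)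
      _ ≤ _ := by
          rw [mul_one]
          exact mul_le_mul (by linarith) (h.mono (by linarith)) (by positivity) (by positivity)
  have hX := hlarge δ m M hm hmM hM2 hδ hlg
  obtain ⟨hm1, hmM', hlog⟩ := log_cut (hL40.trans hm) hmM
  set k := m / 10 with hk
  rw [← sum_filter_add_sum_filter_not Ts (fun s => 2 ^ k ≤ s)]
  have hbig : ∑ s ∈ Ts.filter (fun s => 2 ^ k ≤ s), law A s ≤ 5 * K * δ ^ (120 * θ) := by
    obtain ⟨-, hsieve'⟩ := hfar θ δ γ h A hA (Ts.filter fun s => 2 ^ k ≤ s)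
      ((filter_subset _ _).trans (hsub.trans hT)) (q * B') 0 (δ ^ (1 - 400 * θ) / n₀)
      ((B' : ℝ) * n₀) M (Nat.mul_pos hq1 hB') (by push_cast; exact hqB.trans (h.mono (by linarith)))
      (by positivity) ((div_le_self (by positivity) hn0R).trans (h.mono (by linarith)))
      (by positivity)
      (by
        push_cast
        rw [show δ ^ (1 - 400 * θ) / n₀ * ((B' : ℝ) * n₀) / ((q : ℝ) * B') =
          δ ^ (1 - 400 * θ) / q by field_simp]
        exact (div_le_self (by positivity) hqR).trans (h.mono (by linarith)))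
      (fun s hs => by
        obtain ⟨a, ha, -, -⟩ := hclose s (mem_filter.1 hs).1
        refine ⟨a, ?_⟩
        push_cast
        rw [sub_zero, show γ * ((q : ℝ) * B') * s = (q : ℝ) * B' * s * γ by ring]
        exact ha)
      (fun s hs => hlow s (mem_filter.1 hs).1) (fun s hs => hup s (mem_filter.1 hs).1)
      (fun s hs => (hT1 s (hsub (mem_filter.1 hs).1)).2.2)
    refine (hsieve' k hm1 hmM' fun s hs => (mem_filter.1 hs).2).trans ?_
    calc K * δ ^ (128 * θ) * (1 + Real.log ((M : ℝ) / k))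
        ≤ K * δ ^ (128 * θ) * (5 * (1 + Real.log ((M : ℝ) / m))) :=
          mul_le_mul_of_nonneg_left hlog (by positivity)
      _ = 5 * K * δ ^ (120 * θ) * ((1 + Real.log ((M : ℝ) / m)) * δ ^ (8 * θ)) := by
          rw [show δ ^ (128 * θ) = δ ^ (120 * θ) * δ ^ (8 * θ) by rw [h.mul_pow]; ring_nf]; ring
      _ ≤ _ := mul_le_of_le_one_right (by positivity) hbands
  have hsmalls : ∑ s ∈ Ts.filter (fun s => ¬ 2 ^ k ≤ s), law A s ≤ δ ^ (39000 * θ) := by
    set U := Ts.filter fun s => ¬ 2 ^ k ≤ s with hU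
    rcases U.eq_empty_or_nonempty with h0 | ⟨s₀, hs₀⟩
    · rw [h0, sum_empty]; positivity
    have hkey : ∀ s ∈ U, ∃ a : ℤ, ((q * B' * s : ℕ) : ℝ) ≤ δ ^ (-(128 * θ)) * 2 ^ k ∧
        |γ - (a : ℝ) / ((q * B' * s : ℕ) : ℝ)| < δ ^ (-(401 * θ)) / 2 ^ m ∧
        |γ - (a : ℝ) / ((q * B' * s : ℕ) : ℝ)| * ((B' : ℝ) * n₀ * s) < δ ^ (1 - 400 * θ) ∧
        0 < q * B' * s := by
      intro s hs
      obtain ⟨hsT, hsk⟩ := mem_filter.1 hs
      obtain ⟨a, -, ha, hpos⟩ := hclose s hsT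
      refine ⟨a, ?_, ?_, ha, hpos⟩
      · push_cast
        refine mul_le_mul hqB ?_ (Nat.cast_nonneg _) (by positivity)
        exact_mod_cast (not_le.1 hsk).le
      · have hy := (hT1 s (hsub hsT)).1
        rw [lt_div_iff₀ (by positivity)]
        refine lt_of_mul_lt_mul_right ?_ (Real.rpow_nonneg hδ.le (1 + θ))
        rw [h.mul_pow, show -(401 * θ) + (1 + θ) = 1 - 400 * θ by ring]
        refine lt_of_le_of_lt ?_ ha
        rw [mul_assoc]
        refine mul_le_mul_of_nonneg_left ?_ (abs_nonneg _)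
        rw [mul_comm]; exact hy
    obtain ⟨a₀, hB₀, hc₀, hf₀, hp₀⟩ := hkey s₀ hs₀
    set x : ℚ := (a₀ : ℚ) / ((q * B' * s₀ : ℕ) : ℚ) with hx
    set D := x.den
    have hxR : (x : ℝ) = (a₀ : ℝ) / ((q * B' * s₀ : ℕ) : ℝ) := by rw [hx]; push_cast; ring
    have hD : δ ^ (-(40000 * θ)) < (D : ℝ) := by
      by_contra hc
      have := (hT1 s₀ (hsub (mem_filter.1 hs₀).1)).2.2 x.num D x.den_pos (not_lt.1 hc)
      rw [show ((x.num : ℝ) / (D : ℝ)) = (x : ℝ) from (Rat.cast_def x).symm, hxR] at this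
      have h2 : δ ^ (1 - 400 * θ) ≤ δ ^ (1 - 40000 * θ) := h.mono (by linarith)
      linarith
    have hdvd : ∀ s ∈ U, D ∣ q * B' * s := by
      intro s hs
      obtain ⟨a, hB, hc, -, hp⟩ := hkey s hs
      have heq : (a : ℝ) / ((q * B' * s : ℕ) : ℝ) = (a₀ : ℝ) / ((q * B' * s₀ : ℕ) : ℝ) := by
        by_contra hne
        set b := q * B' * s
        set b₀ := q * B' * s₀
        have hbR : (0 : ℝ) < b := by exact_mod_cast hp
        have hb₀R : (0 : ℝ) < b₀ := by exact_mod_cast hp₀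
        have hnum : a * (b₀ : ℤ) - a₀ * (b : ℤ) ≠ 0 := fun h0 => hne (by
          rw [div_eq_div_iff hbR.ne' hb₀R.ne']
          exact_mod_cast sub_eq_zero.1 h0)
        have h1 : (1 : ℝ) ≤ |(a : ℝ) * b₀ - a₀ * b| := by
          exact_mod_cast Int.one_le_abs hnum
        have h2 : 1 / ((b : ℝ) * b₀) ≤ |(a : ℝ) / b - (a₀ : ℝ) / b₀| := by
          rw [show (a : ℝ) / b - (a₀ : ℝ) / b₀ = ((a : ℝ) * b₀ - a₀ * b) / (b * b₀) by field_simp,
            abs_div, abs_of_pos (mul_pos hbR hb₀R)]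
          exact div_le_div_of_nonneg_right h1 (by positivity)
        have h3 : |(a : ℝ) / b - (a₀ : ℝ) / b₀| ≤ 2 * (δ ^ (-(401 * θ)) / 2 ^ m) := by
          calc |(a : ℝ) / b - (a₀ : ℝ) / b₀|
              = |(γ - (a₀ : ℝ) / b₀) - (γ - (a : ℝ) / b)| := by congr 1; ring
            _ ≤ _ := (abs_sub _ _).trans (by linarith)
        have h4 : 2 * (δ ^ (-(401 * θ)) / 2 ^ m) * ((b : ℝ) * b₀) < 1 := by
          refine lt_of_le_of_lt (mul_le_mul_of_nonneg_left (mul_le_mul hB hB₀ hb₀R.le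
            (by positivity)) (by positivity)) ?_
          have e : 2 * (δ ^ (-(401 * θ)) / 2 ^ m) *
              (δ ^ (-(128 * θ)) * 2 ^ k * (δ ^ (-(128 * θ)) * 2 ^ k)) =
              2 * δ ^ (-(657 * θ)) * (2 : ℝ) ^ (2 * k) / 2 ^ m := by
            rw [show δ ^ (-(657 * θ)) = δ ^ (-(401 * θ)) * δ ^ (-(128 * θ)) * δ ^ (-(128 * θ)) by
              rw [h.mul_pow, h.mul_pow]; ring_nf, two_mul k, pow_add]
            ring
          rw [e, div_lt_one (by positivity), ← Real.rpow_natCast, ← Real.rpow_natCast]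
          have h5 : δ ^ (-(657 * θ)) ≤ (2 : ℝ) ^ ((m : ℝ) / 20) :=
            (h.mono (by linarith)).trans hX
          refine lt_of_le_of_lt (mul_le_mul_of_nonneg_right
            (mul_le_mul_of_nonneg_left h5 (by norm_num)) (by positivity)) ?_
          nth_rewrite 1 [← Real.rpow_one 2]
          rw [← Real.rpow_add (by norm_num), ← Real.rpow_add (by norm_num)]
          refine Real.rpow_lt_rpow_of_exponent_lt (by norm_num) ?_
          push_cast
          have hk' : (10 : ℝ) * k ≤ m := by exact_mod_cast (show 10 * k ≤ m by omega)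
          have hm40 : (40 : ℝ) ≤ m := by exact_mod_cast hL40.trans hm
          linarith
        have h5 := h2.trans h3
        rw [div_le_iff₀ (by positivity)] at h5
        linarith
      have hq' : x = (a : ℚ) / ((q * B' * s : ℕ) : ℚ) := by
        have hh : ((x : ℚ) : ℝ) = (((a : ℚ) / ((q * B' * s : ℕ) : ℚ) : ℚ) : ℝ) := by
          rw [hxR]; push_cast; push_cast at heq; exact heq.symm
        exact_mod_cast hh
      have h6 := Rat.den_dvd (a : ℤ) ((q * B' * s : ℕ) : ℤ)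
      rw [Rat.divInt_eq_div] at h6
      push_cast at h6 hq'
      rw [← hq'] at h6
      exact_mod_cast h6
    set d := D / D.gcd (q * B') with hd
    have hg0 : 0 < D.gcd (q * B') := Nat.gcd_pos_of_pos_left _ x.den_pos
    have hd0 : 0 < d := Nat.div_pos (Nat.le_of_dvd x.den_pos (Nat.gcd_dvd_left _ _)) hg0
    have hdiv : ∀ s ∈ U, d ∣ s := fun s hs => by
      have h1 := hdvd s hs
      rw [hd]
      have hco : Nat.Coprime (D / D.gcd (q * B')) (q * B' / D.gcd (q * B')) :=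
        Nat.coprime_div_gcd_div_gcd hg0
      refine hco.dvd_of_dvd_mul_left ?_
      rw [← Nat.mul_div_right_comm (Nat.gcd_dvd_right _ _) s]
      exact Nat.div_dvd_div (Nat.gcd_dvd_left _ _) h1
    refine (sum_law_dvd hA hd0 U ((filter_subset _ _).trans (hsub.trans hT)) hdiv).trans ?_
    rw [one_div, inv_le_iff_one_le_mul₀ (by exact_mod_cast hd0)]
    have h1 : (D : ℝ) ≤ δ ^ (-(128 * θ)) * d := by
      have e : (D : ℝ) = (D.gcd (q * B') : ℝ) * d := by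
        exact_mod_cast (Nat.mul_div_cancel' (Nat.gcd_dvd_left D (q * B'))).symm
      rw [e]
      refine mul_le_mul_of_nonneg_right (le_trans ?_ hqB) (Nat.cast_nonneg _)
      exact_mod_cast Nat.gcd_le_right D (Nat.mul_pos hq1 hB')
    have h2 : δ ^ (-(39872 * θ)) ≤ (d : ℝ) := by
      refine le_of_mul_le_mul_left ?_ (Real.rpow_pos_of_pos hδ (-(128 * θ)))
      rw [h.mul_pow, show -(128 * θ) + -(39872 * θ) = -(40000 * θ) by ring]
      linarith
    refine le_trans ?_ (mul_le_mul_of_nonneg_left h2 (Real.rpow_nonneg hδ.le _))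
    rw [h.mul_pow]
    exact Real.one_le_rpow_of_pos_of_le_one_of_nonpos hδ h.lt_one.le (by linarith)
  refine (add_le_add hbig hsmalls).trans ?_
  have a1 := mul_le_mul_of_nonneg_left (h.mono (show 96 * θ ≤ 120 * θ by linarith))
    (show 0 ≤ 5 * K by positivity)
  have a2 : δ ^ (39000 * θ) ≤ δ ^ (96 * θ) := h.mono (by linarith)
  linarith

lemma hit_law (θ : ℝ) (hθ : 0 < θ) : ∃ K : ℝ, ∃ L₀ : ℕ, 0 < K ∧ ∀ (δ γ : ℝ) (m M : ℕ),
    Small θ δ → L₀ ≤ m → m ≤ M → M ≤ m ^ 2 → Bands θ δ m M →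
    ∀ (A : ℕ), 0 < A → ∀ (T : Finset ℕ), T ⊆ A.divisors → ∀ (ν : ℕ) (r : ℝ), 0 < ν →
      (ν : ℝ) ≤ δ ^ (-(5064 * θ)) →
      (∀ s ∈ T, δ ^ (1 + θ) * 2 ^ m ≤ (ν : ℝ) * (s : ℕ) ∧ (ν : ℝ) * (s : ℕ) ≤ 2 ^ M ∧
        Far γ θ δ ((ν : ℝ) * (s : ℕ)) ∧ NearInt (γ * ν * (s : ℕ) - r) (2 * δ) ∧
        ∃ x : ℕ, x < ν * s ∧ NearInt (γ * ((ν : ℝ) * (s : ℕ) - x)) (2 * δ)) →
      ∑ s ∈ T, law A s ≤ K * δ ^ (104 * θ) := by
  classical
  obtain ⟨K, hK, hfar⟩ := law_far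
  obtain ⟨L₀, hL40, hlarge⟩ := large_regime θ hθ
  refine ⟨5 * K, L₀, by positivity, ?_⟩
  intro δ γ m M h hm hmM hM2 hbands A hA T hT ν r hν hνle hT1
  have hθ' := h.hθ'
  have hδ := h.hδ
  have hνR : (1 : ℝ) ≤ ν := by exact_mod_cast hν
  have hlow : ∀ s ∈ T, δ ^ (-(32769 * θ)) ≤ (s : ℝ) := by
    intro s hs
    by_contra hc
    obtain ⟨-, -, hf, -, x, hxy, k, hk⟩ := hT1 s hs
    set b := ν * s - x with hb
    have hb0 : 0 < b := by omega
    have hby : b ≤ ν * s := Nat.sub_le _ _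
    have hbR : (b : ℝ) = (ν : ℝ) * s - x := by rw [hb, Nat.cast_sub hxy.le]; push_cast; ring
    have hsmall : (ν : ℝ) * s ≤ δ ^ (-(37833 * θ)) := by
      refine (mul_le_mul hνle (not_le.1 hc).le (Nat.cast_nonneg _) (by positivity)).trans ?_
      rw [h.mul_pow]; exact h.mono (by linarith)
    have hby' : (b : ℝ) ≤ (ν : ℝ) * s := by exact_mod_cast hby
    have hf' := hf k b hb0 ((hby'.trans hsmall).trans (h.mono (by linarith)))
    rw [← hbR] at hk
    have hbpos : (1 : ℝ) ≤ b := by exact_mod_cast hb0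
    have h1 : |γ - (k : ℝ) / b| * ((ν : ℝ) * s) ≤ 2 * δ * δ ^ (-(37833 * θ)) := by
      rw [show γ - (k : ℝ) / b = (γ * b - k) / b by field_simp, abs_div,
        abs_of_pos (by linarith : (0 : ℝ) < b)]
      refine mul_le_mul ((div_le_self (abs_nonneg _) hbpos).trans hk.le) hsmall (by positivity)
        (by positivity)
    have h2 : 4 * δ ^ (1 - 37833 * θ) ≤ δ ^ (1 - 40000 * θ) := h.absorb (by norm_num) (by linarith)
    have h3 : δ * δ ^ (-(37833 * θ)) = δ ^ (1 - 37833 * θ) := by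
      rw [sub_eq_add_neg, Real.rpow_add hδ, Real.rpow_one]
    have h4 : 0 < δ ^ (1 - 37833 * θ) := Real.rpow_pos_of_pos hδ _
    rw [mul_assoc 2 δ, h3] at h1
    linarith
  have hw : 2 * δ ≤ δ ^ (1 - 401 * θ) := by
    have := h.absorb (c := 2) (a := 1) (b := 1 - 401 * θ) (by norm_num) (by linarith)
    rwa [Real.rpow_one] at this
  obtain ⟨hplain, hsieve⟩ := hfar θ δ γ h A hA T hT ν r (2 * δ) ν M hν
    (hνle.trans (h.mono (by linarith))) (by positivity) hw (by positivity)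
    (by rw [mul_div_assoc, div_self (by linarith : (ν : ℝ) ≠ 0), mul_one]; exact hw)
    (fun s hs => (hT1 s hs).2.2.2.1) hlow
    (fun s hs => by
      have h1 := (hT1 s hs).2.1
      have h2 : (s : ℝ) ≤ (ν : ℝ) * s := le_mul_of_one_le_left (Nat.cast_nonneg _) hνR
      have h3 : (s : ℝ) < ((2 ^ (M + 1) : ℕ) : ℝ) := by
        push_cast; rw [pow_succ]
        have : (0 : ℝ) < 2 ^ M := by positivity
        linarith
      exact_mod_cast h3)
    (fun s hs => (hT1 s hs).2.2.1)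
  rcases le_or_gt (δ ^ (16 * θ) * ((M : ℝ) + 1)) 1 with hsm | hlg
  · calc _ ≤ K * δ ^ (128 * θ) * ((M : ℝ) + 1) := hplain
      _ = K * δ ^ (112 * θ) * (δ ^ (16 * θ) * ((M : ℝ) + 1)) := by
          rw [show δ ^ (128 * θ) = δ ^ (112 * θ) * δ ^ (16 * θ) by rw [h.mul_pow]; ring_nf]; ring
      _ ≤ K * δ ^ (112 * θ) * 1 := mul_le_mul_of_nonneg_left hsm (by positivity)
      _ ≤ _ := by
          rw [mul_one]
          exact mul_le_mul (by linarith) (h.mono (by linarith)) (by positivity) (by positivity)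
  have hX := hlarge δ m M hm hmM hM2 hδ hlg
  obtain ⟨hm1, hmM', hlog⟩ := log_cut (hL40.trans hm) hmM
  refine (hsieve (m / 10) hm1 hmM' fun s hs => ?_).trans ?_
  · set k := m / 10
    have hy := (hT1 s hs).1
    have h1 : δ ^ (1 + θ) * 2 ^ m ≤ δ ^ (-(5064 * θ)) * (s : ℝ) :=
      hy.trans (mul_le_mul_of_nonneg_right hνle (Nat.cast_nonneg _))
    have h2 : (2 : ℝ) ^ m ≤ δ ^ (-2 : ℝ) * (s : ℝ) := by
      have h3 : δ ^ (-2 : ℝ) * (s : ℝ) ≥ δ ^ (-(1 + θ)) * (δ ^ (-(5064 * θ)) * (s : ℝ)) := by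
        rw [ge_iff_le, ← mul_assoc, h.mul_pow]
        exact mul_le_mul_of_nonneg_right (h.mono (by linarith)) (Nat.cast_nonneg _)
      refine le_trans ?_ (le_trans (mul_le_mul_of_nonneg_left h1 (by positivity)) h3)
      rw [← mul_assoc, h.mul_pow, neg_add_cancel, Real.rpow_zero, one_mul]
    have h4 : (2 : ℝ) ^ m ≤ (2 : ℝ) ^ ((m : ℝ) / 20) * (s : ℝ) :=
      h2.trans (mul_le_mul_of_nonneg_right hX (Nat.cast_nonneg _))
    have h5 : ((2 ^ k : ℕ) : ℝ) ≤ (s : ℝ) := by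
      refine le_of_mul_le_mul_left (le_trans ?_ h4) (by positivity)
      push_cast
      rw [← Real.rpow_natCast, ← Real.rpow_natCast, ← Real.rpow_add (by norm_num)]
      refine Real.rpow_le_rpow_of_exponent_le (by norm_num) ?_
      have hk' : (10 : ℝ) * k ≤ m := by exact_mod_cast (show 10 * (m / 10) ≤ m by omega)
      linarith
    exact_mod_cast h5
  calc K * δ ^ (128 * θ) * (1 + Real.log ((M : ℝ) / ((m / 10 : ℕ) : ℝ)))
      ≤ K * δ ^ (128 * θ) * (5 * (1 + Real.log ((M : ℝ) / m))) :=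
        mul_le_mul_of_nonneg_left hlog (by positivity)
    _ = 5 * K * δ ^ (120 * θ) * ((1 + Real.log ((M : ℝ) / m)) * δ ^ (8 * θ)) := by
        rw [show δ ^ (128 * θ) = δ ^ (120 * θ) * δ ^ (8 * θ) by rw [h.mul_pow]; ring_nf]; ring
    _ ≤ 5 * K * δ ^ (120 * θ) * 1 := mul_le_mul_of_nonneg_left hbands (by positivity)
    _ ≤ _ := by rw [mul_one]; exact mul_le_mul_of_nonneg_left (h.mono (by linarith)) (by positivity)

end

end Vale.Agent.P028.Sel
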