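import Vale.Agent.P031.Sieve.Selberg
import Vale.Agent.P031.Euler

/-!
# Sieve bounds for arithmetic progressions and intervals
-/

open Finset
open scoped Classical

namespace Vale.Agent.P028.Sel

/-- The main sum of the Selberg sieve for one class per prime, at level `R`. -/
noncomputable def sieveL (P : Finset ℕ) (R : ℕ) : ℝ :=
  ∑ T ∈ P.powerset.filter (fun T => ∏ p ∈ T, p ≤ R), ∏ p ∈ T, 1 / ((p : ℝ) - 1)

/-- Struck terms of the progression `c + j * M`, indexed by `n = j + 1`. -/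
def hitProg (c : ℤ) (M : ℕ) (p n : ℕ) : Prop := (p : ℤ) ∣ c + ((n : ℤ) - 1) * M

lemma term_pos {p : ℕ} (hp : p.Prime) : (0 : ℝ) < 1 / ((p : ℝ) - 1) :=
  one_div_pos.2 (sub_pos.2 (by exact_mod_cast hp.one_lt))

lemma prod_term_nonneg {T : Finset ℕ} (hT : ∀ p ∈ T, p.Prime) :
    (0 : ℝ) ≤ ∏ p ∈ T, 1 / ((p : ℝ) - 1) :=
  prod_nonneg fun p hp => (term_pos (hT p hp)).le

lemma one_add_term {p : ℕ} (hp : p.Prime) : (p : ℝ) / ((p : ℝ) - 1) = 1 + 1 / ((p : ℝ) - 1) := by
  have : (0 : ℝ) < (p : ℝ) - 1 := sub_pos.2 (by exact_mod_cast hp.one_lt)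
  field_simp
  ring

lemma periodic_hitProg (c : ℤ) (M : ℕ) (P : Finset ℕ) : P031.Periodic' (hitProg c M) P := by
  intro p _ n
  simp only [hitProg]
  have h : (p : ℤ) ∣ (c + ((n : ℤ) - 1) * M) - (c + (((n % p : ℕ) : ℤ) - 1) * M) := by
    refine ⟨((n / p : ℕ) : ℤ) * M, ?_⟩
    have : ((n % p : ℕ) : ℤ) + (p : ℤ) * ((n / p : ℕ) : ℤ) = n := by
      exact_mod_cast Nat.mod_add_div n p
    linear_combination -(M : ℤ) * this
  constructor
  · intro h1
    have := dvd_sub h1 h
    rwa [sub_sub_cancel] at this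
  · intro h1
    have := dvd_add h h1
    rwa [sub_add_cancel] at this

lemma roots_hitProg (c : ℤ) {M p : ℕ} (hp : p.Prime) (hM : ¬ p ∣ M) :
    P031.roots (hitProg c M) p = 1 := by
  have := Fact.mk hp
  have hM0 : (M : ZMod p) ≠ 0 := fun h => hM ((ZMod.natCast_eq_zero_iff M p).1 h)
  set r₀ : ZMod p := 1 - (c : ZMod p) / M with hr
  have key : ∀ n : ℕ, hitProg c M p n ↔ (n : ZMod p) = r₀ := by
    intro n
    rw [hitProg, ← ZMod.intCast_zmod_eq_zero_iff_dvd]
    push_cast
    have e : (c : ZMod p) + ((n : ZMod p) - 1) * M = ((n : ZMod p) - r₀) * M := by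
      rw [hr, sub_mul _ _ (M : ZMod p), sub_mul _ _ (M : ZMod p), sub_mul _ _ (M : ZMod p),
        div_mul_cancel₀ _ hM0]
      ring
    rw [e, mul_eq_zero, or_iff_left hM0, sub_eq_zero]
  rw [P031.roots, card_eq_one]
  refine ⟨r₀.val, ?_⟩
  ext n
  simp only [mem_filter, mem_range, mem_singleton, key]
  constructor
  · rintro ⟨hn, h⟩
    rw [← h, ZMod.val_natCast, Nat.mod_eq_of_lt hn]
  · rintro rfl
    exact ⟨ZMod.val_lt _, ZMod.natCast_zmod_val r₀⟩

lemma card_range_eq (c : ℤ) (M N : ℕ) (T : Finset ℕ) :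
    ((range N).filter fun j : ℕ => ∀ p ∈ T, ¬ (p : ℤ) ∣ c + (j : ℤ) * M).card =
      ((Ioc 0 N).filter fun n => ∀ p ∈ T, ¬ hitProg c M p n).card := by
  refine card_bij (fun j _ => j + 1) ?_ ?_ ?_
  · intro j hj
    simp only [mem_filter, mem_range] at hj
    rw [mem_filter, mem_Ioc]
    simp only [hitProg]
    refine ⟨⟨by omega, by omega⟩, ?_⟩
    push_cast
    simpa using hj.2
  · intro a _ b _ h; omega
  · intro n hn
    rw [mem_filter, mem_Ioc] at hn
    simp only [hitProg] at hn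
    refine ⟨n - 1, ?_, by omega⟩
    simp only [mem_filter, mem_range]
    refine ⟨by omega, ?_⟩
    rw [Nat.cast_sub (by omega)]
    exact_mod_cast hn.2

/-- The Selberg upper bound for a progression. -/
theorem selberg_progression (P : Finset ℕ) (hP : ∀ p ∈ P, p.Prime) (R : ℕ) (hR : 1 ≤ R) (c : ℤ)
    (M : ℕ) (hM : ∀ p ∈ P, ¬ p ∣ M) (N : ℕ) :
    (((range N).filter fun j : ℕ => ∀ p ∈ P, ¬ (p : ℤ) ∣ c + (j : ℤ) * M).card : ℝ) ≤
      N / sieveL P R + (R : ℝ) ^ 6 := by
  have hroot : ∀ p ∈ P, P031.roots (hitProg c M) p = 1 := fun p hp =>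
    roots_hitProg c (hP p hp) (hM p hp)
  have hw : ∀ p ∈ P, 1 ≤ P031.roots (hitProg c M) p ∧ P031.roots (hitProg c M) p < p :=
    fun p hp => by rw [hroot p hp]; exact ⟨le_rfl, (hP p hp).one_lt⟩
  set s := P031.sieveData (hitProg c M) P N hP hw with hs
  have hdvdT : ∀ d, d ∣ s.prodPrimes → ∃ T ⊆ P, d = ∏ p ∈ T, p := by
    intro d hd
    refine ⟨d.primeFactors, ?_, ?_⟩
    · have := Nat.primeFactors_mono (n := ∏ p ∈ P, p) hd
        (prod_ne_zero_iff.2 fun q hq => (hP q hq).ne_zero)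
      rwa [Nat.primeFactors_prod hP] at this
    · exact (Nat.prod_primeFactors_of_squarefree
        (BoundingSieve.squarefree_of_dvd_prodPrimes hd)).symm
  have hterm : ∀ T ⊆ P, s.selbergTerms (∏ p ∈ T, p) = ∏ p ∈ T, 1 / ((p : ℝ) - 1) := fun T hT => by
    rw [P031.sieveData_terms hP hw hT]
    refine prod_congr rfl fun p hp => ?_
    have : (1 : ℝ) < p := by exact_mod_cast (hP p (hT hp)).one_lt
    rw [hroot p (hT hp), Nat.cast_one, one_sub_div (by linarith : (p : ℝ) ≠ 0),
      div_div_div_cancel_right₀ (by linarith : (p : ℝ) ≠ 0)]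
  have hbound := P031.selberg_bound s R hR ?_ ?_
  rotate_left
  · intro d hd
    obtain ⟨T, hT, rfl⟩ := hdvdT d hd
    rw [hterm T hT, P031.sieveData_nu hP hw hT, Nat.cast_prod, ← prod_mul_distrib]
    refine prod_le_prod (fun p hp => (term_pos (hP p (hT hp))).le) fun p hp => ?_
    have h2 : (2 : ℝ) ≤ p := by exact_mod_cast (hP p (hT hp)).two_le
    rw [hroot p (hT hp), Nat.cast_one, mul_one_div_cancel (by linarith : (p : ℝ) ≠ 0),
      div_le_one (by linarith)]
    linarith
  · intro d hd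
    obtain ⟨T, hT, rfl⟩ := hdvdT d hd
    refine (P031.sieveData_rem hP hw (periodic_hitProg c M P) hT).trans ?_
    rw [Nat.cast_prod]
    exact prod_le_prod (fun p _ => Nat.cast_nonneg _) fun p _ => by
      exact_mod_cast P031.roots_le _ p
  have hG : ∑ l ∈ s.prodPrimes.divisors.filter (· ≤ R), s.selbergTerms l = sieveL P R := by
    rw [sum_filter, show s.prodPrimes = ∏ p ∈ P, p from rfl, P031.sum_divisors_primeProd P hP,
      sieveL, sum_filter]
    exact sum_congr rfl fun T hT => by rw [hterm T (mem_powerset.1 hT)]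
  have hX : s.totalMass = (N : ℝ) := rfl
  rw [hG, hX] at hbound
  refine le_trans ?_ hbound
  rw [card_range_eq]
  have hset : (Ioc 0 N).filter (fun n => ∀ p ∈ P, ¬ hitProg c M p n) =
      (Ioc 0 N).filter (fun n => P031.struck (hitProg c M) P n = 1) := by
    refine filter_congr fun n _ => ?_
    rw [P031.struck]
    constructor
    · intro h
      rw [filter_false_of_mem h, prod_empty]
    · intro h p hp hh
      have := prod_eq_one_iff.1 h p (mem_filter.2 ⟨hp, hh⟩)
      exact (hP p hp).ne_one this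
  rw [hset]
  by_cases h1 : (1 : ℕ) ∈ (Ioc 0 N).image (P031.struck (hitProg c M) P)
  · rw [BoundingSieve.siftedSum]
    refine le_trans (le_of_eq ?_) (single_le_sum (fun v _ => ?_) h1)
    · rw [if_pos (Nat.coprime_one_right _)]
      rfl
    · split_ifs
      exacts [s.weights_nonneg v, le_rfl]
  · have he : (Ioc 0 N).filter (fun n => P031.struck (hitProg c M) P n = 1) = ∅ :=
      filter_eq_empty_iff.2 fun n hn he => h1 (mem_image.2 ⟨n, hn, he⟩)
    rw [he]
    simp only [card_empty, Nat.cast_zero]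
    exact sum_nonneg fun v _ => by split_ifs <;> [exact s.weights_nonneg v; exact le_rfl]

/-- Dropping primes loses at most their Euler factors. -/
theorem sieveL_split (P Q : Finset ℕ) (hP : ∀ p ∈ P, p.Prime) (hQ : Q ⊆ P) (R : ℕ) :
    sieveL P R ≤ sieveL (P \ Q) R * ∏ p ∈ Q, (p : ℝ) / ((p : ℝ) - 1) := by
  rw [prod_congr rfl fun p hp => one_add_term (hP p (hQ hp)), prod_one_add]
  simp only [sieveL]
  rw [sum_mul_sum, ← sum_product']
  set S := P.powerset.filter (fun T => ∏ p ∈ T, p ≤ R)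
  have hdec : ∀ T : Finset ℕ, T \ Q ∪ T ∩ Q = T := fun T => sdiff_union_inter T Q
  have hprod : ∀ T : Finset ℕ, (∏ p ∈ T, 1 / ((p : ℝ) - 1)) =
      (∏ p ∈ T \ Q, 1 / ((p : ℝ) - 1)) * ∏ p ∈ T ∩ Q, 1 / ((p : ℝ) - 1) := fun T => by
    rw [← prod_union (disjoint_sdiff_inter T Q), hdec]
  rw [sum_congr rfl fun T _ => hprod T]
  rw [← sum_image (f := fun x : Finset ℕ × Finset ℕ =>
    (∏ p ∈ x.1, 1 / ((p : ℝ) - 1)) * ∏ p ∈ x.2, 1 / ((p : ℝ) - 1))
    (g := fun T => (T \ Q, T ∩ Q)) (s := S) ?_]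
  · refine sum_le_sum_of_subset_of_nonneg ?_ fun x hx _ => ?_
    · intro x hx
      obtain ⟨T, hT, rfl⟩ := mem_image.1 hx
      simp only [S, mem_filter, mem_powerset] at hT
      simp only [mem_product, mem_filter, mem_powerset]
      exact ⟨⟨sdiff_subset_sdiff hT.1 Subset.rfl,
        (prod_le_prod_of_subset_of_one_le' sdiff_subset fun p hp _ =>
          (hP p (hT.1 hp)).one_lt.le).trans hT.2⟩, inter_subset_right⟩
    · simp only [mem_product, mem_filter, mem_powerset] at hx
      exact mul_nonneg (prod_term_nonneg fun p hp => hP p (mem_sdiff.1 (hx.1.1 hp)).1)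
        (prod_term_nonneg fun p hp => hP p (hQ (hx.2 hp)))
  · intro a _ b _ h
    simp only [Prod.mk.injEq] at h
    rw [← hdec a, h.1, h.2, hdec b]

/-- With all primes up to `R` the main sum is at least `log (R + 1)`. -/
theorem log_le_sieveL (R : ℕ) (P : Finset ℕ) (hP : ∀ p, p ∈ P ↔ p.Prime ∧ p ≤ R) :
    Real.log ((R : ℝ) + 1) ≤ sieveL P R := by
  have hharm : Real.log ((R : ℝ) + 1) ≤ ∑ n ∈ Icc 1 R, (1 : ℝ) / n := by
    have h := log_add_one_le_harmonic R
    rw [harmonic_eq_sum_Icc, Rat.cast_sum] at h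
    simp only [Rat.cast_inv, Rat.cast_natCast] at h
    push_cast at h
    simpa only [one_div] using h
  refine hharm.trans ?_
  rw [sieveL]
  set S := P.powerset.filter (fun T => ∏ p ∈ T, p ≤ R)
  rw [← sum_fiberwise_of_maps_to (t := S) (g := Nat.primeFactors) fun n hn => ?_]
  · refine sum_le_sum fun T hT => ?_
    simp only [S, mem_filter, mem_powerset] at hT
    have hTp : ∀ p ∈ T, p.Prime := fun p hp => ((hP p).1 (hT.1 hp)).1
    set d := ∏ p ∈ T, p with hd
    have hd0 : 0 < d := prod_pos fun p hp => (hTp p hp).pos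
    set A := (Icc 1 R).filter (fun n => n.primeFactors = T)
    have hdvd : ∀ n ∈ A, d ∣ n := fun n hn => by
      rw [hd, ← (mem_filter.1 hn).2]; exact Nat.prod_primeFactors_dvd n
    have he := P031.euler_sum (fun _ => 1) T hTp
      (fun p hp => ⟨zero_le_one, by exact_mod_cast (hTp p hp).one_lt⟩) (A.image (· / d)) ?_
    · have hwt : ∀ n, P031.wt (fun _ => 1) n = 1 := fun n => by simp [P031.wt, List.map_const']
      simp only [hwt] at he
      rw [sum_image] at he
      · calc ∑ n ∈ A, (1 : ℝ) / n = 1 / (d : ℝ) * ∑ n ∈ A, (1 : ℝ) / ((n / d : ℕ) : ℝ) := by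
              rw [mul_sum]
              refine sum_congr rfl fun n hn => ?_
              obtain ⟨k, rfl⟩ := hdvd n hn
              rw [Nat.mul_div_cancel_left _ hd0, Nat.cast_mul, one_div_mul_one_div]
          _ ≤ 1 / (d : ℝ) * ∏ p ∈ T, (1 - (1 : ℝ) / p)⁻¹ :=
              mul_le_mul_of_nonneg_left he (by positivity)
          _ = _ := by
              rw [hd, Nat.cast_prod, one_div, ← prod_inv_distrib, ← prod_mul_distrib]
              refine prod_congr rfl fun p hp => ?_
              have : (1 : ℝ) < p := by exact_mod_cast (hTp p hp).one_lt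
              rw [one_sub_div (by linarith : (p : ℝ) ≠ 0)]
              field_simp
      · intro a ha b hb h
        exact (Nat.div_left_inj (hdvd a ha) (hdvd b hb)).1 h
    · intro m hm
      obtain ⟨n, hn, rfl⟩ := mem_image.1 hm
      have hn1 : 0 < n := (mem_Icc.1 (mem_filter.1 hn).1).1
      refine ⟨Nat.div_pos (Nat.le_of_dvd hn1 (hdvd n hn)) hd0, ?_⟩
      rw [← (mem_filter.1 hn).2]
      exact Nat.primeFactors_mono (Nat.div_dvd_of_dvd (hdvd n hn)) hn1.ne'
  · have hn' := mem_Icc.1 hn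
    simp only [S, mem_filter, mem_powerset]
    exact ⟨fun p hp => (hP p).2 ⟨Nat.prime_of_mem_primeFactors hp,
      (Nat.le_of_mem_primeFactors hp).trans hn'.2⟩,
      (Nat.le_of_dvd hn'.1 (Nat.prod_primeFactors_dvd n)).trans hn'.2⟩

/-- Rankin's trick: a level that is a large power of `z` gives the full Euler product. -/
theorem sieveL_rankin : ∃ C : ℕ, ∃ c : ℝ, 0 < c ∧ ∀ (z : ℕ) (P : Finset ℕ), 2 ≤ z →
    (∀ p ∈ P, p.Prime ∧ p ≤ z) → ∀ R : ℕ, z ^ C ≤ R →
      c * ∏ p ∈ P, (p : ℝ) / ((p : ℝ) - 1) ≤ sieveL P R := by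
  obtain ⟨C, hC0, hC⟩ := P031.sum_log_div
  obtain ⟨B, hB⟩ := exists_nat_ge (2 + 2 * C / Real.log 2 + 1)
  refine ⟨B, 1 / 2, by norm_num, fun z P hz hP R hR => ?_⟩
  have hP' : ∀ p ∈ P, p.Prime := fun p hp => (hP p hp).1
  have hzR : (2 : ℝ) ≤ z := by exact_mod_cast hz
  have hlz : 0 < Real.log z := Real.log_pos (by linarith)
  rw [prod_congr rfl fun p hp => one_add_term (hP' p hp)]
  set g : ℕ → ℝ := fun p => 1 / ((p : ℝ) - 1) with hg
  have hg0 : ∀ p ∈ P, 0 ≤ g p := fun p hp => (term_pos (hP' p hp)).le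
  set u : ℕ → ℝ := fun p => Real.exp (Real.log p / Real.log z) with hu
  have hsplit : ∏ p ∈ P, (1 + g p) ≤
      sieveL P R + Real.exp (-(B : ℝ)) * ∏ p ∈ P, (1 + g p * u p) := by
    rw [prod_one_add, prod_one_add, sieveL, sum_filter, mul_sum, ← sum_add_distrib]
    refine sum_le_sum fun T hT => ?_
    have hT' := mem_powerset.1 hT
    have hg' : 0 ≤ ∏ p ∈ T, g p := prod_nonneg fun p hp => hg0 p (hT' hp)
    split_ifs with hle
    · exact le_add_of_nonneg_right (mul_nonneg (Real.exp_nonneg _)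
        (prod_nonneg fun p hp => mul_nonneg (hg0 p (hT' hp)) (Real.exp_nonneg _)))
    · rw [zero_add, prod_mul_distrib, mul_left_comm]
      refine le_mul_of_one_le_right hg' ?_
      rw [hu, ← Real.exp_sum, ← Real.exp_add]
      refine Real.one_le_exp ?_
      have h1 : ∑ p ∈ T, Real.log p / Real.log z =
          Real.log ((∏ p ∈ T, p : ℕ) : ℝ) / Real.log z := by
        rw [Nat.cast_prod, Real.log_prod fun p hp => by
          exact_mod_cast (hP' p (hT' hp)).ne_zero, sum_div]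
      have h2 : (B : ℝ) * Real.log z ≤ Real.log ((∏ p ∈ T, p : ℕ) : ℝ) := by
        rw [← Real.log_pow, ← Nat.cast_pow]
        refine Real.log_le_log (by exact_mod_cast Nat.pow_pos (show 0 < z by omega)) ?_
        exact_mod_cast hR.trans (not_le.1 hle).le
      rw [h1, ← sub_eq_neg_add, sub_nonneg, le_div_iff₀ hlz]
      exact h2
  have hratio : ∏ p ∈ P, (1 + g p * u p) ≤ Real.exp ((B : ℝ) - 1) * ∏ p ∈ P, (1 + g p) := by
    have hpt : ∀ p ∈ P, 1 + g p * u p ≤
        Real.exp (2 / Real.log z * (Real.log p / p)) * (1 + g p) := by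
      intro p hp
      have hp1 : (1 : ℝ) < p := by exact_mod_cast (hP' p hp).one_lt
      have hlp : 0 ≤ Real.log (p : ℝ) := Real.log_natCast_nonneg p
      have ht0 : 0 ≤ Real.log p / Real.log z := div_nonneg hlp hlz.le
      have ht1 : Real.log p / Real.log z ≤ 1 := by
        rw [div_le_one hlz]
        exact Real.log_le_log (by linarith) (by exact_mod_cast (hP p hp).2)
      have hu1 : u p - 1 ≤ 2 * (Real.log p / Real.log z) := by
        have := Real.abs_exp_sub_one_le (x := Real.log p / Real.log z)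
          (by rwa [abs_of_nonneg ht0])
        rw [abs_of_nonneg ht0] at this
        exact (le_abs_self _).trans this
      have hid : g p = 1 / (p : ℝ) * (1 + g p) := by
        simp only [hg]
        field_simp [show (p : ℝ) - 1 ≠ 0 by linarith]
        ring
      calc 1 + g p * u p = (1 + 1 / (p : ℝ) * (u p - 1)) * (1 + g p) := by
            linear_combination (u p - 1) * hid
        _ ≤ (1 + 1 / (p : ℝ) * (2 * (Real.log p / Real.log z))) * (1 + g p) := by
            refine mul_le_mul_of_nonneg_right (add_le_add le_rfl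
              (mul_le_mul_of_nonneg_left hu1 (by positivity))) (by linarith [hg0 p hp])
        _ ≤ _ := by
            refine mul_le_mul_of_nonneg_right ?_ (by linarith [hg0 p hp])
            refine le_trans (le_of_eq ?_) (le_trans (le_of_eq (add_comm 1 _))
              (Real.add_one_le_exp _))
            ring
    refine (prod_le_prod (fun p hp => add_nonneg zero_le_one
      (mul_nonneg (hg0 p hp) (Real.exp_nonneg _))) hpt).trans ?_
    rw [prod_mul_distrib, ← Real.exp_sum, ← mul_sum]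
    refine mul_le_mul_of_nonneg_right (Real.exp_le_exp.2 ?_)
      (prod_nonneg fun p hp => by linarith [hg0 p hp])
    refine le_trans (mul_le_mul_of_nonneg_left (hC z P (by omega) hP) (by positivity)) ?_
    have hl2 : 0 < Real.log 2 := Real.log_pos (by norm_num)
    have h2z : Real.log 2 ≤ Real.log z := Real.log_le_log (by norm_num) hzR
    calc 2 / Real.log z * (Real.log z + C) = 2 + 2 * C / Real.log z := by field_simp
      _ ≤ 2 + 2 * C / Real.log 2 := by gcongr
      _ ≤ _ := by linarith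
  have h1 : Real.exp (-(B : ℝ)) * (Real.exp ((B : ℝ) - 1) * ∏ p ∈ P, (1 + g p)) ≤
      (∏ p ∈ P, (1 + g p)) / 2 := by
    rw [← mul_assoc, ← Real.exp_add, show -(B : ℝ) + ((B : ℝ) - 1) = -1 by ring, Real.exp_neg,
      ← div_eq_inv_mul]
    refine div_le_div_of_nonneg_left (prod_nonneg fun p hp => by linarith [hg0 p hp])
      (by norm_num) ?_
    linarith [Real.add_one_le_exp (1 : ℝ)]
  have h2 := mul_le_mul_of_nonneg_left hratio (Real.exp_nonneg (-(B : ℝ)))
  linarith

/-- Legendre's sieve on an interval. -/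
theorem legendre_interval (T : Finset ℕ) (hT : ∀ p ∈ T, p.Prime) (a : ℤ) (N : ℕ) :
    (((range N).filter fun j : ℕ => ∀ p ∈ T, ¬ (p : ℤ) ∣ a + (j : ℤ)).card : ℝ) ≤
      N * ∏ p ∈ T, (1 - (1 : ℝ) / p) + (2 : ℝ) ^ T.card := by
  have e : ((range N).filter fun j : ℕ => ∀ p ∈ T, ¬ (p : ℤ) ∣ a + (j : ℤ)).card =
      ((Ioc 0 N).filter fun n => ∀ p ∈ T, ¬ hitProg a 1 p n).card := by
    rw [← card_range_eq]
    simp
  rw [e]
  have hind : ∀ n : ℕ, (if ∀ p ∈ T, ¬ hitProg a 1 p n then (1 : ℝ) else 0) =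
      ∑ U ∈ T.powerset, (-1 : ℝ) ^ U.card * if ∀ p ∈ U, hitProg a 1 p n then (1 : ℝ) else 0 := by
    intro n
    calc (if ∀ p ∈ T, ¬ hitProg a 1 p n then (1 : ℝ) else 0)
        = ∏ p ∈ T, (if ¬ hitProg a 1 p n then (1 : ℝ) else 0) := by rw [prod_boole]
      _ = ∏ p ∈ T, (1 + -(if hitProg a 1 p n then (1 : ℝ) else 0)) :=
          prod_congr rfl fun p _ => by split_ifs <;> simp_all
      _ = _ := by
          rw [prod_one_add]
          refine sum_congr rfl fun U _ => ?_
          rw [prod_neg, prod_boole]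
  have h1 : (((Ioc 0 N).filter fun n => ∀ p ∈ T, ¬ hitProg a 1 p n).card : ℝ) =
      ∑ U ∈ T.powerset, (-1 : ℝ) ^ U.card *
        (((Ioc 0 N).filter fun n => ∀ p ∈ U, hitProg a 1 p n).card : ℝ) := by
    rw [natCast_card_filter, sum_congr rfl fun n _ => hind n, sum_comm]
    exact sum_congr rfl fun U _ => by rw [natCast_card_filter, mul_sum]
  have h2 : ∀ U ∈ T.powerset, (-1 : ℝ) ^ U.card *
      (((Ioc 0 N).filter fun n => ∀ p ∈ U, hitProg a 1 p n).card : ℝ) ≤
      (-1 : ℝ) ^ U.card * (N * ∏ p ∈ U, (1 : ℝ) / p) + 1 := by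
    intro U hU
    have hU' : ∀ p ∈ U, p.Prime := fun p hp => hT p (mem_powerset.1 hU hp)
    have hr : ∀ p ∈ U, P031.roots (hitProg a 1) p = 1 := fun p hp =>
      roots_hitProg a (hU' p hp) (Nat.Prime.not_dvd_one (hU' p hp))
    have h := P031.count_allHit U hU' (periodic_hitProg a 1 U) N
    have hA : ∏ p ∈ U, (P031.roots (hitProg a 1) p : ℝ) / p = ∏ p ∈ U, (1 : ℝ) / p :=
      prod_congr rfl fun p hp => by rw [hr p hp, Nat.cast_one]
    have hB : ∏ p ∈ U, (P031.roots (hitProg a 1) p : ℝ) = 1 :=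
      prod_eq_one fun p hp => by rw [hr p hp, Nat.cast_one]
    rw [hA, hB, abs_le] at h
    rcases neg_one_pow_eq_or ℝ U.card with hs | hs <;> rw [hs] <;> linarith [h.1, h.2]
  rw [h1]
  refine (sum_le_sum h2).trans (le_of_eq ?_)
  rw [sum_add_distrib]
  congr 1
  · simp only [sub_eq_add_neg]
    rw [prod_one_add, mul_sum]
    exact sum_congr rfl fun U _ => by rw [prod_neg]; ring
  · simp [card_powerset]

end Vale.Agent.P028.Sel
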