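import Vale.Agent.P028.Sel.Count
import Vale.Agent.P028.Sel.Sieve

/-!
# Divisors of `A` with the law `φ(A/s)/A` on Bohr sets
-/

open Finset

namespace Vale.Agent.P028.Sel

noncomputable section

open Gcd (rho wtC)

/-- The law of the defect `s ∣ A`. -/
def law (A s : ℕ) : ℝ := (Nat.totient (A / s) : ℝ) / A

lemma law_nonneg (A s : ℕ) : 0 ≤ law A s := div_nonneg (Nat.cast_nonneg _) (Nat.cast_nonneg _)

lemma sum_law_le {A : ℕ} (hA : 0 < A) (T : Finset ℕ) (hT : T ⊆ A.divisors) :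
    ∑ s ∈ T, law A s ≤ 1 := by
  refine (sum_le_sum_of_subset_of_nonneg hT fun s _ _ => law_nonneg A s).trans (le_of_eq ?_)
  unfold law
  rw [← sum_div, ← Nat.cast_sum, Nat.sum_div_divisors A Nat.totient, Nat.sum_totient,
    div_self (by exact_mod_cast hA.ne')]

lemma sum_law_dvd {A d : ℕ} (hA : 0 < A) (hd : 0 < d) (T : Finset ℕ) (hT : T ⊆ A.divisors)
    (hTd : ∀ s ∈ T, d ∣ s) : ∑ s ∈ T, law A s ≤ 1 / (d : ℝ) := by
  classical
  rcases T.eq_empty_or_nonempty with rfl | ⟨s0, hs0⟩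
  · simp
  obtain ⟨b, hb⟩ : d ∣ A := (hTd s0 hs0).trans (Nat.dvd_of_mem_divisors (hT hs0))
  have hb0 : 0 < b := by
    rcases Nat.eq_zero_or_pos b with h | h
    · rw [h, mul_zero] at hb; omega
    · exact h
  have hinj : Set.InjOn (fun s => s / d) T := fun x hx y hy h =>
    (Nat.div_left_inj (hTd x hx) (hTd y hy)).1 h
  have h := sum_law_le hb0 (T.image fun s => s / d) fun x hx => by
    obtain ⟨s, hs, rfl⟩ := mem_image.1 hx
    refine Nat.mem_divisors.2 ⟨?_, hb0.ne'⟩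
    obtain ⟨c, hc⟩ := hTd s hs
    have h1 := Nat.dvd_of_mem_divisors (hT hs)
    rw [hc, hb] at h1
    rw [hc, Nat.mul_div_cancel_left _ hd]
    exact Nat.dvd_of_mul_dvd_mul_left hd h1
  rw [sum_image hinj] at h
  have e : ∀ s ∈ T, law A s = 1 / (d : ℝ) * law b (s / d) := by
    intro s hs
    obtain ⟨c, hc⟩ := hTd s hs
    subst hc
    unfold law
    rw [hb, Nat.mul_div_cancel_left _ hd, Nat.mul_div_mul_left _ _ hd]
    push_cast
    rw [div_mul_div_comm, one_mul]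
  rw [sum_congr rfl e, ← mul_sum]
  exact mul_le_of_le_one_right (by positivity) h

lemma law_le_inv {A s : ℕ} (hA : 0 < A) (hs : s ∣ A) : law A s ≤ 1 / (s : ℝ) := by
  obtain ⟨c, rfl⟩ := hs
  have hs0 : 0 < s := Nat.pos_of_mul_pos_right hA
  have hc0 : 0 < c := Nat.pos_of_mul_pos_left hA
  have hc0' : (0 : ℝ) < c := by exact_mod_cast hc0
  have hs0' : (0 : ℝ) < s := by exact_mod_cast hs0
  rw [law, Nat.mul_div_cancel_left _ hs0, div_le_div_iff₀ (by exact_mod_cast hA) hs0']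
  push_cast
  have : (Nat.totient c : ℝ) ≤ c := by exact_mod_cast Nat.totient_le c
  nlinarith

lemma law_le_rho {A s : ℕ} (hA : 0 < A) (hs : s ∣ A) : law A s ≤ rho A / (Nat.totient s : ℝ) := by
  obtain ⟨c, rfl⟩ := hs
  have hs0 : 0 < s := Nat.pos_of_mul_pos_right hA
  have h := Nat.totient_super_multiplicative s c
  have ht : (0 : ℝ) < Nat.totient s := by exact_mod_cast Nat.totient_pos.2 hs0
  rw [law, Nat.mul_div_cancel_left _ hs0, rho, le_div_iff₀ ht, div_mul_eq_mul_div]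
  refine div_le_div_of_nonneg_right ?_ (Nat.cast_nonneg _)
  rw [mul_comm]; exact_mod_cast h

/-- Squares of `s / φ(s)` over the survivors of a block. -/
lemma moment_le : ∃ K : ℝ, 0 < K ∧ ∀ (P : Finset ℕ) (L E : ℝ), SieveOk P L E →
    ∀ (S : ℕ), 0 < S → ∀ T : Finset ℕ, T ⊆ Finset.Ico S (2 * S) → (∀ s ∈ T, ∀ p ∈ P, ¬ p ∣ s) →
      ∑ s ∈ T, ((s : ℝ) / (Nat.totient s : ℝ)) ^ 2 ≤
        K * ((S : ℝ) / L + (S : ℝ) ^ (1 / 2 : ℝ) * E + (S : ℝ) ^ (3 / 4 : ℝ)) := by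
  classical
  refine ⟨2 * wtC 1 6 + 3 * wtC (1 / 2) 6,
    add_pos (mul_pos two_pos (Gcd.wtC_pos _ _)) (mul_pos (by norm_num) (Gcd.wtC_pos _ _)), ?_⟩
  intro P L E hs S hS T hT hrough
  obtain ⟨hL, hE, hP, hsieve⟩ := hs
  have hSR : (1 : ℝ) ≤ S := by exact_mod_cast hS
  set U := T.biUnion Nat.primeFactors with hU
  have hUp : ∀ p ∈ U, p.Prime := fun p hp => by
    obtain ⟨s, -, h⟩ := mem_biUnion.1 hp
    exact Nat.prime_of_mem_primeFactors h
  have hpt : ∀ s ∈ T, ((s : ℝ) / (Nat.totient s : ℝ)) ^ 2 ≤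
      ∑ t ∈ U.powerset, if (∏ p ∈ t, p) ∣ s then ∏ p ∈ t, (6 / (p : ℝ)) else 0 := by
    intro s hs
    have hs0 : s ≠ 0 := by
      have := (Finset.mem_Ico.1 (hT hs)).1; omega
    have h1 : ((s : ℝ) / (Nat.totient s : ℝ)) ^ 2 ≤ ∏ p ∈ s.primeFactors, (1 + 6 / (p : ℝ)) := by
      rw [show (s : ℝ) / (Nat.totient s : ℝ) = (rho s)⁻¹ by rw [rho, inv_div],
        Gcd.rho_eq_prod hs0, ← prod_inv_distrib, ← prod_pow]
      refine prod_le_prod (fun p _ => sq_nonneg _) fun p hp => ?_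
      have h2 : (2 : ℝ) ≤ p := by exact_mod_cast (Nat.prime_of_mem_primeFactors hp).two_le
      rw [show 1 - (p : ℝ)⁻¹ = ((p : ℝ) - 1) / p by field_simp, inv_div, div_pow,
        div_le_iff₀ (pow_pos (by linarith) 2), one_add_div (by linarith : (p : ℝ) ≠ 0),
        div_mul_eq_mul_div, le_div_iff₀ (by linarith)]
      nlinarith
    refine h1.trans ?_
    rw [prod_one_add]
    calc ∑ t ∈ s.primeFactors.powerset, ∏ p ∈ t, 6 / (p : ℝ)
        = ∑ t ∈ s.primeFactors.powerset,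
            if (∏ p ∈ t, p) ∣ s then ∏ p ∈ t, (6 / (p : ℝ)) else 0 := by
          refine sum_congr rfl fun t ht => (if_pos ?_).symm
          exact (prod_dvd_prod_of_subset _ _ (fun p => p) (mem_powerset.1 ht)).trans
            (Nat.prod_primeFactors_dvd s)
      _ ≤ _ := sum_le_sum_of_subset_of_nonneg
          (powerset_mono.2 (subset_biUnion_of_mem Nat.primeFactors hs)) fun t _ _ => by
            split_ifs
            · exact prod_nonneg fun p _ => by positivity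
            · exact le_rfl
  refine (sum_le_sum hpt).trans ?_
  rw [sum_comm]
  set A1 := (2 : ℝ) * ((S : ℝ) / L + (S : ℝ) ^ (1 / 2 : ℝ) * E)
  set A2 := (3 : ℝ) * (S : ℝ) ^ (3 / 4 : ℝ)
  have hA1 : 0 ≤ A1 := by positivity
  have hA2 : 0 ≤ A2 := by positivity
  have hterm : ∀ t ∈ U.powerset,
      (∑ s ∈ T, if (∏ p ∈ t, p) ∣ s then ∏ p ∈ t, (6 / (p : ℝ)) else 0) ≤
        A1 * ∏ p ∈ t, 6 * (p : ℝ) ^ (-(1 : ℝ)) / p +
        A2 * ∏ p ∈ t, 6 * (p : ℝ) ^ (-(1 / 2) : ℝ) / p := by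
    intro t ht
    set d := ∏ p ∈ t, p with hd
    have hd0 : 0 < d := prod_pos fun p hp => (hUp p (mem_powerset.1 ht hp)).pos
    have hdR : (0 : ℝ) < d := by exact_mod_cast hd0
    set h := ∏ p ∈ t, (6 / (p : ℝ)) with hh
    have hh0 : 0 ≤ h := prod_nonneg fun p _ => by positivity
    have e1 : ∏ p ∈ t, 6 * (p : ℝ) ^ (-(1 : ℝ)) / p = h / d := by
      rw [hh, hd, Nat.cast_prod, ← prod_div_distrib]
      refine prod_congr rfl fun p _ => ?_
      rw [Real.rpow_neg_one, ← div_eq_mul_inv]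
    have e2 : ∏ p ∈ t, 6 * (p : ℝ) ^ (-(1 / 2) : ℝ) / p = h / (d : ℝ) ^ (1 / 2 : ℝ) := by
      rw [hh, hd, Nat.cast_prod, ← Real.finsetProd_rpow _ _ (fun p _ => by positivity),
        ← prod_div_distrib]
      refine prod_congr rfl fun p hp => ?_
      have hp0 : (0 : ℝ) < p := by exact_mod_cast (hUp p (mem_powerset.1 ht hp)).pos
      rw [Real.rpow_neg hp0.le]
      field_simp
    rw [← sum_filter, sum_const, nsmul_eq_mul, e1, e2]
    set c : ℕ := (S + d - 1) / d with hc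
    set N : ℕ := S / d + 1 with hN
    set Td := T.filter fun s => d ∣ s
    have hin : ∀ s ∈ Td, c ≤ s / d ∧ s / d < c + N ∧ (∀ p ∈ P, ¬ p ∣ s / d) := by
      intro s hs
      obtain ⟨hsT, k, hk⟩ := mem_filter.1 hs
      obtain ⟨h1, h2⟩ := Finset.mem_Ico.1 (hT hsT)
      have hkd : s / d = k := by rw [hk, Nat.mul_div_cancel_left _ hd0]
      rw [hkd]
      refine ⟨?_, ?_, fun p hp hpk => hrough s hsT p hp (hk ▸ hpk.mul_left d)⟩
      · rw [hc, Nat.div_le_iff_le_mul_add_pred hd0]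
        omega
      · by_contra hcon
        have e3 := Nat.lt_mul_div_succ S hd0
        have e4 := Nat.div_add_mod (S + d - 1) d
        have e5 := Nat.mod_lt (S + d - 1) hd0
        rw [← hc] at e4
        have e6 : d * (c + (S / d + 1)) ≤ d * k := Nat.mul_le_mul_left d (by omega)
        rw [mul_add] at e6
        omega
    have hinj : Set.InjOn (fun s => s / d - c) Td := by
      intro x hx y hy hxy
      have h1 := (hin x hx).1
      have h2 := (hin y hy).1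
      simp only at hxy
      exact (Nat.div_left_inj (mem_filter.1 hx).2 (mem_filter.1 hy).2).1 (by omega)
    have hNR : (N : ℝ) ≤ (S : ℝ) / d + 1 := by
      rw [hN]; push_cast; exact add_le_add Nat.cast_div_le le_rfl
    rcases le_or_gt (d : ℝ) ((S : ℝ) ^ (1 / 2 : ℝ)) with hsmall | hbig
    · have hcard : Td.card ≤ (survivors P (c : ℤ) 1 N).card := by
        refine card_le_card_of_injOn _ (fun s hs => ?_) hinj
        obtain ⟨h1, h2, h3⟩ := hin s hs
        refine mem_filter.2 ⟨mem_range.2 (show s / d - c < N by omega), fun p hp _ hd' => h3 p hp ?_⟩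
        rw [Nat.cast_one, mul_one] at hd'
        rw [Nat.cast_sub h1, add_sub_cancel] at hd'
        exact_mod_cast hd'
      have hloss : stepLoss P 1 = 1 := prod_eq_one fun p hp =>
        absurd (Nat.dvd_one.1 (mem_filter.1 hp).2) (hP p (mem_filter.1 hp).1).ne_one
      have h1 : (Td.card : ℝ) ≤ A1 / d := by
        refine ((Nat.cast_le (α := ℝ)).2 hcard).trans ((hsieve _ 1 N Nat.one_pos).trans ?_)
        rw [hloss, mul_one, le_div_iff₀ hdR]
        have h3 : (d : ℝ) ≤ S := hsmall.trans (by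
          conv_rhs => rw [← Real.rpow_one (S : ℝ)]
          exact Real.rpow_le_rpow_of_exponent_le hSR (by norm_num))
        have h4 : (N : ℝ) * d ≤ 2 * S := by
          refine (mul_le_mul_of_nonneg_right hNR hdR.le).trans ?_
          rw [add_mul, div_mul_cancel₀ _ hdR.ne']; linarith
        calc ((N : ℝ) / L + E) * d = N * d / L + d * E := by ring
          _ ≤ 2 * S / L + (S : ℝ) ^ (1 / 2 : ℝ) * E := add_le_add
              (div_le_div_of_nonneg_right h4 hL.le) (mul_le_mul_of_nonneg_right hsmall hE)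
          _ ≤ A1 := by
              have : 0 ≤ (S : ℝ) ^ (1 / 2 : ℝ) * E := by positivity
              simp only [A1]; rw [mul_div_assoc]; linarith
      refine le_trans ?_ (le_add_of_nonneg_right (by positivity))
      refine (mul_le_mul_of_nonneg_right h1 hh0).trans (le_of_eq (by ring))
    · refine le_trans ?_ (le_add_of_nonneg_left (by positivity))
      rcases Td.eq_empty_or_nonempty with h0 | ⟨s0, hs0⟩
      · rw [h0]; simp only [card_empty, Nat.cast_zero, zero_mul]; positivity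
      have hd2S : (d : ℝ) ≤ 2 * S := by
        have hlt := (Finset.mem_Ico.1 (hT (mem_filter.1 hs0).1))
        have := Nat.le_of_dvd (by omega) (mem_filter.1 hs0).2
        exact_mod_cast (by omega : d ≤ 2 * S)
      have h1 : (Td.card : ℝ) ≤ N := by
        have : Td.card ≤ (range N).card := card_le_card_of_injOn _ (fun s hs => by
          have := hin s hs
          exact mem_range.2 (show s / d - c < N by omega)) hinj
        rw [card_range] at this
        exact_mod_cast this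
      have hrd : 0 < (d : ℝ) ^ (1 / 2 : ℝ) := Real.rpow_pos_of_pos hdR _
      refine (mul_le_mul_of_nonneg_right (h1.trans hNR) hh0).trans ?_
      rw [mul_comm A2, div_mul_eq_mul_div, le_div_iff₀ hrd, mul_comm ((S : ℝ) / d + 1) h,
        mul_assoc]
      refine mul_le_mul_of_nonneg_left ?_ hh0
      have hdd : (d : ℝ) ^ (1 / 2 : ℝ) * (d : ℝ) ^ (1 / 2 : ℝ) = d := by
        rw [← Real.rpow_add hdR]; norm_num
      have hq : (S : ℝ) ^ (1 / 4 : ℝ) ≤ (d : ℝ) ^ (1 / 2 : ℝ) := by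
        refine le_trans (le_of_eq ?_) (Real.rpow_le_rpow (by positivity) hbig.le (by norm_num))
        rw [← Real.rpow_mul (by positivity)]; norm_num
      have hS34 : (S : ℝ) ^ (3 / 4 : ℝ) * (S : ℝ) ^ (1 / 4 : ℝ) = S := by
        rw [← Real.rpow_add (by linarith)]; norm_num
      calc ((S : ℝ) / d + 1) * (d : ℝ) ^ (1 / 2 : ℝ)
          ≤ 3 * ((S : ℝ) / d) * (d : ℝ) ^ (1 / 2 : ℝ) := by
            refine mul_le_mul_of_nonneg_right ?_ hrd.le
            have : 1 / 2 ≤ (S : ℝ) / d := by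
              rw [div_le_div_iff₀ (by norm_num) hdR]; linarith
            linarith
        _ ≤ A2 := by
            simp only [A2]
            rw [mul_assoc]
            refine mul_le_mul_of_nonneg_left ?_ (by norm_num)
            rw [div_mul_eq_mul_div, div_le_iff₀ hdR]
            calc (S : ℝ) * (d : ℝ) ^ (1 / 2 : ℝ)
                = (S : ℝ) ^ (3 / 4 : ℝ) * ((S : ℝ) ^ (1 / 4 : ℝ) * (d : ℝ) ^ (1 / 2 : ℝ)) := by
                  rw [← mul_assoc, hS34]
              _ ≤ (S : ℝ) ^ (3 / 4 : ℝ) * ((d : ℝ) ^ (1 / 2 : ℝ) * (d : ℝ) ^ (1 / 2 : ℝ)) := by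
                  gcongr
              _ = _ := by rw [hdd]
  refine (sum_le_sum hterm).trans ?_
  rw [sum_add_distrib, ← mul_sum, ← mul_sum]
  have w1 := mul_le_mul_of_nonneg_left
    (Gcd.sum_powerset_le (τ := 1) (K := 6) one_pos (by norm_num) U) hA1
  have w2 := mul_le_mul_of_nonneg_left
    (Gcd.sum_powerset_le (τ := 1 / 2) (K := 6) (by norm_num) (by norm_num) U) hA2
  refine (add_le_add w1 w2).trans ?_
  have hp1 := (Gcd.wtC_pos 1 6).le
  have hp2 := (Gcd.wtC_pos (1 / 2) 6).le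
  have hn1 : 0 ≤ (S : ℝ) / L + (S : ℝ) ^ (1 / 2 : ℝ) * E := by positivity
  have hn2 : 0 ≤ (S : ℝ) ^ (3 / 4 : ℝ) := by positivity
  simp only [A1, A2]
  nlinarith [mul_nonneg hp1 hn2, mul_nonneg hp2 hn1]

/-- The sieving primes for a block. -/
def sievePrimes (A R : ℕ) : Finset ℕ := (range (R + 1)).filter fun p => p.Prime ∧ ¬ p ∣ A

lemma sieveOk_sievePrimes (A R : ℕ) (hR : 1 ≤ R) :
    SieveOk (sievePrimes A R) (sieveL (sievePrimes A R) R) ((R : ℝ) ^ 6) := by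
  classical
  have hP : ∀ p ∈ sievePrimes A R, p.Prime := fun p hp => (mem_filter.1 hp).2.1
  have hpos : ∀ Q : Finset ℕ, (∀ p ∈ Q, p.Prime) → 0 < sieveL Q R := by
    intro Q hQ
    refine lt_of_lt_of_le one_pos ?_
    rw [sieveL]
    refine le_trans (le_of_eq (by simp : (1 : ℝ) = ∏ p ∈ (∅ : Finset ℕ), 1 / ((p : ℝ) - 1)))
      (single_le_sum (fun T hT => prod_term_nonneg fun p hp =>
        hQ p (mem_powerset.1 (mem_filter.1 hT).1 hp)) ?_)
    simp [hR]
  refine ⟨hpos _ hP, by positivity, hP, fun c M N hM => ?_⟩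
  set Q := (sievePrimes A R).filter fun p => p ∣ M
  have hsub : survivors (sievePrimes A R) c M N ⊆ (range N).filter fun j : ℕ =>
      ∀ p ∈ sievePrimes A R \ Q, ¬ (p : ℤ) ∣ c + (j : ℤ) * M := by
    intro j hj
    obtain ⟨h1, h2⟩ := mem_filter.1 hj
    refine mem_filter.2 ⟨h1, fun p hp => ?_⟩
    obtain ⟨hp1, hp2⟩ := mem_sdiff.1 hp
    exact h2 p hp1 fun h => hp2 (mem_filter.2 ⟨hp1, h⟩)
  have hP' : ∀ p ∈ sievePrimes A R \ Q, p.Prime := fun p hp => hP p (mem_sdiff.1 hp).1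
  refine ((Nat.cast_le (α := ℝ)).2 (card_le_card hsub)).trans
    ((selberg_progression _ hP' R hR c M (fun p hp h => (mem_sdiff.1 hp).2
      (mem_filter.2 ⟨(mem_sdiff.1 hp).1, h⟩)) N).trans (add_le_add ?_ le_rfl))
  rw [div_le_div_iff₀ (hpos _ hP') (hpos _ hP)]
  refine le_trans (mul_le_mul_of_nonneg_left (sieveL_split _ Q hP (filter_subset _ _) R)
    (Nat.cast_nonneg N)) (le_of_eq ?_)
  unfold stepLoss
  ring

lemma rho_div_sieveL (A R : ℕ) (hA : 0 < A) (hR : 1 ≤ R) :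
    rho A * Real.log ((R : ℝ) + 1) ≤ sieveL (sievePrimes A R) R ∧
      sieveL (sievePrimes A R) R ≤ R := by
  classical
  set Pall := (range (R + 1)).filter Nat.Prime with hPall
  set Q := Pall.filter fun p => p ∣ A
  have hmem : ∀ p, p ∈ Pall ↔ p.Prime ∧ p ≤ R := fun p => by
    rw [hPall, mem_filter, mem_range, Nat.lt_succ_iff]; exact and_comm
  have hPp : ∀ p ∈ Pall, p.Prime := fun p hp => ((hmem p).1 hp).1
  have e : Pall \ Q = sievePrimes A R := by
    ext p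
    simp only [Q, sievePrimes, mem_sdiff, mem_filter, hPall]
    tauto
  constructor
  · have h1 := (log_le_sieveL R Pall hmem).trans
      (sieveL_split Pall Q hPp (filter_subset _ _) R)
    rw [e] at h1
    have h2 : rho A * ∏ p ∈ Q, (p : ℝ) / ((p : ℝ) - 1) ≤ 1 := by
      rw [Gcd.rho_eq_prod hA.ne', ← prod_sdiff (show Q ⊆ A.primeFactors from fun p hp =>
        Nat.mem_primeFactors.2 ⟨hPp p (mem_filter.1 hp).1, (mem_filter.1 hp).2, hA.ne'⟩),
        mul_assoc, ← prod_mul_distrib]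
      refine mul_le_one₀ (prod_le_one (fun p hp => (Gcd.one_sub_inv_pos
        (Nat.prime_of_mem_primeFactors (mem_sdiff.1 hp).1)).le)
        fun p _ => Gcd.one_sub_inv_le_one p) ?_ (le_of_eq (prod_eq_one fun p hp => ?_))
      · exact prod_nonneg fun p hp => mul_nonneg
          (Gcd.one_sub_inv_pos (hPp p (mem_filter.1 hp).1)).le
          (zero_le_one.trans (div_pred_le (hPp p (mem_filter.1 hp).1)).1)
      · have h1 : (1 : ℝ) < p := by exact_mod_cast (hPp p (mem_filter.1 hp).1).one_lt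
        field_simp [show (p : ℝ) - 1 ≠ 0 by linarith]
    have h0 : 0 ≤ sieveL (sievePrimes A R) R :=
      (sieveOk_sievePrimes A R hR).1.le
    calc rho A * Real.log ((R : ℝ) + 1)
        ≤ rho A * (sieveL (sievePrimes A R) R * ∏ p ∈ Q, (p : ℝ) / ((p : ℝ) - 1)) :=
          mul_le_mul_of_nonneg_left h1 (Gcd.rho_nonneg A)
      _ = sieveL (sievePrimes A R) R * (rho A * ∏ p ∈ Q, (p : ℝ) / ((p : ℝ) - 1)) := by ring
      _ ≤ _ := mul_le_of_le_one_right h0 h2
  · have hP : ∀ p ∈ sievePrimes A R, p.Prime := fun p hp => (mem_filter.1 hp).2.1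
    rw [sieveL]
    set F := (sievePrimes A R).powerset.filter fun T => ∏ p ∈ T, p ≤ R
    refine (sum_le_sum (g := fun _ => (1 : ℝ)) fun T hT => ?_).trans ?_
    · refine prod_le_one (fun p hp => (term_pos (hP p (mem_powerset.1 (mem_filter.1 hT).1 hp))).le)
        fun p hp => ?_
      have h2 : (2 : ℝ) ≤ p := by
        exact_mod_cast (hP p (mem_powerset.1 (mem_filter.1 hT).1 hp)).two_le
      rw [div_le_one (by linarith)]; linarith
    · rw [sum_const, nsmul_eq_mul, mul_one]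
      have : F.card ≤ (Finset.Icc 1 R).card := by
        refine card_le_card_of_injOn (fun T => ∏ p ∈ T, p) (fun T hT => ?_) fun T hT T' hT' h => ?_
        · exact mem_Icc.2 ⟨prod_pos fun p hp =>
            (hP p (mem_powerset.1 (mem_filter.1 hT).1 hp)).pos, (mem_filter.1 hT).2⟩
        · have a1 := Nat.primeFactors_prod fun p hp => hP p (mem_powerset.1 (mem_filter.1 hT).1 hp)
          have a2 := Nat.primeFactors_prod fun p hp => hP p (mem_powerset.1 (mem_filter.1 hT').1 hp)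
          simp only at h
          rw [← a1, h, a2]
      rw [Nat.card_Icc, Nat.add_sub_cancel] at this
      exact_mod_cast this

/-- `∑_{m ≤ j ≤ M} 1/j`. -/
lemma sum_inv_le (m M : ℕ) (hm : 1 ≤ m) (hM : m ≤ M) :
    ∑ j ∈ Icc m M, 1 / (j : ℝ) ≤ 1 + Real.log ((M : ℝ) / m) := by
  have hm0 : (0 : ℝ) < m := by exact_mod_cast hm
  induction M, hM using Nat.le_induction with
  | base =>
    rw [Icc_self, sum_singleton, div_self hm0.ne', Real.log_one, add_zero, div_le_one hm0]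
    exact_mod_cast hm
  | succ M hM ih =>
    have hM0 : (0 : ℝ) < M := by exact_mod_cast lt_of_lt_of_le hm hM
    rw [sum_Icc_succ_top (by omega)]
    refine (add_le_add ih le_rfl).trans ?_
    push_cast
    rw [Real.log_div hM0.ne' hm0.ne', Real.log_div (by positivity) hm0.ne']
    have h := Real.log_le_sub_one_of_pos (show 0 < (M : ℝ) / ((M : ℝ) + 1) by positivity)
    rw [Real.log_div hM0.ne' (by positivity)] at h
    have e : (M : ℝ) / ((M : ℝ) + 1) - 1 = -(1 / ((M : ℝ) + 1)) := by field_simp; ring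
    linarith

/-- One sieved block. -/
lemma block_sieved : ∃ K : ℝ, 0 < K ∧ ∀ (A : ℕ), 0 < A → ∀ (j : ℕ), 1 ≤ j →
    ∀ (Tj : Finset ℕ), Tj ⊆ A.divisors → (∀ s ∈ Tj, 2 ^ j ≤ s ∧ s < 2 * 2 ^ j) →
    ∀ (α r w g : ℝ), 0 < g → g ≤ 1 → 0 < w → w ≤ g ^ (1 / 2 : ℝ) →
      g ^ (-8 : ℝ) ≤ ((2 ^ j : ℕ) : ℝ) →
      (∀ s ∈ Tj, NearInt (α * (s : ℕ) - r) w) →
      (∀ q : ℕ, 0 < q → (q : ℝ) ≤ g ^ (-(1 / 8) : ℝ) → ∀ a : ℤ,
        w * g ^ (-(1 / 2) : ℝ) ≤ |(q : ℝ) * α - a| * (((2 ^ j : ℕ) : ℝ) / q)) →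
      ∑ s ∈ Tj, law A s ≤ K * g ^ (1 / 32 : ℝ) * (1 / (j : ℝ)) := by
  classical
  obtain ⟨Kc, hKc, hcount⟩ := hits_le
  obtain ⟨Km, hKm, hmom⟩ := moment_le
  set l2 := Real.log 2 with hl2def
  have hl2 : 0 < l2 := Real.log_pos (by norm_num)
  refine ⟨(2 * Kc * (3 * Km)) ^ (1 / 2 : ℝ) * (64 / l2), by positivity, ?_⟩
  intro A hA j hj1 Tj hT hblock α r w g hg hg1 hw hwg hS8 hnear hr
  set G := g ^ (1 / 16 : ℝ) with hG
  set G2 := g ^ (1 / 32 : ℝ) with hG2
  have hG0 : 0 < G := Real.rpow_pos_of_pos hg _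
  have hG2sq : G2 * G2 = G := by rw [hG2, hG, ← Real.rpow_add hg]; norm_num
  set S := 2 ^ j with hS
  have hSR : (1 : ℝ) ≤ (S : ℝ) :=
    (Real.one_le_rpow_of_pos_of_le_one_of_nonpos hg hg1 (by norm_num)).trans hS8
  have hS0 : (0 : ℝ) < S := by linarith
  set R := ⌊(S : ℝ) ^ (1 / 64 : ℝ)⌋₊ with hR
  have hR1 : 1 ≤ R := Nat.le_floor (by push_cast; exact Real.one_le_rpow hSR (by norm_num))
  have hRle : (R : ℝ) ≤ (S : ℝ) ^ (1 / 64 : ℝ) := Nat.floor_le (by positivity)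
  set P := sievePrimes A R with hP
  set L := sieveL P R with hL
  have hok := sieveOk_sievePrimes A R hR1
  obtain ⟨hLlow, hLup⟩ := rho_div_sieveL A R hA hR1
  have hL0 : 0 < L := hok.1
  have hrough : ∀ s ∈ Tj, ∀ p ∈ P, ¬ p ∣ s := fun s hs p hp h =>
    (mem_filter.1 hp).2.2 (h.trans (Nat.dvd_of_mem_divisors (hT hs)))
  have hIco : Tj ⊆ Finset.Ico S (2 * S) := fun s hs =>
    Finset.mem_Ico.2 (hblock s hs)
  have hsub : Tj ⊆ hits P α r w S := fun s hs =>
    mem_filter.2 ⟨hIco hs, hrough s hs, hnear s hs⟩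
  have hE : (R : ℝ) ^ 6 ≤ (S : ℝ) ^ (6 / 64 : ℝ) := by
    refine (pow_le_pow_left₀ (Nat.cast_nonneg R) hRle 6).trans (le_of_eq ?_)
    rw [← Real.rpow_natCast, ← Real.rpow_mul hS0.le]; norm_num
  have hLS : L ≤ (S : ℝ) ^ (1 / 64 : ℝ) := hLup.trans hRle
  have herr : (S : ℝ) ^ (1 / 2 : ℝ) * (R : ℝ) ^ 6 ≤ G * ((S : ℝ) / L) ∧
      (S : ℝ) ^ (3 / 4 : ℝ) ≤ (S : ℝ) / L := by
    have hGS : (S : ℝ) ^ (-(1 / 128) : ℝ) ≤ G := by
      have h := Real.rpow_le_rpow_of_nonpos (Real.rpow_pos_of_pos hg _) hS8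
        (show (-(1 / 128) : ℝ) ≤ 0 by norm_num)
      rw [← Real.rpow_mul hg.le] at h
      exact h.trans (le_of_eq (by rw [hG]; norm_num))
    constructor
    · rw [← mul_div_assoc, le_div_iff₀ hL0]
      calc (S : ℝ) ^ (1 / 2 : ℝ) * (R : ℝ) ^ 6 * L
          ≤ (S : ℝ) ^ (1 / 2 : ℝ) * (S : ℝ) ^ (6 / 64 : ℝ) * (S : ℝ) ^ (1 / 64 : ℝ) := by gcongr
        _ ≤ (S : ℝ) ^ (-(1 / 128) : ℝ) * (S : ℝ) ^ (1 : ℝ) := by
            rw [← Real.rpow_add hS0, ← Real.rpow_add hS0, ← Real.rpow_add hS0]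
            exact Real.rpow_le_rpow_of_exponent_le hSR (by norm_num)
        _ ≤ _ := by rw [Real.rpow_one]; exact mul_le_mul_of_nonneg_right hGS hS0.le
    · rw [le_div_iff₀ hL0]
      calc (S : ℝ) ^ (3 / 4 : ℝ) * L ≤ (S : ℝ) ^ (3 / 4 : ℝ) * (S : ℝ) ^ (1 / 64 : ℝ) := by gcongr
        _ ≤ (S : ℝ) ^ (1 : ℝ) := by
            rw [← Real.rpow_add hS0]
            exact Real.rpow_le_rpow_of_exponent_le hSR (by norm_num)
        _ = S := Real.rpow_one _
  have hG1 : G ≤ 1 := Real.rpow_le_one hg.le hg1 (by norm_num)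
  have hcard : (Tj.card : ℝ) ≤ 2 * Kc * G * ((S : ℝ) / L) := by
    refine ((Nat.cast_le (α := ℝ)).2 (card_le_card hsub)).trans
      ((hcount P L _ hok α r w g S hg hg1 hw hwg hS8 hr).trans ?_)
    rw [← hG]
    calc Kc * G * S / L + Kc * (S : ℝ) ^ (1 / 2 : ℝ) * (R : ℝ) ^ 6
        ≤ Kc * G * S / L + Kc * (G * ((S : ℝ) / L)) := by
          rw [mul_assoc Kc ((S : ℝ) ^ (1 / 2 : ℝ))]
          exact add_le_add le_rfl (mul_le_mul_of_nonneg_left herr.1 hKc.le)
      _ = _ := by ring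
  have hsq : ∑ s ∈ Tj, ((s : ℝ) / (Nat.totient s : ℝ)) ^ 2 ≤ 3 * Km * ((S : ℝ) / L) := by
    refine (hmom P L _ hok S (by positivity) Tj hIco hrough).trans ?_
    have h1 := herr.1.trans (mul_le_of_le_one_left (by positivity) hG1)
    have h2 := herr.2
    nlinarith [hKm]
  have hsum : ∑ s ∈ Tj, (s : ℝ) / (Nat.totient s : ℝ) ≤
      (2 * Kc * (3 * Km)) ^ (1 / 2 : ℝ) * G2 * ((S : ℝ) / L) := by
    have hcs := sq_sum_le_card_mul_sum_sq (s := Tj) (f := fun s : ℕ => (s : ℝ) / (Nat.totient s : ℝ))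
    have h0 : 0 ≤ ∑ s ∈ Tj, (s : ℝ) / (Nat.totient s : ℝ) := sum_nonneg fun s _ => by positivity
    refine (pow_le_pow_iff_left₀ h0 (by positivity) two_ne_zero).1 (hcs.trans ?_)
    refine (mul_le_mul hcard hsq (sum_nonneg fun s _ => sq_nonneg _) (by positivity)).trans
      (le_of_eq ?_)
    have e : ((2 * Kc * (3 * Km)) ^ (1 / 2 : ℝ)) ^ 2 = 2 * Kc * (3 * Km) := by
      rw [sq, ← Real.rpow_add (by positivity)]; norm_num
    rw [mul_pow, mul_pow, e, sq G2, hG2sq]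
    ring
  have hlog : (j : ℝ) * l2 / 64 ≤ Real.log ((R : ℝ) + 1) := by
    refine le_trans (le_of_eq ?_) (Real.log_le_log (Real.rpow_pos_of_pos hS0 _)
      (Nat.lt_floor_add_one ((S : ℝ) ^ (1 / 64 : ℝ))).le)
    rw [Real.log_rpow hS0, hS, Nat.cast_pow, Real.log_pow, hl2def]
    push_cast
    ring
  have hj0 : (0 : ℝ) < j := by exact_mod_cast hj1
  calc ∑ s ∈ Tj, law A s ≤ ∑ s ∈ Tj, rho A / S * ((s : ℝ) / (Nat.totient s : ℝ)) := by
        refine sum_le_sum fun s hs => (law_le_rho hA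
          (Nat.dvd_of_mem_divisors (hT hs))).trans ?_
        have h1 : (S : ℝ) ≤ s := by exact_mod_cast (hblock s hs).1
        rw [div_mul_div_comm, div_eq_mul_inv, div_eq_mul_inv, mul_inv, mul_assoc]
        refine mul_le_mul_of_nonneg_left ?_ (Gcd.rho_nonneg A)
        rw [← mul_assoc]
        refine le_mul_of_one_le_left (inv_nonneg.2 (Nat.cast_nonneg _)) ?_
        rw [← div_eq_mul_inv, one_le_div hS0]; exact h1
    _ = rho A / S * ∑ s ∈ Tj, (s : ℝ) / (Nat.totient s : ℝ) := (mul_sum _ _ _).symm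
    _ ≤ rho A / S * ((2 * Kc * (3 * Km)) ^ (1 / 2 : ℝ) * G2 * ((S : ℝ) / L)) :=
        mul_le_mul_of_nonneg_left hsum (div_nonneg (Gcd.rho_nonneg A) hS0.le)
    _ = (2 * Kc * (3 * Km)) ^ (1 / 2 : ℝ) * G2 * (rho A / L) := by field_simp
    _ ≤ (2 * Kc * (3 * Km)) ^ (1 / 2 : ℝ) * G2 * (64 / l2 * (1 / j)) := by
        refine mul_le_mul_of_nonneg_left ?_ (by positivity)
        rw [div_le_iff₀ hL0]
        have h1 := mul_le_mul_of_nonneg_left hlog (Gcd.rho_nonneg A)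
        have h2 := h1.trans hLlow
        calc rho A = 64 / l2 * (1 / (j : ℝ)) * (rho A * ((j : ℝ) * l2 / 64)) := by field_simp
          _ ≤ _ := mul_le_mul_of_nonneg_left h2 (by positivity)
    _ = _ := by ring

/-- The law of a set of solutions without resonance. -/
theorem law_near_le : ∃ K : ℝ, 0 < K ∧ ∀ (A : ℕ), 0 < A → ∀ (T : Finset ℕ), T ⊆ A.divisors →
    ∀ (α r w g : ℝ) (M : ℕ), 0 < g → g ≤ 1 → 0 < w → w ≤ g ^ (1 / 2 : ℝ) →
      (∀ s ∈ T, NearInt (α * (s : ℕ) - r) w) → (∀ s ∈ T, 2 * g ^ (-8 : ℝ) ≤ (s : ℕ)) →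
      (∀ s ∈ T, s < 2 ^ (M + 1)) →
      (∀ s ∈ T, ∀ q : ℕ, 0 < q → (q : ℝ) ≤ g ^ (-(1 / 8) : ℝ) → ∀ a : ℤ,
        2 * (w * g ^ (-(1 / 2) : ℝ)) ≤ |(q : ℝ) * α - a| * ((s : ℕ) / (q : ℝ))) →
      ∑ s ∈ T, law A s ≤ K * g ^ (1 / 32 : ℝ) * (M + 1) ∧
        ∀ m : ℕ, 1 ≤ m → m ≤ M → (∀ s ∈ T, 2 ^ m ≤ s) →
          ∑ s ∈ T, law A s ≤ K * g ^ (1 / 32 : ℝ) * (1 + Real.log ((M : ℝ) / m)) := by
  classical
  obtain ⟨Kc, hKc, hcount⟩ := hits_le
  obtain ⟨K1, hK1, hKb⟩ := block_sieved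
  refine ⟨2 * Kc + K1, by positivity, ?_⟩
  intro A hA T hT α r w g M hg hg1 hw hwg hnear hlow hup hres
  set jj := fun s : ℕ => Nat.log 2 s with hjj
  set G := g ^ (1 / 16 : ℝ) with hG
  set G2 := g ^ (1 / 32 : ℝ) with hG2
  have hG0 : 0 < G := Real.rpow_pos_of_pos hg _
  have hGG : G ≤ G2 := Real.rpow_le_rpow_of_exponent_ge hg hg1 (by norm_num)
  have hg8 : 1 ≤ g ^ (-8 : ℝ) := Real.one_le_rpow_of_pos_of_le_one_of_nonpos hg hg1 (by norm_num)
  have hs1 : ∀ s ∈ T, 1 ≤ s := fun s hs => by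
    have := hlow s hs
    exact_mod_cast (show (1 : ℝ) ≤ s by linarith)
  have hblock : ∀ j : ℕ, ∀ s ∈ T.filter (fun s => jj s = j),
      2 ^ j ≤ s ∧ s < 2 * 2 ^ j ∧ g ^ (-8 : ℝ) ≤ ((2 ^ j : ℕ) : ℝ) := by
    intro j s hs
    obtain ⟨hsT, rfl⟩ := mem_filter.1 hs
    have h1 := Nat.pow_log_le_self 2 (show s ≠ 0 by have := hs1 s hsT; omega)
    have h2 := Nat.lt_pow_succ_log_self (show 1 < 2 by norm_num) s
    rw [pow_succ'] at h2
    refine ⟨h1, h2, ?_⟩
    have h3 : (s : ℝ) < 2 * ((2 ^ jj s : ℕ) : ℝ) := by exact_mod_cast h2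
    linarith [hlow s hsT]
  have hresj : ∀ j : ℕ, (T.filter fun s => jj s = j).Nonempty →
      g ^ (-8 : ℝ) ≤ ((2 ^ j : ℕ) : ℝ) ∧ ∀ q : ℕ, 0 < q → (q : ℝ) ≤ g ^ (-(1 / 8) : ℝ) → ∀ a : ℤ,
        w * g ^ (-(1 / 2) : ℝ) ≤ |(q : ℝ) * α - a| * (((2 ^ j : ℕ) : ℝ) / q) := by
    rintro j ⟨s, hs⟩
    obtain ⟨-, h2, h3⟩ := hblock j s hs
    refine ⟨h3, fun q hq hqg a => ?_⟩
    have h := hres s (mem_filter.1 hs).1 q hq hqg a
    have h4 : |(q : ℝ) * α - a| * ((s : ℝ) / q) ≤ 2 * (|(q : ℝ) * α - a| * (((2 ^ j : ℕ) : ℝ) / q)) := by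
      rw [mul_left_comm 2, ← mul_div_assoc 2]
      refine mul_le_mul_of_nonneg_left (div_le_div_of_nonneg_right ?_ (Nat.cast_nonneg q))
        (abs_nonneg _)
      exact_mod_cast h2.le
    linarith
  have hmaps : ∀ s ∈ T, jj s ∈ range (M + 1) := fun s hs =>
    mem_range.2 (Nat.log_lt_of_lt_pow (by have := hs1 s hs; omega) (hup s hs))
  constructor
  · rw [← sum_fiberwise_of_maps_to hmaps]
    refine (sum_le_sum fun j _ => ?_).trans
      (le_of_eq (by rw [sum_const, card_range, nsmul_eq_mul]; push_cast; ring :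
        ∑ _j ∈ range (M + 1), (2 * Kc + K1) * G2 = (2 * Kc + K1) * G2 * (M + 1)))
    rcases (T.filter fun s => jj s = j).eq_empty_or_nonempty with h0 | hne
    · rw [h0, sum_empty]; positivity
    obtain ⟨hS8, hr⟩ := hresj j hne
    set S := 2 ^ j with hS
    have hSR : (1 : ℝ) ≤ (S : ℝ) := hg8.trans hS8
    have hsub : T.filter (fun s => jj s = j) ⊆ hits ∅ α r w S := fun s hs =>
      mem_filter.2 ⟨Finset.mem_Ico.2 ⟨(hblock j s hs).1, (hblock j s hs).2.1⟩, by simp,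
        hnear s (mem_filter.1 hs).1⟩
    have hc := hcount ∅ 1 1 sieveOk_empty α r w g S hg hg1 hw hwg hS8 hr
    rw [div_one, mul_one] at hc
    have hsqrt : (S : ℝ) ^ (1 / 2 : ℝ) ≤ G * S := by
      have h1 : (S : ℝ) = (S : ℝ) ^ (1 / 2 : ℝ) * (S : ℝ) ^ (1 / 2 : ℝ) := by
        rw [← Real.rpow_add (by linarith)]; norm_num
      nth_rewrite 2 [h1]
      rw [← mul_assoc]
      refine le_mul_of_one_le_left (by positivity) ?_
      calc (1 : ℝ) ≤ G * (g ^ (-8 : ℝ)) ^ (1 / 2 : ℝ) := by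
            rw [hG, ← Real.rpow_mul hg.le, ← Real.rpow_add hg]
            exact Real.one_le_rpow_of_pos_of_le_one_of_nonpos hg hg1 (by norm_num)
        _ ≤ _ := by gcongr
    calc ∑ s ∈ T.filter (fun s => jj s = j), law A s
        ≤ ∑ _s ∈ T.filter (fun s => jj s = j), 1 / (S : ℝ) := by
          refine sum_le_sum fun s hs => (law_le_inv hA
            (Nat.dvd_of_mem_divisors (hT (mem_filter.1 hs).1))).trans ?_
          exact one_div_le_one_div_of_le (by linarith) (by exact_mod_cast (hblock j s hs).1)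
      _ = ((T.filter fun s => jj s = j).card : ℝ) * (1 / S) := by rw [sum_const, nsmul_eq_mul]
      _ ≤ (Kc * G * S + Kc * (G * S)) * (1 / S) := by
          refine mul_le_mul_of_nonneg_right ?_ (by positivity)
          refine ((Nat.cast_le (α := ℝ)).2 (card_le_card hsub)).trans (hc.trans ?_)
          gcongr
      _ = 2 * Kc * G := by field_simp; ring
      _ ≤ _ := by
          have : 0 ≤ K1 * G2 := by positivity
          nlinarith
  intro m hm hmM hTm
  have hmaps' : ∀ s ∈ T, jj s ∈ Icc m M := fun s hs =>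
    mem_Icc.2 ⟨Nat.le_log_of_pow_le (by norm_num) (hTm s hs),
      Nat.lt_succ_iff.1 (mem_range.1 (hmaps s hs))⟩
  rw [← sum_fiberwise_of_maps_to hmaps']
  refine (sum_le_sum (g := fun j : ℕ => (2 * Kc + K1) * G2 * (1 / (j : ℝ))) fun j hj => ?_).trans
    (by rw [← mul_sum]; exact mul_le_mul_of_nonneg_left (sum_inv_le m M hm hmM) (by positivity))
  rcases (T.filter fun s => jj s = j).eq_empty_or_nonempty with h0 | hne
  · rw [h0, sum_empty]; positivity
  obtain ⟨hS8, hr⟩ := hresj j hne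
  have hj1 : 1 ≤ j := hm.trans (mem_Icc.1 hj).1
  exact (hKb A hA j hj1 _ ((filter_subset _ _).trans hT)
    (fun s hs => ⟨(hblock j s hs).1, (hblock j s hs).2.1⟩) α r w g hg hg1 hw hwg hS8
    (fun s hs => hnear s (mem_filter.1 hs).1) hr).trans (by gcongr; linarith)

end

end Vale.Agent.P028.Sel
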