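import Vale.Agent.P028.Sel.Fibre
import Vale.Agent.P031.Euler

/-!
# Pairs sharing an exceptional lattice parameter are linear
-/

open Finset

namespace Vale.Agent.P028.Sel

noncomputable section

open Gcd (rho quo)
open scoped Classical

/-- The product of the prime factors. -/
def rad (n : ℕ) : ℝ := ∏ p ∈ n.primeFactors, (p : ℝ)

lemma one_le_rad (n : ℕ) : 1 ≤ rad n := one_le_prod fun p hp => by
  exact_mod_cast (Nat.prime_of_mem_primeFactors hp).one_le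

/-- The summable weight of a quotient. -/
def omg (n : ℕ) : ℝ := (n : ℝ) ^ (-(3 / 8) : ℝ) * rad n ^ (-(3 / 4) : ℝ)

lemma omg_nonneg (n : ℕ) : 0 ≤ omg n :=
  mul_nonneg (Real.rpow_nonneg (Nat.cast_nonneg n) _)
    (Real.rpow_nonneg (zero_le_one.trans (one_le_rad n)) _)

lemma omg_sum : ∃ C : ℝ, 0 < C ∧ ∀ X : Finset ℕ, (∀ n ∈ X, 0 < n) → ∑ n ∈ X, omg n ≤ C := by
  set c₀ : ℝ := (1 - (2 : ℝ) ^ (-(3 / 8) : ℝ))⁻¹ with hc₀
  have h2 : (2 : ℝ) ^ (-(3 / 8) : ℝ) < 1 :=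
    Real.rpow_lt_one_of_one_lt_of_neg (by norm_num) (by norm_num)
  have hc0 : 0 ≤ c₀ := inv_nonneg.2 (by linarith)
  refine ⟨Gcd.wtC (1 / 8) c₀, Gcd.wtC_pos _ _, fun X hX => ?_⟩
  set U := X.biUnion Nat.primeFactors with hU
  have hUp : ∀ p ∈ U, p.Prime := fun p hp => by
    obtain ⟨n, -, hn⟩ := mem_biUnion.1 hp
    exact Nat.prime_of_mem_primeFactors hn
  rw [← sum_fiberwise_of_maps_to (t := U.powerset) (g := Nat.primeFactors) fun n hn =>
    mem_powerset.2 (subset_biUnion_of_mem Nat.primeFactors hn)]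
  refine (sum_le_sum fun T hT => ?_).trans (Gcd.sum_powerset_le (by norm_num) hc0 U)
  have hTp : ∀ p ∈ T, p.Prime := fun p hp => hUp p (mem_powerset.1 hT hp)
  set Xt := X.filter fun n => n.primeFactors = T with hXt
  set d := ∏ p ∈ T, p with hd
  have hd0 : 0 < d := prod_pos fun p hp => (hTp p hp).pos
  have hdR : (0 : ℝ) < d := by exact_mod_cast hd0
  have hdvd : ∀ n ∈ Xt, d ∣ n := fun n hn => by
    rw [hd, ← (mem_filter.1 hn).2]; exact Nat.prod_primeFactors_dvd n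
  have hinj : Set.InjOn (fun n => n / d) Xt := fun a ha b hb h =>
    (Nat.div_left_inj (hdvd a ha) (hdvd b hb)).1 h
  have hz : ∀ p ∈ T, 0 ≤ (p : ℝ) ^ (5 / 8 : ℝ) ∧ (p : ℝ) ^ (5 / 8 : ℝ) < p := fun p hp => by
    refine ⟨by positivity, ?_⟩
    nth_rewrite 2 [← Real.rpow_one (p : ℝ)]
    exact Real.rpow_lt_rpow_of_exponent_lt (by exact_mod_cast (hTp p hp).one_lt) (by norm_num)
  have hwt : ∀ m : ℕ, 0 < m → P031.wt (fun p => (p : ℝ) ^ (5 / 8 : ℝ)) m = (m : ℝ) ^ (5 / 8 : ℝ) := by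
    intro m hm
    rw [P031.wt]
    conv_rhs => rw [← Nat.prod_primeFactorsList hm.ne']
    induction m.primeFactorsList with
    | nil => simp
    | cons a l ih =>
      simp only [List.map_cons, List.prod_cons, Nat.cast_mul]
      rw [ih, Real.mul_rpow (Nat.cast_nonneg _) (Nat.cast_nonneg _)]
  have he := P031.euler_sum (fun p => (p : ℝ) ^ (5 / 8 : ℝ)) T hTp hz (Xt.image fun n => n / d)
    (fun m hm => by
      obtain ⟨n, hn, rfl⟩ := mem_image.1 hm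
      have hn0 := hX n (mem_filter.1 hn).1
      refine ⟨Nat.div_pos (Nat.le_of_dvd hn0 (hdvd n hn)) hd0, ?_⟩
      rw [← (mem_filter.1 hn).2]
      exact Nat.primeFactors_mono (Nat.div_dvd_of_dvd (hdvd n hn)) hn0.ne')
  rw [sum_image hinj] at he
  have hterm : ∀ n ∈ Xt, omg n = (d : ℝ) ^ (-(9 / 8) : ℝ) *
      (P031.wt (fun p => (p : ℝ) ^ (5 / 8 : ℝ)) (n / d) / ((n / d : ℕ) : ℝ)) := by
    intro n hn
    obtain ⟨c, hc⟩ := hdvd n hn
    have hn0 := hX n (mem_filter.1 hn).1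
    have hc0 : 0 < c := by
      rcases Nat.eq_zero_or_pos c with h | h
      · rw [h, mul_zero] at hc; omega
      · exact h
    have hcR : (0 : ℝ) < c := by exact_mod_cast hc0
    have hrad : rad n = d := by rw [rad, (mem_filter.1 hn).2, hd, Nat.cast_prod]
    have hnd : n / d = c := by rw [hc, Nat.mul_div_cancel_left _ hd0]
    rw [hnd, hwt c hc0, omg, hrad, hc, Nat.cast_mul, Real.mul_rpow hdR.le hcR.le,
      ← Real.rpow_sub_one hcR.ne', show (5 / 8 : ℝ) - 1 = -(3 / 8) by norm_num, mul_right_comm,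
      ← Real.rpow_add hdR]
    norm_num
  rw [sum_congr rfl hterm, ← mul_sum]
  refine (mul_le_mul_of_nonneg_left he (by positivity)).trans ?_
  rw [hd, Nat.cast_prod, ← Real.finsetProd_rpow _ _ (fun p _ => Nat.cast_nonneg p),
    ← prod_mul_distrib]
  refine prod_le_prod (fun p hp => mul_nonneg (by positivity) (inv_nonneg.2 ?_)) fun p hp => ?_
  · have := hz p hp
    have : (p : ℝ) ^ (5 / 8 : ℝ) / p < 1 := by
      rw [div_lt_one (by exact_mod_cast (hTp p hp).pos)]; exact this.2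
    linarith
  · have hp0 : (0 : ℝ) < p := by exact_mod_cast (hTp p hp).pos
    rw [← Real.rpow_sub_one hp0.ne', show (5 / 8 : ℝ) - 1 = -(3 / 8) by norm_num]
    have h3 : (p : ℝ) ^ (-(3 / 8) : ℝ) ≤ (2 : ℝ) ^ (-(3 / 8) : ℝ) :=
      Real.rpow_le_rpow_of_nonpos (by norm_num) (by exact_mod_cast (hTp p hp).two_le) (by norm_num)
    rw [show (p : ℝ) ^ (-(9 / 8) : ℝ) = (p : ℝ) ^ (-(1 / 8) : ℝ) / p by
      rw [← Real.rpow_sub_one hp0.ne']; norm_num, div_mul_eq_mul_div,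
      mul_comm c₀, hc₀]
    gcongr

/-- The loss at the quotient primes is a small power of the radical. -/
lemma stepLoss_le_rad : ∃ C : ℝ, 0 < C ∧ ∀ (P : Finset ℕ) (n : ℕ), (∀ p ∈ P, p.Prime) → 0 < n →
    stepLoss P n ≤ C * rad n ^ (1 / 8 : ℝ) := by
  refine ⟨(2 : ℝ) ^ 256, by positivity, fun P n hP hn => ?_⟩
  have hsub : P.filter (fun p => p ∣ n) ⊆ n.primeFactors := fun p hp =>
    Nat.mem_primeFactors.2 ⟨hP p (mem_filter.1 hp).1, (mem_filter.1 hp).2, hn.ne'⟩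
  have h0 : ∀ p ∈ n.primeFactors, (1 : ℝ) ≤ (p : ℝ) / ((p : ℝ) - 1) := fun p hp =>
    (div_pred_le (Nat.prime_of_mem_primeFactors hp)).1
  refine (prod_le_prod_of_subset_of_one_le hsub (fun p hp =>
    zero_le_one.trans (h0 p (hsub hp))) fun p hp _ => h0 p hp).trans ?_
  rw [← prod_filter_mul_prod_filter_not n.primeFactors (fun p => p < 256), rad,
    ← Real.finsetProd_rpow _ _ (fun p _ => Nat.cast_nonneg p)]
  refine mul_le_mul ?_ ?_ (prod_nonneg fun p hp => zero_le_one.trans (h0 p (mem_filter.1 hp).1))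
    (by positivity)
  · refine (prod_le_prod (fun p hp => zero_le_one.trans (h0 p (mem_filter.1 hp).1)) fun p hp =>
      (div_pred_le (Nat.prime_of_mem_primeFactors (mem_filter.1 hp).1)).2).trans ?_
    rw [prod_const]
    refine pow_le_pow_right₀ (by norm_num) ?_
    exact (card_le_card fun p hp => mem_range.2 (mem_filter.1 hp).2).trans (card_range 256).le
  · calc ∏ p ∈ n.primeFactors.filter (fun p => ¬ p < 256), (p : ℝ) / ((p : ℝ) - 1)
        ≤ ∏ p ∈ n.primeFactors.filter (fun p => ¬ p < 256), (p : ℝ) ^ (1 / 8 : ℝ) := by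
          refine prod_le_prod (fun p hp => zero_le_one.trans (h0 p (mem_filter.1 hp).1))
            fun p hp => (div_pred_le (Nat.prime_of_mem_primeFactors (mem_filter.1 hp).1)).2.trans ?_
          refine le_trans (le_of_eq ?_) (Real.rpow_le_rpow (by norm_num)
            (show (256 : ℝ) ≤ p by exact_mod_cast not_lt.1 (mem_filter.1 hp).2) (by norm_num))
          rw [show (256 : ℝ) = (2 : ℝ) ^ (8 : ℝ) by norm_num, ← Real.rpow_mul (by norm_num)]
          norm_num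
      _ ≤ _ := prod_le_prod_of_subset_of_one_le (filter_subset _ _)
          (fun p _ => by positivity) fun p hp _ => Real.one_le_rpow
            (by exact_mod_cast (Nat.prime_of_mem_primeFactors hp).one_le) (by norm_num)

lemma rad_mul_le (x y N : ℕ) (hco : Nat.Coprime x y) (z : ℝ) (hz : 0 ≤ z) (hN : 0 < N)
    (h : ∀ p, p ∈ x.primeFactors ∪ y.primeFactors → (p : ℝ) ≤ z ∨ p ∣ N) :
    rad x * rad y ≤ Real.exp (2 * z) * N := by
  have hdisj : Disjoint x.primeFactors y.primeFactors := Nat.Coprime.disjoint_primeFactors hco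
  rw [rad, rad, ← prod_union hdisj]
  set U := x.primeFactors ∪ y.primeFactors
  have hUp : ∀ p ∈ U, p.Prime := fun p hp => by
    rcases mem_union.1 hp with h | h <;> exact Nat.prime_of_mem_primeFactors h
  rw [← prod_filter_mul_prod_filter_not U (fun p : ℕ => (p : ℝ) ≤ z)]
  refine mul_le_mul ?_ ?_ (prod_nonneg fun p _ => Nat.cast_nonneg p) (Real.exp_nonneg _)
  · have h1 : ∏ p ∈ U.filter (fun p : ℕ => (p : ℝ) ≤ z), p ≤ 4 ^ ⌊z⌋₊ := by
      refine le_trans ?_ (primorial_le_four_pow _)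
      unfold primorial
      refine prod_le_prod_of_subset_of_one_le' (fun p hp => mem_filter.2
        ⟨mem_range.2 (Nat.lt_succ_of_le (Nat.le_floor (mem_filter.1 hp).2)),
          hUp p (mem_filter.1 hp).1⟩) fun p hp _ => (mem_filter.1 hp).2.one_lt.le
    have h2 : ((∏ p ∈ U.filter (fun p : ℕ => (p : ℝ) ≤ z), p : ℕ) : ℝ) ≤ (4 : ℝ) ^ ⌊z⌋₊ := by
      exact_mod_cast h1
    push_cast at h2
    refine h2.trans ?_
    rw [← Real.rpow_natCast, Real.rpow_def_of_pos (by norm_num)]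
    refine Real.exp_le_exp.2 ?_
    rw [show Real.log 4 = 2 * Real.log 2 by
      rw [show (4 : ℝ) = 2 ^ 2 by norm_num, Real.log_pow]; norm_num]
    have := Nat.floor_le hz
    have := Real.log_two_lt_d9
    nlinarith [Nat.cast_nonneg (α := ℝ) ⌊z⌋₊]
  · have h1 : ∏ p ∈ U.filter (fun p : ℕ => ¬ (p : ℝ) ≤ z), p ≤ N :=
      Nat.le_of_dvd hN (Finset.prod_primes_dvd N
        (fun p hp => (hUp p (mem_filter.1 hp).1).prime)
        fun p hp => (h p (mem_filter.1 hp).1).resolve_left (mem_filter.1 hp).2)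
    rw [← Nat.cast_prod]
    exact_mod_cast h1

/-- The smooth bound as a power. -/
lemma exp_zreg (γ ψ : ℝ) (hψ : 0 < ψ) :
    0 ≤ zreg γ ψ ∧ Real.exp (2 * zreg γ ψ) ≤ Real.exp 1 *
      (1 + ((reg γ ψ).2 : ℝ) * (1 + |γ - (reg γ ψ).1 / (reg γ ψ).2| / ψ)) ^ (1 / 32 : ℝ) := by
  set t := ((reg γ ψ).2 : ℝ) * (1 + |γ - (reg γ ψ).1 / (reg γ ψ).2| / ψ)
  have ht : 0 ≤ t := by positivity
  have hl : 0 ≤ Real.log (1 + t) := Real.log_nonneg (by linarith)
  refine ⟨div_nonneg (by linarith) (by norm_num), ?_⟩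
  rw [Real.rpow_def_of_pos (by linarith), ← Real.exp_add]
  refine Real.exp_le_exp.2 ?_
  unfold zreg
  linarith

/-- Rationals of two regimes and the hit relation bound the quotient below. -/
lemma distinct_low {γ ψ ψ' : ℝ} {r r' : ℤ × ℕ} (hψ : 0 < ψ) (hle : ψ ≤ ψ') (hψ' : ψ ≤ 1 / 16)
    (hr : InReg γ ψ r) (hr' : InReg γ ψ' r') (hne : r ≠ r') (x y : ℕ) (hx : 0 < x) (hy : 0 < y)
    (k : ℤ) (hco : coF r.1 r'.1 r.2 r'.2 x y k = 0) (R : ℝ) (hR : 1 ≤ R)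
    (hD : max ((y : ℝ) * ψ) ((x : ℝ) * ψ') ≤ (y : ℝ) * ψ * R)
    (hwin : |(k : ℝ) - γ * ((x : ℝ) - y)| < (y : ℝ) * ψ + (x : ℝ) * ψ') :
    ψ ^ (-(1 / 3) : ℝ) ≤ 8 * ((y : ℝ) * R) := by
  obtain ⟨h1, h2, h3, h4⟩ := hr
  obtain ⟨g1, g2, g3, g4⟩ := hr'
  have hB : (0 : ℝ) < r.2 := by exact_mod_cast h1
  have hB' : (0 : ℝ) < r'.2 := by exact_mod_cast g1
  set β := γ - (r.1 : ℝ) / r.2
  set β' := γ - (r'.1 : ℝ) / r'.2
  have hψ1 : ψ ≤ 1 := by linarith
  have hBB : (r.2 : ℝ) * r'.2 ≤ ψ ^ (-(1 / 32) : ℝ) := by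
    refine (mul_le_mul h3 (g3.trans (Real.rpow_le_rpow_of_nonpos hψ hle (by norm_num))) hB'.le
      (by positivity)).trans (le_of_eq ?_)
    rw [← Real.rpow_add hψ]; norm_num
  have hgap : ψ ^ (1 / 32 : ℝ) ≤ |β - β'| := by
    refine le_trans ?_ (le_trans (rat_gap h1 g1 h2 g2 hne) (le_of_eq ?_))
    · rw [le_div_iff₀ (by positivity)]
      refine (mul_le_mul_of_nonneg_left hBB (by positivity)).trans (le_of_eq ?_)
      rw [← Real.rpow_add hψ]; norm_num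
    · rw [abs_sub_comm β β']
      congr 1
      simp only [β, β']; ring
  have hβ : |β| ≤ ψ ^ (1 / 32 : ℝ) / 2 := by
    refine h4.trans ?_
    rw [show (3 / 4 : ℝ) = 1 / 32 + 23 / 32 by norm_num, Real.rpow_add hψ, div_eq_mul_inv]
    refine mul_le_mul_of_nonneg_left ?_ (by positivity)
    refine (Real.rpow_le_rpow hψ.le hψ' (by norm_num)).trans ?_
    rw [show (1 / 16 : ℝ) = (1 / 2) ^ (4 : ℝ) by norm_num, ← Real.rpow_mul (by norm_num)]
    refine (Real.rpow_le_rpow_of_exponent_ge (by norm_num) (by norm_num)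
      (show (1 : ℝ) ≤ 4 * (23 / 32) by norm_num)).trans (le_of_eq ?_)
    rw [Real.rpow_one]; norm_num
  have hβ' : ψ ^ (1 / 32 : ℝ) / 2 ≤ |β'| := by
    have := abs_sub β β'
    linarith
  have hk : (k : ℝ) - γ * ((x : ℝ) - y) = β * y - β' * x := by
    have e : (k : ℝ) * r.2 * r'.2 + r.1 * r'.2 * y - r'.1 * r.2 * x = 0 := by
      have : ((coF r.1 r'.1 r.2 r'.2 x y k : ℤ) : ℝ) = 0 := by rw [hco]; simp
      simpa [coF] using this
    simp only [β, β']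
    field_simp
    linear_combination e
  rw [hk] at hwin
  set D := max ((y : ℝ) * ψ) ((x : ℝ) * ψ')
  have h2D : (y : ℝ) * ψ + (x : ℝ) * ψ' ≤ 2 * D := by
    linarith [le_max_left ((y : ℝ) * ψ) ((x : ℝ) * ψ'), le_max_right ((y : ℝ) * ψ) ((x : ℝ) * ψ')]
  have hyR : (1 : ℝ) ≤ y := by exact_mod_cast hy
  have hxR : (1 : ℝ) ≤ x := by exact_mod_cast hx
  have hsq : ψ ^ (-(1 / 3) : ℝ) * ψ ≤ ψ ^ (1 / 32 : ℝ) := by
    rw [← Real.rpow_add_one hψ.ne']
    exact Real.rpow_le_rpow_of_exponent_ge hψ hψ1 (by norm_num)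
  rcases le_or_gt |β'| (4 * D) with hc | hc
  · refine le_of_mul_le_mul_right ?_ hψ
    calc ψ ^ (-(1 / 3) : ℝ) * ψ ≤ 2 * |β'| := by linarith
      _ ≤ 8 * ((y : ℝ) * ψ * R) := by linarith
      _ = _ := by ring
  · have h5 : |β'| ≤ |β'| * x := le_mul_of_one_le_right (abs_nonneg _) hxR
    have h6 : |β'| * x - |β| * y ≤ |β * y - β' * x| := by
      have := abs_sub_abs_le_abs_sub (β' * (x : ℝ)) (β * y)
      rw [abs_sub_comm] at this
      rw [abs_mul, abs_mul, Nat.abs_cast, Nat.abs_cast] at this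
      exact this
    have h7 : ψ ^ (1 / 32 : ℝ) / 4 ≤ ψ ^ (3 / 4 : ℝ) * y := by
      have := mul_le_mul_of_nonneg_right h4 (Nat.cast_nonneg y)
      linarith
    have h8 : ψ ^ (-(1 / 3) : ℝ) * ψ ^ (3 / 4 : ℝ) ≤ ψ ^ (1 / 32 : ℝ) := by
      rw [← Real.rpow_add hψ]
      exact Real.rpow_le_rpow_of_exponent_ge hψ hψ1 (by norm_num)
    have h9 : ψ ^ (-(1 / 3) : ℝ) ≤ 4 * (y : ℝ) := by
      refine le_of_mul_le_mul_right ?_ (Real.rpow_pos_of_pos hψ (3 / 4))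
      calc ψ ^ (-(1 / 3) : ℝ) * ψ ^ (3 / 4 : ℝ) ≤ ψ ^ (1 / 32 : ℝ) := h8
        _ ≤ 4 * (ψ ^ (3 / 4 : ℝ) * y) := by linarith
        _ = _ := by ring
    have h10 : (y : ℝ) ≤ y * R := le_mul_of_one_le_right (by linarith) hR
    linarith

/-- The primes of an exceptional surviving pair. -/
lemma exc_primes {γ ψ ψ' : ℝ}
    (h : HasReg γ ψ) (h' : HasReg γ ψ') (v w : ℕ) (hv : 0 < v) (hw : 0 < w) (k : ℤ)
    (hco : coF (reg γ ψ).1 (reg γ ψ').1 (reg γ ψ).2 (reg γ ψ').2 (quo v w) (quo w v) k = 0)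
    (hkill : Kill (avoid γ ψ v) (avoid γ ψ' w) (reg γ ψ).1 (reg γ ψ').1 (reg γ ψ).2 (reg γ ψ').2
      (quo v w) (quo w v) k) :
    ∀ p ∈ (quo v w).primeFactors ∪ (quo w v).primeFactors,
      (p : ℝ) ≤ max (zreg γ ψ) (zreg γ ψ') ∨ p ∣ (reg γ ψ).2 * (reg γ ψ').2 := by
  set x := quo v w with hx
  set y := quo w v with hy
  set B := (reg γ ψ).2
  set B' := (reg γ ψ').2
  set A := (reg γ ψ).1
  set A' := (reg γ ψ').1
  intro p hp
  rcases mem_union.1 hp with hp | hp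
  · have hpx := (Nat.mem_primeFactors.1 hp).2.1
    have hpp := Nat.prime_of_mem_primeFactors hp
    by_cases hP : p ∈ avoid γ ψ v
    · right
      have h1 := hkill.1 p hP hpx
      have h2 : (p : ℤ) ∣ (B' : ℤ) * (k * B + A * y) := by
        rw [show (B' : ℤ) * (k * B + A * y) = coF A A' B B' x y k + A' * B * x by
          unfold coF; ring, hco, zero_add]
        exact Dvd.dvd.mul_left (Int.natCast_dvd_natCast.2 hpx) _
      rcases (Nat.prime_iff_prime_int.1 hpp).dvd_or_dvd h2 with h3 | h3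
      · exact (Int.natCast_dvd_natCast.1 h3).mul_left B
      · exact absurd h3 h1
    · have hpv : p ∈ v.primeFactors := Nat.mem_primeFactors.2
        ⟨hpp, hpx.trans ⟨v.gcd w, (quo_mul_gcd v w).symm⟩, hv.ne'⟩
      unfold avoid at hP
      rw [if_pos h, mem_filter, not_and, not_and_or, not_not] at hP
      rcases hP hpv with h1 | h1
      · exact Or.inr (h1.mul_right B')
      · exact Or.inl ((not_lt.1 h1).trans (le_max_left _ _))
  · have hpy := (Nat.mem_primeFactors.1 hp).2.1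
    have hpp := Nat.prime_of_mem_primeFactors hp
    by_cases hP : p ∈ avoid γ ψ' w
    · right
      have h1 := hkill.2 p hP hpy
      have h2 : (p : ℤ) ∣ (B : ℤ) * (k * B' - A' * x) := by
        rw [show (B : ℤ) * (k * B' - A' * x) = coF A A' B B' x y k - A * B' * y by
          unfold coF; ring, hco, zero_sub, dvd_neg]
        exact Dvd.dvd.mul_left (Int.natCast_dvd_natCast.2 hpy) _
      rcases (Nat.prime_iff_prime_int.1 hpp).dvd_or_dvd h2 with h3 | h3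
      · exact (Int.natCast_dvd_natCast.1 h3).mul_right B'
      · exact absurd h3 h1
    · have hpw : p ∈ w.primeFactors := Nat.mem_primeFactors.2
        ⟨hpp, hpy.trans ⟨w.gcd v, (quo_mul_gcd w v).symm⟩, hw.ne'⟩
      unfold avoid at hP
      rw [if_pos h', mem_filter, not_and, not_and_or, not_not] at hP
      rcases hP hpw with h1 | h1
      · exact Or.inr (h1.mul_left B)
      · exact Or.inl ((not_lt.1 h1).trans (le_max_right _ _))

/-- The radicals, one regime. -/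
lemma exc_same {γ ψ ψ' : ℝ} (hψ : 0 < ψ) (hψ' : 0 < ψ') (hψs : ψ ≤ 1 / 16) (hψs' : ψ' ≤ 1 / 16)
    (h : HasReg γ ψ) (h' : HasReg γ ψ') (v w : ℕ) (hv : 0 < v) (hw : 0 < w) (hne : v ≠ w) (k : ℤ)
    (hco : coF (reg γ ψ).1 (reg γ ψ').1 (reg γ ψ).2 (reg γ ψ').2 (quo v w) (quo w v) k = 0)
    (hkill : Kill (avoid γ ψ v) (avoid γ ψ' w) (reg γ ψ).1 (reg γ ψ').1 (reg γ ψ).2 (reg γ ψ').2
      (quo v w) (quo w v) k)
    (hwin : |(k : ℝ) - γ * ((quo v w : ℝ) - quo w v)| < (quo w v : ℝ) * ψ + (quo v w : ℝ) * ψ')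
    (R : ℝ) (hR : 1 ≤ R)
    (hR1 : max ((quo w v : ℝ) * ψ) ((quo v w : ℝ) * ψ') ≤ (quo w v : ℝ) * ψ * R)
    (hrr : reg γ ψ = reg γ ψ')
    (hR2 : max ((quo w v : ℝ) * ψ) ((quo v w : ℝ) * ψ') ≤ (quo v w : ℝ) * ψ' * R) :
    (rad (quo v w) * rad (quo w v)) ^ (7 / 8 : ℝ) ≤
      1024 * ((quo v w : ℝ) * quo w v) ^ (1 / 8 : ℝ) * R ^ (1 / 2 : ℝ) := by
  set x := quo v w with hx
  set y := quo w v with hy
  set B := (reg γ ψ).2 with hBdef
  set B' := (reg γ ψ').2 with hB'def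
  set A := (reg γ ψ).1 with hAdef
  set A' := (reg γ ψ').1 with hA'def
  obtain ⟨hz0, hexp⟩ := exp_zreg γ ψ hψ
  obtain ⟨hz0', hexp'⟩ := exp_zreg γ ψ' hψ'
  rw [← hBdef, ← hAdef] at hexp
  rw [← hB'def, ← hA'def] at hexp'
  set z := max (zreg γ ψ) (zreg γ ψ') with hz
  have hx0 : 0 < x := Gcd.quo_pos hv.ne'
  have hy0 : 0 < y := Gcd.quo_pos hw.ne'
  have hxR : (1 : ℝ) ≤ x := by exact_mod_cast hx0
  have hyR : (1 : ℝ) ≤ y := by exact_mod_cast hy0
  have hxyc : Nat.Coprime x y := by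
    rw [hx, hy]; unfold quo
    rw [Nat.gcd_comm w v]
    exact Nat.coprime_div_gcd_div_gcd (Nat.gcd_pos_of_pos_left _ hv)
  have hprime := exc_primes h h' v w hv hw k hco hkill
  rw [← hx, ← hy, ← hBdef, ← hB'def, ← hz] at hprime
  obtain ⟨hBp, hABc, hB64, hβ⟩ := reg_spec h
  obtain ⟨hB'p, hABc', hB64', hβ'⟩ := reg_spec h'
  rw [← hBdef] at hBp hABc hB64 hβ
  rw [← hB'def] at hB'p hABc' hB64' hβ'
  rw [← hAdef] at hABc hβ
  rw [← hA'def] at hABc' hβ'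
  have hBR : (1 : ℝ) ≤ B := by exact_mod_cast hBp
  have hB'R : (1 : ℝ) ≤ B' := by exact_mod_cast hB'p
  have hrad0 : 0 ≤ rad x * rad y :=
    mul_nonneg (zero_le_one.trans (one_le_rad _)) (zero_le_one.trans (one_le_rad _))
  have hexpz : ∀ c : ℝ, Real.exp 1 * (1 + (B : ℝ) * (1 + |γ - A / B| / ψ)) ^ (1 / 32 : ℝ) ≤ c →
      Real.exp 1 * (1 + (B' : ℝ) * (1 + |γ - A' / B'| / ψ')) ^ (1 / 32 : ℝ) ≤ c →
      Real.exp (2 * z) ≤ c := by
    intro c h1 h2
    rcases max_choice (zreg γ ψ) (zreg γ ψ') with e | e <;> rw [hz, e]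
    · exact hexp.trans h1
    · exact hexp'.trans h2
  have he3 : Real.exp 1 ≤ 3 := Real.exp_one_lt_three.le
  have hM0 : 1 ≤ (x : ℝ) * y * R := by nlinarith [mul_le_mul hxR hyR zero_le_one (by linarith)]
  have hAA : A' = A := by rw [hAdef, hA'def, hrr]
  have hBB : B' = B := by rw [hBdef, hB'def, hrr]
  have hxny : x ≠ y := by
    intro he
    refine hne ?_
    calc v = x * v.gcd w := (quo_mul_gcd v w).symm
      _ = y * w.gcd v := by rw [he, Nat.gcd_comm]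
      _ = w := quo_mul_gcd w v
  have hE : k * (B : ℤ) + A * ((y : ℤ) - x) = 0 := by
    have h0 := hco
    unfold coF at h0
    rw [hAA, hBB] at h0
    have : (B : ℤ) * (k * B + A * ((y : ℤ) - x)) = 0 := by linear_combination h0
    rcases mul_eq_zero.1 this with h1 | h1
    · exfalso; omega
    · exact h1
  have hdvd : (B : ℤ) ∣ (y : ℤ) - x := by
    refine IsCoprime.dvd_of_dvd_mul_left
      (Int.isCoprime_iff_nat_coprime.2 (by simpa using hABc.symm) : IsCoprime (B : ℤ) A) ⟨-k, ?_⟩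
    linear_combination hE
  have hnotB : ∀ p ∈ x.primeFactors ∪ y.primeFactors, (p : ℝ) ≤ z ∨ p ∣ 1 := by
    intro p hp
    refine (hprime p hp).imp id fun hd => ?_
    exfalso
    rw [hBB] at hd
    have hpp : p.Prime := by
      rcases mem_union.1 hp with h | h <;> exact Nat.prime_of_mem_primeFactors h
    have hpB : p ∣ B := (hpp.dvd_mul.1 hd).elim id id
    have h1 : (p : ℤ) ∣ (y : ℤ) - x := (Int.natCast_dvd_natCast.2 hpB).trans hdvd
    rcases mem_union.1 hp with h | h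
    · have h2 : (p : ℤ) ∣ (x : ℤ) := Int.natCast_dvd_natCast.2 (Nat.mem_primeFactors.1 h).2.1
      have h3 := dvd_add h1 h2
      rw [sub_add_cancel] at h3
      exact hpp.ne_one (Nat.dvd_one.1 (hxyc ▸ Nat.dvd_gcd (Nat.mem_primeFactors.1 h).2.1
        (Int.natCast_dvd_natCast.1 h3)))
    · have h2 : (p : ℤ) ∣ (y : ℤ) := Int.natCast_dvd_natCast.2 (Nat.mem_primeFactors.1 h).2.1
      have h3 := dvd_sub h2 h1
      rw [sub_sub_cancel] at h3
      exact hpp.ne_one (Nat.dvd_one.1 (hxyc ▸ Nat.dvd_gcd (Int.natCast_dvd_natCast.1 h3)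
        (Nat.mem_primeFactors.1 h).2.1))
  have hrad := rad_mul_le x y 1 hxyc z (le_max_of_le_left hz0) one_pos hnotB
  rw [Nat.cast_one, mul_one] at hrad
  have hne0 : (y : ℤ) - x ≠ 0 := by omega
  have hBxy : (B : ℝ) ≤ |(y : ℝ) - x| := by
    have h1 : (B : ℤ) ≤ |(y : ℤ) - x| :=
      Int.le_of_dvd (abs_pos.2 hne0) ((dvd_abs _ _).2 hdvd)
    exact_mod_cast h1
  have hBprod : (B : ℝ) ≤ (x : ℝ) * y * R := by
    refine hBxy.trans ?_
    rw [abs_le]
    constructor <;> nlinarith [mul_le_mul_of_nonneg_left hR (show (0:ℝ) ≤ x * y by positivity)]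
  have hβB : |γ - A / B| * B ≤ 2 * max ((y : ℝ) * ψ) ((x : ℝ) * ψ') := by
    have e : (k : ℝ) - γ * ((x : ℝ) - y) = (γ - A / B) * ((y : ℝ) - x) := by
      have h0 : (k : ℝ) * B + A * ((y : ℝ) - x) = 0 := by exact_mod_cast hE
      field_simp
      linear_combination h0
    have h1 : |γ - A / B| * B ≤ |γ - A / B| * |(y : ℝ) - x| :=
      mul_le_mul_of_nonneg_left hBxy (abs_nonneg _)
    rw [← abs_mul, ← e] at h1
    linarith [le_max_left ((y : ℝ) * ψ) ((x : ℝ) * ψ'), le_max_right ((y : ℝ) * ψ) ((x : ℝ) * ψ')]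
  have hside : ∀ (s : ℝ) (u : ℝ), 0 < s → 0 ≤ u → u ≤ (x : ℝ) * y →
      max ((y : ℝ) * ψ) ((x : ℝ) * ψ') ≤ u * s * R →
      1 + (B : ℝ) * (1 + |γ - A / B| / s) ≤ 4 * ((x : ℝ) * y * R) := by
    intro s u hs hu hux hD
    have h1 : |γ - A / B| * B / s ≤ 2 * (u * R) := by
      rw [div_le_iff₀ hs]
      linarith [show u * s * R = u * R * s by ring]
    have h2 : u * R ≤ (x : ℝ) * y * R := mul_le_mul_of_nonneg_right hux (by linarith)
    have h3 : (B : ℝ) * (1 + |γ - A / B| / s) = B + |γ - A / B| * B / s := by ring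
    linarith
  have hz' : Real.exp (2 * z) ≤ 3 * (4 * ((x : ℝ) * y * R)) ^ (1 / 32 : ℝ) := by
    refine hexpz _ ?_ ?_
    · refine mul_le_mul he3 (Real.rpow_le_rpow (by positivity) ?_ (by norm_num))
        (by positivity) (by norm_num)
      exact hside ψ y hψ (by positivity) (le_mul_of_one_le_left (by positivity) hxR) hR1
    · refine mul_le_mul he3 (Real.rpow_le_rpow (by positivity) ?_ (by norm_num))
        (by positivity) (by norm_num)
      rw [hAA, hBB]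
      exact hside ψ' x hψ' (by positivity) (le_mul_of_one_le_right (by positivity) hyR) hR2
  have h12 : rad x * rad y ≤ 12 * ((x : ℝ) * y * R) ^ (1 / 32 : ℝ) := by
    refine hrad.trans (hz'.trans ?_)
    rw [Real.mul_rpow (by norm_num) (by positivity), ← mul_assoc]
    refine mul_le_mul_of_nonneg_right ?_ (by positivity)
    have : (4 : ℝ) ^ (1 / 32 : ℝ) ≤ (4 : ℝ) ^ (1 : ℝ) :=
      Real.rpow_le_rpow_of_exponent_le (by norm_num) (by norm_num)
    rw [Real.rpow_one] at this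
    linarith
  calc (rad x * rad y) ^ (7 / 8 : ℝ)
      ≤ (12 * ((x : ℝ) * y * R) ^ (1 / 32 : ℝ)) ^ (7 / 8 : ℝ) :=
        Real.rpow_le_rpow hrad0 h12 (by norm_num)
    _ = (12 : ℝ) ^ (7 / 8 : ℝ) * ((x : ℝ) * y * R) ^ ((1 / 32) * (7 / 8) : ℝ) := by
        rw [Real.mul_rpow (by norm_num) (by positivity), ← Real.rpow_mul (by positivity)]
    _ ≤ (12 : ℝ) ^ (1 : ℝ) * ((x : ℝ) * y * R) ^ (1 / 8 : ℝ) := mul_le_mul
        (Real.rpow_le_rpow_of_exponent_le (by norm_num) (by norm_num))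
        (Real.rpow_le_rpow_of_exponent_le hM0 (by norm_num)) (by positivity) (by positivity)
    _ ≤ _ := by
        rw [Real.rpow_one, Real.mul_rpow (by positivity) (by linarith), ← mul_assoc]
        exact mul_le_mul (by gcongr; norm_num)
          (Real.rpow_le_rpow_of_exponent_le hR (by norm_num)) (by positivity) (by positivity)

/-- The radicals, two regimes. -/
lemma exc_distinct {γ ψ ψ' : ℝ} (hψ : 0 < ψ) (hψ' : 0 < ψ') (hψs : ψ ≤ 1 / 16) (hψs' : ψ' ≤ 1 / 16)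
    (h : HasReg γ ψ) (h' : HasReg γ ψ') (v w : ℕ) (hv : 0 < v) (hw : 0 < w) (hne : v ≠ w) (k : ℤ)
    (hco : coF (reg γ ψ).1 (reg γ ψ').1 (reg γ ψ).2 (reg γ ψ').2 (quo v w) (quo w v) k = 0)
    (hkill : Kill (avoid γ ψ v) (avoid γ ψ' w) (reg γ ψ).1 (reg γ ψ').1 (reg γ ψ).2 (reg γ ψ').2
      (quo v w) (quo w v) k)
    (hwin : |(k : ℝ) - γ * ((quo v w : ℝ) - quo w v)| < (quo w v : ℝ) * ψ + (quo v w : ℝ) * ψ')
    (R : ℝ) (hR : 1 ≤ R)
    (hR1 : max ((quo w v : ℝ) * ψ) ((quo v w : ℝ) * ψ') ≤ (quo w v : ℝ) * ψ * R)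
    (hrr : reg γ ψ ≠ reg γ ψ')
    (hR2 : max ((quo w v : ℝ) * ψ) ((quo v w : ℝ) * ψ') ≤ (quo v w : ℝ) * ψ' * R) :
    (rad (quo v w) * rad (quo w v)) ^ (7 / 8 : ℝ) ≤
      1024 * ((quo v w : ℝ) * quo w v) ^ (1 / 8 : ℝ) * R ^ (1 / 2 : ℝ) := by
  set x := quo v w with hx
  set y := quo w v with hy
  set B := (reg γ ψ).2 with hBdef
  set B' := (reg γ ψ').2 with hB'def
  set A := (reg γ ψ).1 with hAdef
  set A' := (reg γ ψ').1 with hA'def
  obtain ⟨hz0, hexp⟩ := exp_zreg γ ψ hψ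
  obtain ⟨hz0', hexp'⟩ := exp_zreg γ ψ' hψ'
  rw [← hBdef, ← hAdef] at hexp
  rw [← hB'def, ← hA'def] at hexp'
  set z := max (zreg γ ψ) (zreg γ ψ') with hz
  have hx0 : 0 < x := Gcd.quo_pos hv.ne'
  have hy0 : 0 < y := Gcd.quo_pos hw.ne'
  have hxR : (1 : ℝ) ≤ x := by exact_mod_cast hx0
  have hyR : (1 : ℝ) ≤ y := by exact_mod_cast hy0
  have hxyc : Nat.Coprime x y := by
    rw [hx, hy]; unfold quo
    rw [Nat.gcd_comm w v]
    exact Nat.coprime_div_gcd_div_gcd (Nat.gcd_pos_of_pos_left _ hv)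
  have hprime := exc_primes h h' v w hv hw k hco hkill
  rw [← hx, ← hy, ← hBdef, ← hB'def, ← hz] at hprime
  obtain ⟨hBp, hABc, hB64, hβ⟩ := reg_spec h
  obtain ⟨hB'p, hABc', hB64', hβ'⟩ := reg_spec h'
  rw [← hBdef] at hBp hABc hB64 hβ
  rw [← hB'def] at hB'p hABc' hB64' hβ'
  rw [← hAdef] at hABc hβ
  rw [← hA'def] at hABc' hβ'
  have hBR : (1 : ℝ) ≤ B := by exact_mod_cast hBp
  have hB'R : (1 : ℝ) ≤ B' := by exact_mod_cast hB'p
  have hrad0 : 0 ≤ rad x * rad y :=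
    mul_nonneg (zero_le_one.trans (one_le_rad _)) (zero_le_one.trans (one_le_rad _))
  have hexpz : ∀ c : ℝ, Real.exp 1 * (1 + (B : ℝ) * (1 + |γ - A / B| / ψ)) ^ (1 / 32 : ℝ) ≤ c →
      Real.exp 1 * (1 + (B' : ℝ) * (1 + |γ - A' / B'| / ψ')) ^ (1 / 32 : ℝ) ≤ c →
      Real.exp (2 * z) ≤ c := by
    intro c h1 h2
    rcases max_choice (zreg γ ψ) (zreg γ ψ') with e | e <;> rw [hz, e]
    · exact hexp.trans h1
    · exact hexp'.trans h2
  have he3 : Real.exp 1 ≤ 3 := Real.exp_one_lt_three.le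
  have hM0 : 1 ≤ (x : ℝ) * y * R := by nlinarith [mul_le_mul hxR hyR zero_le_one (by linarith)]
  have hrad := rad_mul_le x y (B * B') hxyc z (le_max_of_le_left hz0) (Nat.mul_pos hBp hB'p) hprime
  push_cast at hrad
  have hwinc : |((-k : ℤ) : ℝ) - γ * ((y : ℝ) - x)| < (x : ℝ) * ψ' + (y : ℝ) * ψ := by
    rw [show ((-k : ℤ) : ℝ) - γ * ((y : ℝ) - x) = -((k : ℝ) - γ * ((x : ℝ) - y)) by push_cast; ring,
      abs_neg]
    linarith
  obtain ⟨s, u, hs, hs16, hψs₁, hψs₂, hu, hux, hlow⟩ : ∃ s u : ℝ, 0 < s ∧ s ≤ 1 / 16 ∧ s ≤ ψ ∧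
      s ≤ ψ' ∧ 0 ≤ u ∧ u ≤ (x : ℝ) * y ∧ s ^ (-(1 / 3) : ℝ) ≤ 8 * (u * R) := by
    rcases le_total ψ ψ' with hle | hle
    · exact ⟨ψ, y, hψ, hψs, le_rfl, hle, by positivity, le_mul_of_one_le_left (by positivity) hxR,
        distinct_low hψ hle hψs (reg_spec h) (reg_spec h') hrr x y hx0 hy0 k hco R hR hR1 hwin⟩
    · refine ⟨ψ', x, hψ', hψs', hle, le_rfl, by positivity,
        le_mul_of_one_le_right (by positivity) hyR,
        distinct_low hψ' hle hψs' (reg_spec h') (reg_spec h) (fun e => hrr e.symm) y x hy0 hx0 (-k)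
          ?_ R hR (by rw [max_comm]; exact hR2) hwinc⟩
      have h0 := hco
      unfold coF at h0 ⊢
      linear_combination -h0
  set t := s ^ (-(1 / 3) : ℝ) with ht
  have ht1 : 1 ≤ t :=
    Real.one_le_rpow_of_pos_of_le_one_of_nonpos hs (by linarith) (by norm_num)
  have hside : ∀ (σ : ℝ) (C : ℕ) (a : ℤ), 0 < σ → σ ≤ 1 / 16 → s ≤ σ →
      (C : ℝ) ≤ σ ^ (-(1 / 64) : ℝ) → |γ - a / C| ≤ σ ^ (3 / 4 : ℝ) →
      1 + (C : ℝ) * (1 + |γ - a / C| / σ) ≤ 3 * t := by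
    intro σ C a hσ hσ16 hsσ hC hb
    have h1 : |γ - a / C| / σ ≤ σ ^ (-(1 / 4) : ℝ) := by
      rw [div_le_iff₀ hσ, ← Real.rpow_add_one hσ.ne']
      exact hb.trans (le_of_eq (by norm_num))
    have h2 : 1 ≤ σ ^ (-(1 / 4) : ℝ) :=
      Real.one_le_rpow_of_pos_of_le_one_of_nonpos hσ (by linarith) (by norm_num)
    have h3 : (C : ℝ) * (1 + |γ - a / C| / σ) ≤ 2 * σ ^ (-(17 / 64) : ℝ) := by
      calc (C : ℝ) * (1 + |γ - a / C| / σ)
          ≤ σ ^ (-(1 / 64) : ℝ) * (2 * σ ^ (-(1 / 4) : ℝ)) :=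
            mul_le_mul hC (by linarith) (by positivity) (by positivity)
        _ = 2 * (σ ^ (-(1 / 64) : ℝ) * σ ^ (-(1 / 4) : ℝ)) := by ring
        _ = _ := by rw [← Real.rpow_add hσ]; norm_num
    have h4 : σ ^ (-(17 / 64) : ℝ) ≤ t :=
      (Real.rpow_le_rpow_of_nonpos hs hsσ (by norm_num)).trans
        (Real.rpow_le_rpow_of_exponent_ge hs (by linarith) (by norm_num))
    linarith
  have hz' : Real.exp (2 * z) ≤ 3 * (3 * t) ^ (1 / 32 : ℝ) :=
    hexpz _ (mul_le_mul he3 (Real.rpow_le_rpow (by positivity)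
      (hside ψ B A hψ hψs hψs₁ hB64 hβ) (by norm_num)) (by positivity) (by norm_num))
      (mul_le_mul he3 (Real.rpow_le_rpow (by positivity)
      (hside ψ' B' A' hψ' hψs' hψs₂ hB64' hβ') (by norm_num)) (by positivity) (by norm_num))
  have hBB : (B : ℝ) * B' ≤ t ^ (3 / 32 : ℝ) := by
    refine (mul_le_mul (hB64.trans (Real.rpow_le_rpow_of_nonpos hs hψs₁ (by norm_num)))
      (hB64'.trans (Real.rpow_le_rpow_of_nonpos hs hψs₂ (by norm_num))) (by positivity)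
      (by positivity)).trans (le_of_eq ?_)
    rw [ht, ← Real.rpow_add hs, ← Real.rpow_mul hs.le]; norm_num
  have h9 : rad x * rad y ≤ 9 * t ^ (1 / 8 : ℝ) := by
    refine hrad.trans ((mul_le_mul hz' hBB (by positivity) (by positivity)).trans ?_)
    rw [Real.mul_rpow (by norm_num) (by linarith)]
    have : (3 : ℝ) ^ (1 / 32 : ℝ) ≤ (3 : ℝ) ^ (1 : ℝ) :=
      Real.rpow_le_rpow_of_exponent_le (by norm_num) (by norm_num)
    rw [Real.rpow_one] at this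
    calc 3 * ((3 : ℝ) ^ (1 / 32 : ℝ) * t ^ (1 / 32 : ℝ)) * t ^ (3 / 32 : ℝ)
        ≤ 3 * (3 * t ^ (1 / 32 : ℝ)) * t ^ (3 / 32 : ℝ) := by gcongr
      _ = 9 * (t ^ (1 / 32 : ℝ) * t ^ (3 / 32 : ℝ)) := by ring
      _ = _ := by rw [← Real.rpow_add (by linarith)]; norm_num
  have ht8 : t ≤ 8 * ((x : ℝ) * y * R) :=
    hlow.trans (by gcongr)
  calc (rad x * rad y) ^ (7 / 8 : ℝ) ≤ (9 * t ^ (1 / 8 : ℝ)) ^ (7 / 8 : ℝ) :=
        Real.rpow_le_rpow hrad0 h9 (by norm_num)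
    _ = (9 : ℝ) ^ (7 / 8 : ℝ) * t ^ ((1 / 8) * (7 / 8) : ℝ) := by
        rw [Real.mul_rpow (by norm_num) (by positivity), ← Real.rpow_mul (by linarith)]
    _ ≤ (9 : ℝ) ^ (1 : ℝ) * t ^ (1 / 8 : ℝ) := mul_le_mul
        (Real.rpow_le_rpow_of_exponent_le (by norm_num) (by norm_num))
        (Real.rpow_le_rpow_of_exponent_le ht1 (by norm_num)) (by positivity) (by positivity)
    _ ≤ (9 : ℝ) ^ (1 : ℝ) * (8 * ((x : ℝ) * y * R)) ^ (1 / 8 : ℝ) := by gcongr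
    _ ≤ _ := by
        rw [Real.rpow_one, Real.mul_rpow (by norm_num) (by positivity),
          Real.mul_rpow (x := (x : ℝ) * y) (by positivity) (by linarith)]
        have h8 : (8 : ℝ) ^ (1 / 8 : ℝ) ≤ (8 : ℝ) ^ (1 : ℝ) :=
          Real.rpow_le_rpow_of_exponent_le (by norm_num) (by norm_num)
        rw [Real.rpow_one] at h8
        calc (9 : ℝ) * ((8 : ℝ) ^ (1 / 8 : ℝ) * (((x : ℝ) * y) ^ (1 / 8 : ℝ) * R ^ (1 / 8 : ℝ)))
            ≤ 9 * (8 * (((x : ℝ) * y) ^ (1 / 8 : ℝ) * R ^ (1 / 2 : ℝ))) := by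
              refine mul_le_mul_of_nonneg_left (mul_le_mul h8 (mul_le_mul_of_nonneg_left
                (Real.rpow_le_rpow_of_exponent_le hR (by norm_num)) (by positivity))
                (by positivity) (by norm_num)) (by norm_num)
          _ ≤ _ := by
              have : 0 ≤ ((x : ℝ) * y) ^ (1 / 8 : ℝ) * R ^ (1 / 2 : ℝ) := by positivity
              nlinarith

/-- The radicals of an exceptional surviving pair. -/
lemma exc_key {γ ψ ψ' : ℝ} (hψ : 0 < ψ) (hψ' : 0 < ψ') (hψs : ψ ≤ 1 / 16) (hψs' : ψ' ≤ 1 / 16)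
    (h : HasReg γ ψ) (h' : HasReg γ ψ') (v w : ℕ) (hv : 0 < v) (hw : 0 < w) (hne : v ≠ w) (k : ℤ)
    (hco : coF (reg γ ψ).1 (reg γ ψ').1 (reg γ ψ).2 (reg γ ψ').2 (quo v w) (quo w v) k = 0)
    (hkill : Kill (avoid γ ψ v) (avoid γ ψ' w) (reg γ ψ).1 (reg γ ψ').1 (reg γ ψ).2 (reg γ ψ').2
      (quo v w) (quo w v) k)
    (hwin : |(k : ℝ) - γ * ((quo v w : ℝ) - quo w v)| < (quo w v : ℝ) * ψ + (quo v w : ℝ) * ψ')
    (R : ℝ) (hR : 1 ≤ R)
    (hR1 : max ((quo w v : ℝ) * ψ) ((quo v w : ℝ) * ψ') ≤ (quo w v : ℝ) * ψ * R)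
    (hR2 : max ((quo w v : ℝ) * ψ) ((quo v w : ℝ) * ψ') ≤ (quo v w : ℝ) * ψ' * R) :
    (rad (quo v w) * rad (quo w v)) ^ (7 / 8 : ℝ) ≤
      1024 * ((quo v w : ℝ) * quo w v) ^ (1 / 8 : ℝ) * R ^ (1 / 2 : ℝ) := by
  by_cases hrr : reg γ ψ = reg γ ψ'
  · exact exc_same hψ hψ' hψs hψs' h h' v w hv hw hne k hco hkill hwin R hR hR1 hrr hR2
  · exact exc_distinct hψ hψ' hψs hψs' h h' v w hv hw hne k hco hkill hwin R hR hR1 hrr hR2

/-- An exceptional surviving pair costs a summable multiple of the two measures. -/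
theorem exc_bound : ∃ C : ℝ, 0 < C ∧ ∀ (γ ψ ψ' : ℝ), 0 < ψ → 0 < ψ' → ψ ≤ 1 / 16 → ψ' ≤ 1 / 16 →
    HasReg γ ψ → HasReg γ ψ' → ∀ (v w : ℕ), 0 < v → 0 < w → v ≠ w → ∀ k : ℤ,
    coF (reg γ ψ).1 (reg γ ψ').1 (reg γ ψ).2 (reg γ ψ').2 (quo v w) (quo w v) k = 0 →
    Kill (avoid γ ψ v) (avoid γ ψ' w) (reg γ ψ).1 (reg γ ψ').1 (reg γ ψ).2 (reg γ ψ').2
      (quo v w) (quo w v) k →
    |(k : ℝ) - γ * ((quo v w : ℝ) - quo w v)| < (quo w v : ℝ) * ψ + (quo v w : ℝ) * ψ' →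
    ψ * ψ' / max ((quo w v : ℝ) * ψ) ((quo v w : ℝ) * ψ') * (rho v * rho w) *
        killX (avoid γ ψ v) (avoid γ ψ' w) (quo v w) (quo w v) *
        coinc (avoid γ ψ v) (avoid γ ψ' w) (reg γ ψ).1 (reg γ ψ').1 (reg γ ψ).2 (reg γ ψ').2
          (quo v w) (quo w v) k ≤
      C * ((rho v * ψ + rho w * ψ') * (omg (quo v w) * omg (quo w v))) := by
  obtain ⟨C₀, hC₀, hX⟩ := stepLoss_le_rad
  refine ⟨C₀ * C₀ * 1024, by positivity, ?_⟩
  intro γ ψ ψ' hψ hψ' hψs hψs' h h' v w hv hw hne k hco hkill hwin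
  set x := quo v w with hx
  set y := quo w v with hy
  set P := avoid γ ψ v
  set P' := avoid γ ψ' w
  have hPp : ∀ p ∈ P, p.Prime := fun p hp =>
    Nat.prime_of_mem_primeFactors (avoid_subset _ _ _ hp)
  have hP'p : ∀ p ∈ P', p.Prime := fun p hp =>
    Nat.prime_of_mem_primeFactors (avoid_subset _ _ _ hp)
  have hx0 : 0 < x := Gcd.quo_pos hv.ne'
  have hy0 : 0 < y := Gcd.quo_pos hw.ne'
  have hxR : (0 : ℝ) < x := by exact_mod_cast hx0
  have hyR : (0 : ℝ) < y := by exact_mod_cast hy0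
  set a := (y : ℝ) * ψ with ha
  set b := (x : ℝ) * ψ' with hb
  have ha0 : 0 < a := mul_pos hyR hψ
  have hb0 : 0 < b := mul_pos hxR hψ'
  set R := max a b / min a b with hR
  have hmin : 0 < min a b := lt_min ha0 hb0
  have hmax : 0 < max a b := lt_of_lt_of_le ha0 (le_max_left _ _)
  have hR1 : 1 ≤ R := by rw [hR, le_div_iff₀ hmin, one_mul]; exact min_le_max
  have hRa : max a b ≤ a * R := by
    rw [hR, ← mul_div_assoc, le_div_iff₀ hmin, mul_comm a]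
    exact mul_le_mul_of_nonneg_left (min_le_left _ _) hmax.le
  have hRb : max a b ≤ b * R := by
    rw [hR, ← mul_div_assoc, le_div_iff₀ hmin, mul_comm b]
    exact mul_le_mul_of_nonneg_left (min_le_right _ _) hmax.le
  have hkey := exc_key hψ hψ' hψs hψs' h h' v w hv hw hne k hco hkill hwin R hR1 hRa hRb
  rw [← hx, ← hy] at hkey
  have hD : max a b = (a * b) ^ (1 / 2 : ℝ) * R ^ (1 / 2 : ℝ) := by
    rw [← Real.mul_rpow (by positivity) (by positivity), hR,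
      show a * b * (max a b / min a b) = max a b * max a b by
        rw [← max_mul_min a b]; field_simp,
      ← Real.sqrt_eq_rpow, Real.sqrt_mul_self hmax.le]
  set K := coinc P P' (reg γ ψ).1 (reg γ ψ').1 (reg γ ψ).2 (reg γ ψ').2 x y k with hK
  have hK0 : 0 ≤ K := prod_nonneg fun p hp =>
    zero_le_one.trans (div_pred_le (hPp p (mem_inter.1 (mem_filter.1 (mem_filter.1 hp).1).1).1)).1
  have hKle : ∀ n, 0 < n → (∀ p ∈ P ∩ P', p ∈ n.primeFactors) → rho n * K ≤ 1 := by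
    intro n hn hsub
    set T := ((P ∩ P').filter fun p => ¬ p ∣ x ∧ ¬ p ∣ y).filter
      (fun p : ℕ => (p : ℤ) ∣ coF (reg γ ψ).1 (reg γ ψ').1 (reg γ ψ).2 (reg γ ψ').2 x y k)
    have hTsub : T ⊆ n.primeFactors := fun p hp =>
      hsub p (mem_filter.1 (mem_filter.1 hp).1).1
    rw [Gcd.rho_eq_prod hn.ne', ← prod_sdiff hTsub, hK, coinc, mul_assoc, ← prod_mul_distrib]
    rw [prod_eq_one (s := T) fun p hp => ?_, mul_one]
    · exact prod_le_one (fun p hp => (Gcd.one_sub_inv_pos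
        (Nat.prime_of_mem_primeFactors (mem_sdiff.1 hp).1)).le) fun p _ => Gcd.one_sub_inv_le_one p
    · have h1 : (1 : ℝ) < p := by
        exact_mod_cast (Nat.prime_of_mem_primeFactors (hTsub hp)).one_lt
      field_simp [show (p : ℝ) - 1 ≠ 0 by linarith]
  have hρv := Gcd.rho_nonneg v
  have hρw := Gcd.rho_nonneg w
  have hρK : rho v * rho w * K ≤ (rho v * rho w) ^ (1 / 2 : ℝ) := by
    rw [← Real.sqrt_eq_rpow]
    refine Real.le_sqrt_of_sq_le ?_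
    have h1 := hKle v hv fun p hp => avoid_subset _ _ _ (mem_inter.1 hp).1
    have h2 := hKle w hw fun p hp => avoid_subset _ _ _ (mem_inter.1 hp).2
    calc (rho v * rho w * K) ^ 2 = rho v * rho w * ((rho v * K) * (rho w * K)) := by ring
      _ ≤ rho v * rho w * (1 * 1) := by gcongr
      _ = _ := by ring
  have hr0 : ∀ n : ℕ, (0 : ℝ) < rad n := fun n => lt_of_lt_of_le one_pos (one_le_rad n)
  have hkx : killX P P' x y ≤ C₀ * C₀ * (rad x * rad y) ^ (1 / 8 : ℝ) := by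
    unfold killX
    refine (mul_le_mul (hX P x hPp hx0) (hX P' y hP'p hy0) (stepLoss_nonneg hP'p y)
      (mul_nonneg hC₀.le (Real.rpow_nonneg (hr0 x).le _))).trans (le_of_eq ?_)
    rw [Real.mul_rpow (hr0 x).le (hr0 y).le]; ring
  set r := rad x * rad y with hr
  have hrpos : 0 < r := mul_pos (hr0 x) (hr0 y)
  set q := (x : ℝ) * y with hq
  have hqpos : 0 < q := mul_pos hxR hyR
  have homg : omg x * omg y = q ^ (-(3 / 8) : ℝ) * r ^ (-(3 / 4) : ℝ) := by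
    rw [hq, hr, Real.mul_rpow hxR.le hyR.le, Real.mul_rpow (hr0 x).le (hr0 y).le, omg, omg]
    ring
  set N := (rho v * ψ) * (rho w * ψ') with hN
  have hN0 : 0 ≤ N := mul_nonneg (mul_nonneg hρv hψ.le) (mul_nonneg hρw hψ'.le)
  have hNamgm : N ^ (1 / 2 : ℝ) ≤ rho v * ψ + rho w * ψ' := by
    rw [← Real.sqrt_eq_rpow, Real.sqrt_le_iff]
    have := mul_nonneg hρv hψ.le
    have := mul_nonneg hρw hψ'.le
    exact ⟨by linarith, by rw [hN]; nlinarith⟩
  have hX0 : 0 ≤ killX P P' x y := mul_nonneg (stepLoss_nonneg hPp x) (stepLoss_nonneg hP'p y)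
  have hψψ : 0 < ψ * ψ' := mul_pos hψ hψ'
  have hfr : ψ * ψ' / max a b = (ψ * ψ') ^ (1 / 2 : ℝ) / (q ^ (1 / 2 : ℝ) * R ^ (1 / 2 : ℝ)) := by
    have e : (a * b) ^ (1 / 2 : ℝ) = (ψ * ψ') ^ (1 / 2 : ℝ) * q ^ (1 / 2 : ℝ) := by
      rw [← Real.mul_rpow hψψ.le hqpos.le, ha, hb, hq]; ring_nf
    have e2 : (ψ * ψ') ^ (1 / 2 : ℝ) * (ψ * ψ') ^ (1 / 2 : ℝ) = ψ * ψ' := by
      rw [← Real.rpow_add hψψ]; norm_num
    rw [hD, e]
    field_simp
    linear_combination -e2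
  have hNe : (ψ * ψ') ^ (1 / 2 : ℝ) * (rho v * rho w) ^ (1 / 2 : ℝ) = N ^ (1 / 2 : ℝ) := by
    rw [← Real.mul_rpow hψψ.le (mul_nonneg hρv hρw), hN]; ring_nf
  have hq8 : q ^ (1 / 8 : ℝ) / q ^ (1 / 2 : ℝ) = q ^ (-(3 / 8) : ℝ) := by
    rw [← Real.rpow_sub hqpos]; norm_num
  have hr8 : r ^ (1 / 8 : ℝ) = r ^ (7 / 8 : ℝ) * r ^ (-(3 / 4) : ℝ) := by
    rw [← Real.rpow_add hrpos]; norm_num
  calc ψ * ψ' / max a b * (rho v * rho w) * killX P P' x y * K
      = ψ * ψ' / max a b * (rho v * rho w * K) * killX P P' x y := by ring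
    _ ≤ ψ * ψ' / max a b * (rho v * rho w) ^ (1 / 2 : ℝ) * (C₀ * C₀ * r ^ (1 / 8 : ℝ)) :=
        mul_le_mul (mul_le_mul_of_nonneg_left hρK (div_nonneg hψψ.le hmax.le)) hkx hX0
          (mul_nonneg (div_nonneg hψψ.le hmax.le) (Real.rpow_nonneg (mul_nonneg hρv hρw) _))
    _ = C₀ * C₀ * N ^ (1 / 2 : ℝ) *
          (r ^ (7 / 8 : ℝ) / (q ^ (1 / 2 : ℝ) * R ^ (1 / 2 : ℝ))) * r ^ (-(3 / 4) : ℝ) := by
        rw [hfr, hr8, ← hNe]; ring
    _ ≤ C₀ * C₀ * N ^ (1 / 2 : ℝ) * (1024 * q ^ (-(3 / 8) : ℝ)) * r ^ (-(3 / 4) : ℝ) := by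
        refine mul_le_mul_of_nonneg_right (mul_le_mul_of_nonneg_left ?_ (by positivity))
          (Real.rpow_nonneg hrpos.le _)
        rw [div_le_iff₀ (by positivity), ← hq8]
        refine hkey.trans (le_of_eq ?_)
        field_simp
    _ = C₀ * C₀ * 1024 * (N ^ (1 / 2 : ℝ) * (omg x * omg y)) := by rw [homg]; ring
    _ ≤ _ := by
        gcongr
        exact mul_nonneg (omg_nonneg _) (omg_nonneg _)

end

end Vale.Agent.P028.Sel
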