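import Vale.Agent.P028.FullMeasure
import Vale.Agent.P028.Gcd.Weights

/-!
# A weighted second moment criterion for full measure
-/

open MeasureTheory Set Finset

namespace Vale.Agent.P028.Sel

noncomputable section

/-- The weighted counting function of the intervals of `q`. -/
def wcnt (γ δ : ℝ) (c : ℤ → ℝ) (q : ℕ) (x : ℝ) : ℝ :=
  ∑ a ∈ idx γ q, c a * (ivl γ δ q a).indicator (fun _ => (1 : ℝ)) x

/-- The numerators with centre in the `i`-th of `M` cells. -/
def cell (γ : ℝ) (q M i : ℕ) : Finset ℤ :=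
  (idx γ q).filter fun a : ℤ =>
    (i : ℝ) / M ≤ ((a : ℝ) + γ) / q ∧ ((a : ℝ) + γ) / q < ((i : ℝ) + 1) / M

lemma integrable_wcnt (γ δ : ℝ) (c : ℤ → ℝ) (q : ℕ) : Integrable (wcnt γ δ c q) volume :=
  integrable_finsetSum _ fun a _ => (integrable_ivl γ δ q a).const_mul (c a)

lemma integrable_pair (γ γ' δ δ' : ℝ) (q q' : ℕ) (a b : ℤ) :
    Integrable ((ivl γ δ q a ∩ ivl γ' δ' q' b).indicator (fun _ => (1 : ℝ))) volume :=
  (integrableOn_const (ne_top_of_le_ne_top (by simp [ivl]) (measure_mono Set.inter_subset_left)) :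
    IntegrableOn (fun _ => (1 : ℝ)) (ivl γ δ q a ∩ ivl γ' δ' q' b) volume).integrable_indicator
    (measurableSet_Ioo.inter measurableSet_Ioo)

lemma wcnt_mul (γ γ' δ δ' : ℝ) (c c' : ℤ → ℝ) (q q' : ℕ) (x : ℝ) :
    wcnt γ δ c q x * wcnt γ' δ' c' q' x = ∑ a ∈ idx γ q, ∑ b ∈ idx γ' q',
      c a * c' b * (ivl γ δ q a ∩ ivl γ' δ' q' b).indicator (fun _ => (1 : ℝ)) x := by
  classical
  simp only [wcnt, Finset.sum_mul_sum]
  refine Finset.sum_congr rfl fun a _ => Finset.sum_congr rfl fun b _ => ?_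
  simp only [Set.indicator_apply, Set.mem_inter_iff]
  split_ifs with h1 h2 h3 <;> simp_all

lemma integrable_wcnt_mul (γ γ' δ δ' : ℝ) (c c' : ℤ → ℝ) (q q' : ℕ) :
    Integrable (fun x => wcnt γ δ c q x * wcnt γ' δ' c' q' x) volume := by
  simp only [wcnt_mul]
  exact integrable_finsetSum _ fun a _ => integrable_finsetSum _
    fun b _ => (integrable_pair γ γ' δ δ' q q' a b).const_mul _

/-- The overlap of two weighted families. -/
def ovl (γ γ' δ δ' : ℝ) (c c' : ℤ → ℝ) (q q' : ℕ) : ℝ :=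
  ∑ a ∈ idx γ q, ∑ b ∈ idx γ' q', c a * c' b * volume.real (ivl γ δ q a ∩ ivl γ' δ' q' b)

lemma integral_wcnt_mul (γ γ' δ δ' : ℝ) (c c' : ℤ → ℝ) (q q' : ℕ) :
    ∫ x, wcnt γ δ c q x * wcnt γ' δ' c' q' x = ovl γ γ' δ δ' c c' q q' := by
  have hint := fun a b => (integrable_pair γ γ' δ δ' q q' a b).const_mul (c a * c' b)
  simp only [wcnt_mul, ovl]
  rw [integral_finsetSum _ (fun a _ => integrable_finsetSum _ (fun b _ => hint a b))]
  refine Finset.sum_congr rfl fun a _ => ?_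
  rw [integral_finsetSum _ (fun b _ => hint a b)]
  refine Finset.sum_congr rfl fun b _ => ?_
  rw [integral_const_mul]
  simp [integral_indicator (measurableSet_Ioo.inter measurableSet_Ioo), ivl]

variable (γ : ℕ → ℝ) (δ : ℕ → ℝ) (c : ℕ → ℤ → ℝ)

/-- Large `q` put mass proportional to their measure into an open set. -/
lemma wcnt_lower (c₀ : ℝ) (hc₀ : 0 ≤ c₀) (q M : ℕ) (hq : 0 < q) (hM : 0 < M)
    (hδ : 0 ≤ δ q) (hc : ∀ a, 0 ≤ c q a)
    (hloc : ∀ i < M, c₀ * Gcd.rho q * (q / M) ≤ ∑ a ∈ cell (γ q) q M i, c q a)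
    (U : Set ℝ) (r : ℝ) (hr : 1 / (M : ℝ) + δ q / q < r) :
    2 * c₀ * (Gcd.rho q * δ q) * volume.real (core U r) ≤
      ∫ x in U, wcnt (γ q) (δ q) (c q) q x := by
  classical
  have hqR : (0 : ℝ) < q := by exact_mod_cast hq
  have hMR : (0 : ℝ) < M := by exact_mod_cast hM
  set I := (Finset.range M).filter fun i : ℕ =>
    (core U r ∩ Set.Ico ((i : ℝ) / M) (((i : ℝ) + 1) / M)).Nonempty with hI
  have hcover : core U r ⊆ ⋃ i ∈ I, Set.Ico ((i : ℝ) / M) (((i : ℝ) + 1) / M) := by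
    intro x hx
    obtain ⟨⟨hx0, hx1⟩, -⟩ := id hx
    set i : ℕ := ⌊(M : ℝ) * x⌋₊ with hi
    have h1 := Nat.floor_le (show 0 ≤ (M : ℝ) * x by positivity)
    have h2 := Nat.lt_floor_add_one ((M : ℝ) * x)
    rw [← hi] at h1 h2
    have hmem : x ∈ Set.Ico ((i : ℝ) / M) (((i : ℝ) + 1) / M) :=
      ⟨(div_le_iff₀ hMR).2 (by linarith), (lt_div_iff₀ hMR).2 (by linarith)⟩
    simp only [Set.mem_iUnion]
    refine ⟨i, Finset.mem_filter.2 ⟨Finset.mem_range.2 ?_, x, hx, hmem⟩, hmem⟩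
    have : (i : ℝ) < M := lt_of_le_of_lt h1 (by nlinarith)
    exact_mod_cast this
  have hcell : ∀ i : ℕ, volume (Set.Ico ((i : ℝ) / M) (((i : ℝ) + 1) / M))
      = ENNReal.ofReal (1 / M) := fun i => by
    rw [Real.volume_Ico]; congr 1; ring
  have hcore : volume.real (core U r) ≤ (I.card : ℝ) * (1 / M) := by
    have h2 : volume (core U r) ≤ (I.card : ENNReal) * ENNReal.ofReal (1 / M) := by
      refine (measure_mono hcover).trans ((measure_biUnion_finset_le _ _).trans ?_)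
      simp only [hcell, Finset.sum_const, nsmul_eq_mul, le_refl]
    have h3 : ((I.card : ENNReal) * ENNReal.ofReal (1 / M)) ≠ ⊤ :=
      ENNReal.mul_ne_top (by simp) ENNReal.ofReal_ne_top
    have := ENNReal.toReal_mono h3 h2
    rwa [ENNReal.toReal_mul, ENNReal.toReal_natCast,
      ENNReal.toReal_ofReal (by positivity)] at this
  set G := I.biUnion fun i => cell (γ q) q M i with hG
  have hdisj : (I : Set ℕ).PairwiseDisjoint fun i => cell (γ q) q M i := by
    intro i _ j _ hij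
    refine Finset.disjoint_left.2 fun a ha hb => hij ?_
    obtain ⟨-, a1, a2⟩ := Finset.mem_filter.1 ha
    obtain ⟨-, b1, b2⟩ := Finset.mem_filter.1 hb
    have h1 : (i : ℝ) < j + 1 := by
      have := lt_of_le_of_lt a1 b2; rwa [div_lt_div_iff_of_pos_right hMR] at this
    have h2 : (j : ℝ) < i + 1 := by
      have := lt_of_le_of_lt b1 a2; rwa [div_lt_div_iff_of_pos_right hMR] at this
    have h1' : i < j + 1 := by exact_mod_cast h1
    have h2' : j < i + 1 := by exact_mod_cast h2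
    omega
  have hsub : ∀ a ∈ G, a ∈ idx (γ q) q ∧ ivl (γ q) (δ q) q a ⊆ U := by
    intro a ha
    obtain ⟨i, hi, hai⟩ := Finset.mem_biUnion.1 ha
    obtain ⟨-, x, hx, hxi⟩ := Finset.mem_filter.1 hi
    obtain ⟨haidx, a1, a2⟩ := Finset.mem_filter.1 hai
    refine ⟨haidx, fun y hy => hx.2 ?_⟩
    have hy' : (((a : ℝ) + γ q) / q - δ q / q < y) ∧ (y < ((a : ℝ) + γ q) / q + δ q / q) := by
      simp only [ivl, Set.mem_Ioo] at hy
      constructor
      · rw [← sub_div]; exact hy.1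
      · rw [← add_div]; exact hy.2
    rw [Metric.mem_ball, Real.dist_eq]
    refine lt_of_lt_of_le ?_ hr.le
    have hxi1 := hxi.1
    have hxi2 := hxi.2
    have e : ((i : ℝ) + 1) / M = (i : ℝ) / M + 1 / M := add_div _ _ _
    rw [e] at hxi2 a2
    rw [abs_lt]
    constructor <;> linarith [hy'.1, hy'.2]
  have hlow : c₀ * Gcd.rho q * (q / M) * I.card ≤ ∑ a ∈ G, c q a := by
    rw [hG, Finset.sum_biUnion hdisj, mul_comm, ← nsmul_eq_mul]
    exact Finset.card_nsmul_le_sum _ _ _ fun i hi =>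
      hloc i (Finset.mem_range.1 (Finset.mem_filter.1 hi).1)
  have hint : ∫ x in U, wcnt (γ q) (δ q) (c q) q x =
      ∑ a ∈ idx (γ q) q, c q a * volume.real (U ∩ ivl (γ q) (δ q) q a) := by
    unfold wcnt
    rw [integral_finsetSum _
      (fun a _ => ((integrable_ivl (γ q) (δ q) q a).const_mul _).integrableOn)]
    refine Finset.sum_congr rfl fun a _ => ?_
    rw [integral_const_mul, setIntegral_indicator (by exact measurableSet_Ioo)]
    simp
  have hρ := Gcd.rho_nonneg q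
  calc 2 * c₀ * (Gcd.rho q * δ q) * volume.real (core U r)
      ≤ 2 * c₀ * (Gcd.rho q * δ q) * ((I.card : ℝ) * (1 / M)) :=
        mul_le_mul_of_nonneg_left hcore (by positivity)
    _ = c₀ * Gcd.rho q * (q / M) * I.card * (2 * δ q / q) := by field_simp
    _ ≤ (∑ a ∈ G, c q a) * (2 * δ q / q) :=
        mul_le_mul_of_nonneg_right hlow (by positivity)
    _ = ∑ a ∈ G, c q a * volume.real (U ∩ ivl (γ q) (δ q) q a) := by
        rw [Finset.sum_mul]
        refine Finset.sum_congr rfl fun a ha => ?_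
        rw [Set.inter_eq_right.2 (hsub a ha).2, volume_ivl _ _ _ _ hδ]
    _ ≤ ∫ x in U, wcnt (γ q) (δ q) (c q) q x := by
        rw [hint]
        exact Finset.sum_le_sum_of_subset_of_nonneg (fun a ha => (hsub a ha).1)
          fun a _ _ => mul_nonneg (hc a) measureReal_nonneg

/-- The total measure of a family. -/
def fam (F : Finset ℕ) : ℝ := ∑ q ∈ F, Gcd.rho q * δ q

/-- Good second moments along families of arbitrarily large `q`. -/
def GoodFamilies : Prop :=
  ∃ K : ℝ, ∀ N : ℕ, ∃ F : Finset ℕ, (∀ q ∈ F, N ≤ q) ∧ 0 < fam δ F ∧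
    ∑ q ∈ F, ∑ q' ∈ F, ovl (γ q) (γ q') (δ q) (δ q') (c q) (c q') q q' ≤ K * fam δ F ^ 2

/-- The coefficients are equidistributed in short intervals. -/
def Equi : Prop :=
  ∃ c₀ : ℝ, 0 < c₀ ∧ ∀ M : ℕ, 0 < M → ∃ N : ℕ, ∀ q, N ≤ q → ∀ i < M,
    c₀ * Gcd.rho q * (q / M) ≤ ∑ a ∈ cell (γ q) q M i, c q a

lemma null_of_avoid' (hδ : ∀ q, 0 ≤ δ q) (hδ1 : ∀ q, δ q ≤ 1 / 2) (hc : ∀ q a, 0 ≤ c q a)
    (heq : Equi γ c) (hgood : GoodFamilies γ δ c) (B : Set ℝ) (hB : MeasurableSet B)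
    (hB01 : B ⊆ Set.Ico 0 1) (n0 : ℕ)
    (havoid : ∀ q, n0 ≤ q → ∀ x ∈ B, wcnt (γ q) (δ q) (c q) q x = 0) : volume B = 0 := by
  obtain ⟨c₀, hc₀, heq⟩ := heq
  obtain ⟨K, hgood⟩ := hgood
  by_contra hne
  have hBtop : volume B ≠ ⊤ := ne_top_of_le_ne_top (by simp) (measure_mono hB01)
  set m : ℝ := volume.real B with hm
  have hm0 : 0 < m := ENNReal.toReal_pos hne hBtop
  set C : ℝ := max K 1 / c₀ ^ 2 with hC
  have hC0 : 0 < C := by
    rw [hC]; exact div_pos (lt_of_lt_of_le one_pos (le_max_right _ _)) (by positivity)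
  set η : ℝ := m ^ 2 / (4 * C) with hη
  have hη0 : 0 < η := by positivity
  obtain ⟨U, hBU, hUo, hUfin⟩ := Set.exists_isOpen_lt_add B hBtop
    (show ENNReal.ofReal η ≠ 0 by simpa using hη0)
  have hUtop : volume U ≠ ⊤ := ne_top_of_lt hUfin
  have hdiff : volume.real (U \ B) ≤ η := by
    have h1 : volume (U \ B) ≤ ENNReal.ofReal η := by
      rw [measure_sdiff hBU hB.nullMeasurableSet hBtop]
      exact tsub_le_iff_left.2 hUfin.le
    exact ENNReal.toReal_le_of_le_ofReal hη0.le h1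
  have hmono : Monotone (fun n : ℕ => core U (1 / ((n : ℝ) + 1))) := by
    intro i j hij x hx
    refine ⟨hx.1, (Metric.ball_subset_ball ?_).trans hx.2⟩
    gcongr
  have hunion : B ⊆ ⋃ n : ℕ, core U (1 / ((n : ℝ) + 1)) := by
    intro x hx
    obtain ⟨e, he, hball⟩ := Metric.isOpen_iff.1 hUo x (hBU hx)
    obtain ⟨n, hn⟩ := exists_nat_one_div_lt he
    exact Set.mem_iUnion.2 ⟨n, hB01 hx, (Metric.ball_subset_ball hn.le).trans hball⟩
  have hlt : ENNReal.ofReal (m / 2) < volume (⋃ n : ℕ, core U (1 / ((n : ℝ) + 1))) := by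
    refine lt_of_lt_of_le ?_ (measure_mono hunion)
    rw [← ENNReal.ofReal_toReal hBtop]
    exact (ENNReal.ofReal_lt_ofReal_iff (by exact hm0)).2 (by
      change m / 2 < m
      linarith)
  rw [hmono.measure_iUnion] at hlt
  obtain ⟨n, hn⟩ := lt_iSup_iff.1 hlt
  have hcore : m / 2 ≤ volume.real (core U (1 / ((n : ℝ) + 1))) :=
    (ENNReal.ofReal_le_iff_le_toReal
      (ne_top_of_le_ne_top (show volume (Set.Ico (0 : ℝ) 1) ≠ ⊤ by simp)
        (measure_mono (fun x hx => hx.1)))).1 hn.le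
  obtain ⟨N0, hN0⟩ := heq (3 * (n + 1)) (by omega)
  obtain ⟨F, hFN, hS, hFK⟩ := hgood (max (max n0 N0) (3 * (n + 1)))
  set S : ℝ := fam δ F with hSdef
  have hFq : ∀ q ∈ F, n0 ≤ q ∧ N0 ≤ q ∧ 3 * (n + 1) ≤ q := by
    intro q hq
    have := hFN q hq
    simp only [max_le_iff] at this
    exact ⟨this.1.1, this.1.2, this.2⟩
  set f : ℝ → ℝ := fun x => (∑ q ∈ F, wcnt (γ q) (δ q) (c q) q x) / c₀ with hf
  have hsum : Integrable (fun x => ∑ q ∈ F, wcnt (γ q) (δ q) (c q) q x) volume :=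
    integrable_finsetSum _ fun q _ => integrable_wcnt _ _ _ _
  have hfint : Integrable f volume := hsum.div_const _
  have e2 : (fun x => f x ^ 2) = fun x =>
      (∑ q ∈ F, ∑ p ∈ F, wcnt (γ q) (δ q) (c q) q x * wcnt (γ p) (δ p) (c p) p x) / c₀ ^ 2 := by
    funext x; rw [hf, div_pow]; congr 1; rw [sq, Finset.sum_mul_sum]
  have hf2 : Integrable (fun x => f x ^ 2) volume := by
    rw [e2]
    exact (integrable_finsetSum _ fun q _ => integrable_finsetSum _
      fun p _ => integrable_wcnt_mul _ _ _ _ _ _ _ _).div_const _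
  have hsq : ∫ x, f x ^ 2 ≤ C * S ^ 2 := by
    rw [e2, integral_div, hC, div_mul_eq_mul_div]
    refine div_le_div_of_nonneg_right ?_ (sq_nonneg c₀)
    rw [integral_finsetSum _ fun q _ => integrable_finsetSum _
      fun p _ => integrable_wcnt_mul _ _ _ _ _ _ _ _]
    calc ∑ q ∈ F, ∫ x, ∑ p ∈ F, wcnt (γ q) (δ q) (c q) q x * wcnt (γ p) (δ p) (c p) p x
        = ∑ q ∈ F, ∑ p ∈ F, ovl (γ q) (γ p) (δ q) (δ p) (c q) (c p) q p := by
          refine Finset.sum_congr rfl fun q _ => ?_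
          rw [integral_finsetSum _ fun p _ => integrable_wcnt_mul _ _ _ _ _ _ _ _]
          exact Finset.sum_congr rfl fun p _ => integral_wcnt_mul _ _ _ _ _ _ _ _
      _ ≤ K * S ^ 2 := hFK
      _ ≤ max K 1 * S ^ 2 := mul_le_mul_of_nonneg_right (le_max_left _ _) (sq_nonneg _)
  have hlow : m * S ≤ ∫ x in U, f x := by
    rw [hf, integral_div, le_div_iff₀ hc₀,
      integral_finsetSum _ (fun q _ => (integrable_wcnt _ _ _ _).integrableOn), hSdef, fam,
      Finset.mul_sum, Finset.sum_mul]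
    refine Finset.sum_le_sum fun q hq => ?_
    obtain ⟨-, hq1, hq2⟩ := hFq q hq
    have hq0 : 0 < q := by omega
    have hqR : (0 : ℝ) < q := by exact_mod_cast hq0
    have hr : 1 / ((3 * (n + 1) : ℕ) : ℝ) + δ q / q < 1 / ((n : ℝ) + 1) := by
      have h1 : δ q / q ≤ (1 / 2) / (((3 * (n + 1) : ℕ)) : ℝ) :=
        div_le_div₀ (by norm_num) (hδ1 q) (by positivity) (by exact_mod_cast hq2)
      push_cast at h1 ⊢
      have : (0 : ℝ) < (n : ℝ) + 1 := by positivity
      have e : 1 / (3 * ((n : ℝ) + 1)) + 1 / 2 / (3 * ((n : ℝ) + 1))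
          = 1 / 2 * (1 / ((n : ℝ) + 1)) := by field_simp; ring
      have : 0 < 1 / ((n : ℝ) + 1) := by positivity
      linarith
    refine le_trans ?_ (wcnt_lower γ δ c c₀ hc₀.le q _ hq0 (by omega) (hδ q) (hc q)
      (hN0 q hq1) U _ hr)
    have h0 : 0 ≤ c₀ * (Gcd.rho q * δ q) :=
      mul_nonneg hc₀.le (mul_nonneg (Gcd.rho_nonneg q) (hδ q))
    nlinarith [mul_le_mul_of_nonneg_left hcore h0]
  have hzero : ∫ x in B, f x = 0 := by
    apply setIntegral_eq_zero_of_forall_eq_zero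
    intro x hx
    rw [hf]
    simp only
    rw [Finset.sum_eq_zero (fun q hq => havoid q (hFq q hq).1 x hx), zero_div]
  have hsplit : ∫ x in U, f x = ∫ x in U \ B, f x := by
    rw [setIntegral_sdiff hB hfint.integrableOn hBU, hzero, sub_zero]
  set t : ℝ := m / (2 * C * S) with ht
  have ht0 : 0 < t := by positivity
  have hUBtop : volume (U \ B) ≠ ⊤ := ne_top_of_le_ne_top hUtop (measure_mono Set.sdiff_subset)
  have hconst : IntegrableOn (fun _ : ℝ => 1 / (2 * t)) (U \ B) volume := integrableOn_const hUBtop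
  have hup : ∫ x in U \ B, f x ≤ t / 2 * (C * S ^ 2) + η * (1 / (2 * t)) := by
    calc ∫ x in U \ B, f x ≤ ∫ x in U \ B, (t / 2 * f x ^ 2 + 1 / (2 * t)) := by
          apply setIntegral_mono hfint.integrableOn
            ((hf2.const_mul _).integrableOn.add hconst)
          intro x
          simp only [Pi.add_apply]
          rw [← sub_nonneg]
          have : t / 2 * f x ^ 2 + 1 / (2 * t) - f x = (t * f x - 1) ^ 2 / (2 * t) := by
            field_simp; ring
          rw [this]; positivity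
      _ = (∫ x in U \ B, t / 2 * f x ^ 2) + ∫ x in U \ B, 1 / (2 * t) :=
          integral_add (hf2.const_mul _).integrableOn hconst
      _ ≤ _ := by
          refine add_le_add ?_ ?_
          · rw [integral_const_mul]
            refine mul_le_mul_of_nonneg_left ?_ (by positivity)
            exact (setIntegral_le_integral hf2
              (Filter.Eventually.of_forall (fun x => sq_nonneg _))).trans hsq
          · rw [setIntegral_const, smul_eq_mul]
            exact mul_le_mul_of_nonneg_right hdiff (by positivity)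
  have hfin : t / 2 * (C * S ^ 2) + η * (1 / (2 * t)) = m * S / 4 + m * S / 4 := by
    rw [ht, hη]; field_simp; ring
  have : m * S ≤ m * S / 2 := by linarith
  nlinarith [mul_pos hm0 hS]

/-- Full measure criterion for arbitrary shifts and weights. -/
theorem ae_infinite_of_good (hδ : ∀ q, 0 ≤ δ q) (hδ1 : ∀ q, δ q ≤ 1 / 2)
    (hc : ∀ q a, 0 ≤ c q a) (heq : Equi γ c) (hgood : GoodFamilies γ δ c) :
    ∀ᵐ x : ℝ, {q : ℕ | 1 ≤ q ∧ ∃ a : ℤ, |(q : ℝ) * x - a - γ q| < δ q}.Infinite := by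
  rw [ae_iff]
  set B : ℕ → Set ℝ := fun n => Set.Ico (0 : ℝ) 1 ∩
    {x | ∀ q, n ≤ q → 1 ≤ q → ∀ a : ℤ, ¬ |(q : ℝ) * x - a - γ q| < δ q} with hB
  have hmeas : ∀ n, MeasurableSet (B n) := by
    intro n
    refine measurableSet_Ico.inter (IsClosed.measurableSet ?_)
    simp only [not_lt, Set.ofPred_forall]
    refine isClosed_iInter (fun q => isClosed_iInter (fun _ => isClosed_iInter (fun _ =>
      isClosed_iInter (fun a => isClosed_le continuous_const (by fun_prop)))))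
  have hnull : ∀ n, volume (B n) = 0 := fun n =>
    null_of_avoid' γ δ c hδ hδ1 hc heq hgood (B n) (hmeas n) Set.inter_subset_left (max n 1)
      (fun q hq x hx => by
        apply Finset.sum_eq_zero
        intro a _
        rw [Set.indicator_of_notMem, mul_zero]
        intro hmem
        have hq0 : 0 < q := by omega
        have hqR : (0 : ℝ) < q := by exact_mod_cast hq0
        simp only [ivl, Set.mem_Ioo, div_lt_iff₀ hqR, lt_div_iff₀ hqR] at hmem
        exact hx.2 q (by omega) (by omega) a (abs_lt.2 ⟨by linarith [hmem.1, mul_comm x (q : ℝ)],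
          by linarith [hmem.2, mul_comm x (q : ℝ)]⟩))
  refine measure_mono_null (t := ⋃ n : ℕ, ⋃ k : ℤ, (fun x : ℝ => x + (k : ℝ)) ⁻¹' (B n)) ?_ ?_
  · intro x hx
    simp only [Set.mem_ofPred_eq, Set.not_infinite] at hx
    obtain ⟨n, hn⟩ := hx.bddAbove
    simp only [Set.mem_iUnion, Set.mem_preimage]
    refine ⟨n + 1, -⌊x⌋, ⟨by push_cast; linarith [Int.floor_le x],
      by push_cast; linarith [Int.lt_floor_add_one x]⟩, ?_⟩
    intro q hqn hq1 a ha
    have : q ≤ n := hn ⟨hq1, a + (q : ℤ) * ⌊x⌋, by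
      push_cast at ha ⊢
      convert ha using 2
      ring⟩
    omega
  · simp [measure_iUnion_null_iff, hnull]

end

end Vale.Agent.P028.Sel
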