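import Vale.Agent.P028.Sel.Families

/-!
# Full measure when `ψ` is log-monotone along its support

Balanced pairs have nearly equal radii `ψ(q)/q`, so they only join comparable bands as soon as
`ψ(w) ^ K ≤ ψ(v)` for `v ≤ w ≤ v/ψ(v)`. All other pairs are handled by the plain bound.
-/

open MeasureTheory Finset

namespace Vale.Agent.P028.Sel

noncomputable section

open Gcd (rho quo wt msr tot mass level)
open scoped Classical

/-- The denominators can form a balanced pair. -/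
def Near (ψ : ℕ → ℝ) (v w : ℕ) : Prop :=
  v ≤ w → (w : ℝ) * ψ v ≤ v ∧ ψ v ^ 2 ≤ ψ w

/-- What a balanced pair knows about the two denominators. -/
lemma near_of_balanced {ψ : ℕ → ℝ} {v w i j : ℕ} (hv : 0 < v) (hvw : v ≤ w) (hψv : 0 < ψ v)
    (hψw : 0 < ψ w) (hi : (quo w v : ℝ) * ψ v ≤ (1 / 2 : ℝ) ^ i) (hi1 : (quo w v : ℝ) * ψ v < 1)
    (hj : (1 / 2 : ℝ) ^ (j + 1) < (quo v w : ℝ) * ψ w)
    (hij : j + 1 ≤ i + min i j) :
    (w : ℝ) * ψ v ≤ v ∧ ψ v ^ 2 ≤ ψ w := by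
  set x := quo v w
  set y := quo w v
  set g := v.gcd w
  have e1 : (x : ℝ) * g = v := by exact_mod_cast quo_mul_gcd v w
  have e2 : (y : ℝ) * g = w := by
    simp only [y, g]; rw [Nat.gcd_comm]; exact_mod_cast quo_mul_gcd w v
  have hgR : (0 : ℝ) < g := by exact_mod_cast Nat.gcd_pos_of_pos_left w hv
  have hx : (1 : ℝ) ≤ x := by exact_mod_cast Gcd.quo_pos hv.ne'
  have hy : (1 : ℝ) ≤ y := by
    exact_mod_cast Gcd.quo_pos (show w ≠ 0 by omega)
  have hxy : (x : ℝ) ≤ y := by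
    refine le_of_mul_le_mul_right ?_ hgR
    rw [e1, e2]; exact_mod_cast hvw
  set P := (y : ℝ) * ψ v
  set Q := (x : ℝ) * ψ w
  have hP0 : 0 < P := by positivity
  have hQ0 : 0 < Q := by positivity
  constructor
  · calc (w : ℝ) * ψ v = P * g := by simp only [P]; rw [← e2]; ring
      _ ≤ (x : ℝ) * g := mul_le_mul_of_nonneg_right (hi1.le.trans hx) hgR.le
      _ = v := e1
  · have h1 : ψ v ≤ (1 / 2 : ℝ) ^ i := le_trans (le_mul_of_one_le_left hψv.le hy) hi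
    have h2 : P * ψ v ≤ Q := by
      calc P * ψ v ≤ (1 / 2 : ℝ) ^ i * (1 / 2) ^ i := mul_le_mul hi h1 hψv.le (by positivity)
        _ = (1 / 2 : ℝ) ^ (i + i) := (pow_add _ _ _).symm
        _ ≤ (1 / 2 : ℝ) ^ (j + 1) :=
            pow_le_pow_of_le_one (by norm_num) (by norm_num) (by omega)
        _ ≤ Q := hj.le
    refine le_of_mul_le_mul_left ?_ (show (0 : ℝ) < y by linarith)
    calc (y : ℝ) * ψ v ^ 2 = P * ψ v := by simp only [P]; ring
      _ ≤ Q := h2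
      _ ≤ (y : ℝ) * ψ w := mul_le_mul_of_nonneg_right hxy hψw.le

/-- The kernel at levels `D < 1`: easy levels, or two denominators that are near. -/
lemma offK_split {γ τ θ : ℝ} (hθ' : θ ≤ 1) {ψ : ℕ → ℝ} {M n₁ : ℕ}
    (hn₁ : 3 ≤ θ * n₁) {v w : ℕ} (hv : 0 < v) (hw : 0 < w)
    (hψv : (1 / 2 : ℝ) ^ M ≤ ψ v) (hψw : (1 / 2 : ℝ) ^ M ≤ ψ w) :
    offK γ τ ψ v w ≤
      ∑ e ∈ (range (M + 1) ×ˢ range (M + 1)).filter (fun e => Easy θ n₁ e.1 e.2),
        (2 : ℝ) ^ (min e.1 e.2 + 1) *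
          level τ 2 ((1 / 2 : ℝ) ^ e.1) ((1 / 2 : ℝ) ^ e.2) ψ ψ v w +
      if Near ψ v w ∧ Near ψ w v then offK γ τ ψ v w else 0 := by
  set R := (range (M + 1) ×ˢ range (M + 1)).filter fun e => Easy θ n₁ e.1 e.2
  have h1 : ∀ e ∈ R, 0 ≤ (2 : ℝ) ^ (min e.1 e.2 + 1) *
      level τ 2 ((1 / 2 : ℝ) ^ e.1) ((1 / 2 : ℝ) ^ e.2) ψ ψ v w := fun e _ =>
    mul_nonneg (by positivity) (Gcd.level_nonneg zero_le_two ψ ψ v w)
  by_cases hnear : Near ψ v w ∧ Near ψ w v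
  · rw [if_pos hnear]; exact le_add_of_nonneg_left (sum_nonneg h1)
  rw [if_neg hnear, add_zero]
  have hv0 : 0 < ψ v := lt_of_lt_of_le (by positivity) hψv
  have hw0 : 0 < ψ w := lt_of_lt_of_le (by positivity) hψw
  unfold offK narrowK
  split_ifs with hne hc
  · exact sum_nonneg h1
  swap
  · exact sum_nonneg h1
  obtain ⟨hD, -⟩ := hc
  set P := (quo w v : ℝ) * ψ v with hP
  set Q := (quo v w : ℝ) * ψ w with hQ
  have hDPQ : scaleD (ψ v) (ψ w) v w = max P Q := rfl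
  rw [hDPQ] at hD ⊢
  have hlt : (1 / 2 : ℝ) ^ (M + 1) < (1 / 2 : ℝ) ^ M :=
    pow_lt_pow_right_of_lt_one₀ (by norm_num) (by norm_num) (by omega)
  have hPl : (1 / 2 : ℝ) ^ (M + 1) < P := hlt.trans_le (hψv.trans
    (le_mul_of_one_le_left hv0.le (by exact_mod_cast Gcd.quo_pos hw.ne')))
  have hQl : (1 / 2 : ℝ) ^ (M + 1) < Q := hlt.trans_le (hψw.trans
    (le_mul_of_one_le_left hw0.le (by exact_mod_cast Gcd.quo_pos hv.ne')))
  have hP1 : P < 1 := lt_of_le_of_lt (le_max_left P Q) hD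
  have hQ1 : Q < 1 := lt_of_le_of_lt (le_max_right P Q) hD
  obtain ⟨i, hi, hi1, hi2⟩ := exists_dyadic hP1 hPl
  obtain ⟨j, hj, hj1, hj2⟩ := exists_dyadic hQ1 hQl
  by_cases heasy : Easy θ n₁ i j
  · set W := wt τ 2 (quo v w * quo w v) with hWdef
    have hW : 0 ≤ W := Gcd.wt_nonneg zero_le_two _
    refine le_trans ?_ (single_le_sum h1 (show (i, j) ∈ R from
      mem_filter.2 ⟨mem_product.2 ⟨mem_range.2 (by omega), mem_range.2 (by omega)⟩, heasy⟩))
    simp only [level]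
    rw [if_pos ⟨hi2, hj2⟩]
    have h : (1 / 2 : ℝ) ^ (min i j + 1) < max P Q := by
      rcases min_choice i j with h | h <;> rw [h]
      · exact hi1.trans_le (le_max_left _ _)
      · exact hj1.trans_le (le_max_right _ _)
    rw [div_le_iff₀ (lt_trans (by positivity) h)]
    calc W = (2 : ℝ) ^ (min i j + 1) * W * (1 / 2) ^ (min i j + 1) := by
          rw [mul_right_comm, ← mul_pow]; norm_num
      _ ≤ _ := by gcongr
  exfalso
  apply hnear
  unfold Easy at heasy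
  rw [not_or, not_and_or, not_le, not_le, not_lt] at heasy
  obtain ⟨hbig, hclose⟩ := heasy
  rw [abs_le] at hclose
  have hmin0 : (0 : ℝ) ≤ ((min i j : ℕ) : ℝ) := Nat.cast_nonneg _
  have hθn : θ * ((min i j : ℕ) : ℝ) ≤ ((min i j : ℕ) : ℝ) := mul_le_of_le_one_left hmin0 hθ'
  have hij : 2 * j ≤ 2 * i + min i j ∧ 2 * i ≤ 2 * j + min i j := by
    constructor
    · have : ((2 * j : ℕ) : ℝ) ≤ ((2 * i + min i j : ℕ) : ℝ) := by
        push_cast at hclose hθn ⊢; linarith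
      exact_mod_cast this
    · have : ((2 * i : ℕ) : ℝ) ≤ ((2 * j + min i j : ℕ) : ℝ) := by
        push_cast at hclose hθn ⊢; linarith
      exact_mod_cast this
  have hn₁3 : 3 ≤ n₁ := by
    have : (3 : ℝ) ≤ n₁ := hn₁.trans (mul_le_of_le_one_left (Nat.cast_nonneg _) hθ')
    exact_mod_cast this
  refine ⟨fun hvw => ?_, fun hwv => ?_⟩
  · exact near_of_balanced hv hvw hv0 hw0 hi2 hP1 hj1 (by omega)
  · exact near_of_balanced hw hwv hw0 hv0 hj2 hQ1 hi1 (by omega)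

/-- The easy levels, over any number of bands. -/
lemma easy_sum {θ : ℝ} (hθ : 0 < θ) (hθ' : θ ≤ 1) (n₁ : ℕ) : ∃ C : ℝ, 0 < C ∧
    ∀ (ψ : ℕ → ℝ) (F : Finset ℕ) (M : ℕ), (∀ q, 0 ≤ ψ q) → 0 ∉ F →
      ∑ e ∈ (range (M + 1) ×ˢ range (M + 1)).filter (fun e => Easy θ n₁ e.1 e.2),
        (2 : ℝ) ^ (min e.1 e.2 + 1) * mass (msr ψ) (msr ψ)
          (level (θ / 32) 2 ((1 / 2 : ℝ) ^ e.1) ((1 / 2 : ℝ) ^ e.2) ψ ψ) F F ≤
        C * (tot (msr ψ) F + tot (msr ψ) F ^ (3 / 2 : ℝ)) := by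
  obtain ⟨Cb, hCb, hB⟩ := level_term (ε := θ / 32) (θ := θ / 32) (by linarith) (by linarith)
    (by linarith)
  set r : ℝ := (2 : ℝ) ^ (-(θ / 20)) with hr
  have hr0 : 0 ≤ r := by positivity
  have hr1 : r < 1 := Real.rpow_lt_one_of_one_lt_of_neg (by norm_num) (by linarith)
  have hrm : 0 < 1 - r := by linarith
  set P0 := (2 : ℝ) ^ (θ / 32 * (4 * n₁)) * ((2 * n₁ + 1) * (2 * n₁ + 1) : ℝ) with hP0
  refine ⟨Cb * (P0 + (1 / (1 - r)) ^ 2), by positivity, fun ψ F M hψ h0 => ?_⟩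
  set T := tot (msr ψ) F + tot (msr ψ) F ^ (3 / 2 : ℝ)
  have hT : 0 ≤ T := add_nonneg (Gcd.tot_nonneg (Gcd.msr_nonneg hψ) F)
    (Real.rpow_nonneg (Gcd.tot_nonneg (Gcd.msr_nonneg hψ) F) _)
  set R := (range (M + 1) ×ˢ range (M + 1)).filter fun e => Easy θ n₁ e.1 e.2
  rw [← sum_filter_add_sum_filter_not R fun e => e.1 ≤ 2 * n₁ ∧ e.2 ≤ 2 * n₁,
    show Cb * (P0 + (1 / (1 - r)) ^ 2) * T = Cb * P0 * T + Cb * (1 / (1 - r)) ^ 2 * T by ring]
  refine add_le_add (le_trans (sum_le_sum (g := fun _ => Cb * (2 : ℝ) ^ (θ / 32 * (4 * n₁)) * T)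
    fun e he => ?_) ?_) (le_trans (sum_le_sum (g := fun e => Cb * T * (r ^ e.1 * r ^ e.2))
    fun e he => ?_) ?_)
  · obtain ⟨-, he1, he2⟩ := mem_filter.1 he
    refine hB ψ F e.1 e.2 _ hψ h0 ?_
    have h1 : (e.1 : ℝ) ≤ 2 * n₁ := by exact_mod_cast he1
    have h2 : (e.2 : ℝ) ≤ 2 * n₁ := by exact_mod_cast he2
    push_cast
    have := min_le_left (e.1 : ℝ) e.2
    have := min_le_right (e.1 : ℝ) e.2
    nlinarith
  · rw [sum_const, nsmul_eq_mul, hP0]
    have hc : ((R.filter fun e => e.1 ≤ 2 * n₁ ∧ e.2 ≤ 2 * n₁).card : ℝ) ≤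
        (2 * n₁ + 1) * (2 * n₁ + 1) := by
      have hsub : (R.filter fun e => e.1 ≤ 2 * n₁ ∧ e.2 ≤ 2 * n₁) ⊆
          range (2 * n₁ + 1) ×ˢ range (2 * n₁ + 1) := fun e he => mem_product.2
        ⟨mem_range.2 (by have := (mem_filter.1 he).2.1; omega),
          mem_range.2 (by have := (mem_filter.1 he).2.2; omega)⟩
      exact_mod_cast (card_le_card hsub).trans_eq (by simp)
    refine (mul_le_mul_of_nonneg_right hc (by positivity)).trans (le_of_eq ?_)
    ring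
  · obtain ⟨heR, hne⟩ := mem_filter.1 he
    have hgap := ((mem_filter.1 heR).2).resolve_left hne
    refine (hB ψ F e.1 e.2 (-(θ / 20) * ((e.1 : ℝ) + e.2)) hψ h0 ?_).trans (le_of_eq ?_)
    · push_cast at hgap ⊢
      have hd : |(e.1 : ℝ) - e.2| = (e.1 : ℝ) + e.2 - 2 * min (e.1 : ℝ) e.2 := by
        rcases le_total (e.1 : ℝ) e.2 with h | h
        · rw [min_eq_left h, abs_of_nonpos (by linarith)]; ring
        · rw [min_eq_right h, abs_of_nonneg (by linarith)]; ring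
      rw [hd] at hgap
      have hmn : 0 ≤ min (e.1 : ℝ) e.2 := le_min (Nat.cast_nonneg _) (Nat.cast_nonneg _)
      nlinarith [mul_nonneg hθ.le hmn]
    · rw [← pow_add, hr, ← Real.rpow_natCast ((2 : ℝ) ^ (-(θ / 20))),
        ← Real.rpow_mul (by norm_num)]
      push_cast
      ring
  · rw [← mul_sum]
    exact (mul_le_mul_of_nonneg_left (sum_geo_sq hr0 hr1 _) (by positivity)).trans_eq (by ring)

/-- The window of a denominator: its band, measured in powers of `B`. -/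
def bwin (B : ℕ) (δ : ℕ → ℝ) (q : ℕ) : ℕ := Nat.log B (bandOf δ q)

/-- Near denominators lie in neighbouring windows. -/
lemma bwin_near {δ : ℕ → ℝ} {K B v w : ℕ} (hB : 4 * K + 4 ≤ B) (hv : 0 < δ v)
    (hw : 0 < δ w) (hv1 : δ v ≤ 1 / 4) (hw1 : δ w ≤ 1 / 4)
    (h2 : δ v ^ 2 ≤ δ w) (hK : δ w ^ K ≤ δ v) :
    bwin B δ v ≤ bwin B δ w + 1 ∧ bwin B δ w ≤ bwin B δ v + 1 := by
  obtain ⟨a1, a2⟩ := bandOf_spec hv (lt_of_le_of_lt hv1 (by norm_num))
  obtain ⟨b1, b2⟩ := bandOf_spec hw (lt_of_le_of_lt hw1 (by norm_num))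
  set lv := bandOf δ v
  set lw := bandOf δ w
  have hlv : 1 ≤ lv := by
    by_contra hc
    rw [show lv = 0 by omega] at a1
    norm_num at a1; linarith
  have hlw : 1 ≤ lw := by
    by_contra hc
    rw [show lw = 0 by omega] at b1
    norm_num at b1; linarith
  have e1 : lv ≤ (lw + 1) * K := by
    have h := ((pow_le_pow_left₀ (by positivity) b1.le K).trans hK).trans a2
    rw [← pow_mul] at h
    exact (pow_le_pow_iff_right_of_lt_one₀ (by norm_num) (by norm_num)).1 h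
  have e2 : lw ≤ (lv + 1) * 2 := by
    have h := ((pow_le_pow_left₀ (by positivity) a1.le 2).trans h2).trans b2
    rw [← pow_mul] at h
    exact (pow_le_pow_iff_right_of_lt_one₀ (by norm_num) (by norm_num)).1 h
  have f1 : lv ≤ lw * B := by nlinarith
  have f2 : lw ≤ lv * B := by nlinarith
  constructor <;> simp only [bwin]
  · exact (Nat.log_mono_right f1).trans_eq (Nat.log_mul_base (by omega) (by omega))
  · exact (Nat.log_mono_right f2).trans_eq (Nat.log_mul_base (by omega) (by omega))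

/-- Full measure for small log-monotone `δ`. -/
lemma ae_mono_small (K : ℕ) : ∃ L : ℕ, 4 ≤ L ∧ ∀ (γ : ℝ) (δ : ℕ → ℝ),
    (∀ q, 0 ≤ δ q) → (∀ q, δ q ≤ (1 / 2 : ℝ) ^ L) → δ 0 = 0 →
    (∀ v w : ℕ, v ≤ w → δ v ≠ 0 → δ w ≠ 0 → (w : ℝ) * δ v ≤ v → δ w ^ K ≤ δ v) →
    ¬ Summable (fun q : ℕ => rho q * δ q) →
    ∀ᵐ x : ℝ, {q : ℕ | 1 ≤ q ∧ ∃ a : ℤ, |(q : ℝ) * x - a - γ| < δ q}.Infinite := by
  obtain ⟨Cn, L₀, hCn, hnar⟩ := narrow_sum 1 one_pos
  obtain ⟨Cm, hCm, hmom⟩ := mom_le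
  have hg0 : 0 < gainExp := by norm_num [gainExp]
  have hg1 : gainExp ≤ 1 := by norm_num [gainExp]
  set n₁ := ⌈3 / gainExp⌉₊
  have hn₁ : 3 ≤ gainExp * n₁ := by
    have h := Nat.le_ceil (3 / gainExp)
    rw [div_le_iff₀ hg0] at h
    linarith
  obtain ⟨Ce, hCe, heasy⟩ := easy_sum hg0 hg1 n₁
  set B := max L₀ (4 * K + 4) with hB
  refine ⟨B ^ 2, le_trans (by omega : 4 ≤ B) (Nat.le_self_pow (by norm_num) B), ?_⟩
  intro γ δ hδ hδL hδ0 hmono hdiv
  have hB4 : 4 ≤ B := by omega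
  have hL4 : 4 ≤ B ^ 2 := hB4.trans (Nat.le_self_pow (by norm_num) B)
  have hδ16 : ∀ q, δ q ≤ 1 / 16 := fun q => le_sixteenth hL4 (hδL q)
  have hδ2 : ∀ q, δ q ≤ 1 / 2 := fun q => (hδ16 q).trans (by norm_num)
  have hband : ∀ q, 0 < δ q → 2 ≤ bwin B δ q ∧
      B ^ bwin B δ q ≤ bandOf δ q ∧ bandOf δ q + 1 ≤ B ^ (bwin B δ q + 1) := by
    intro q hq
    obtain ⟨h1, -⟩ := bandOf_spec hq (lt_of_le_of_lt (hδ2 q) (by norm_num))
    have hl : B ^ 2 ≤ bandOf δ q := by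
      have := (pow_lt_pow_iff_right_of_lt_one₀ (by norm_num : (0 : ℝ) < 1 / 2) (by norm_num)).1
        (h1.trans_le (hδL q))
      omega
    exact ⟨Nat.le_log_of_pow_le (by omega) hl, Nat.pow_log_le_self B (by omega),
      Nat.lt_pow_succ_log_self (by omega) _⟩
  refine ae_of_moments hδ hδ2
    ⟨Cm * (6 + Ce * 6 + Cn * (1 + (B : ℝ) ^ 2) * 12), fun N => ?_⟩
  set μ := msr δ with hμdef
  have hμ : ∀ q, 0 ≤ μ q := Gcd.msr_nonneg hδ
  obtain ⟨u, hu, hu1⟩ : ∃ u : Finset ℕ, (∀ q ∈ u, N ≤ q ∧ δ q ≠ 0) ∧ 1 ≤ tot μ u := by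
    by_contra hcon
    push Not at hcon
    refine hdiv (summable_of_sum_le (c := ∑ q ∈ range N, μ q + 1) hμ fun u => ?_)
    rw [← sum_filter_add_sum_filter_not u (fun q => q < N)]
    refine add_le_add (sum_le_sum_of_subset_of_nonneg
      (fun q hq => mem_range.2 (mem_filter.1 hq).2) fun q _ _ => hμ q) ?_
    refine le_of_eq_of_le (sum_subset (filter_subset (fun q => δ q ≠ 0) _) fun q hq hq' => ?_).symm
      (hcon _ fun q hq => ⟨not_lt.1 (mem_filter.1 (mem_filter.1 hq).1).2, (mem_filter.1 hq).2⟩).le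
    have hz : δ q = 0 := not_not.1 fun hp => hq' (mem_filter.2 ⟨hq, hp⟩)
    show rho q * δ q = 0
    rw [hz, mul_zero]
  obtain ⟨F, hFu, hS1, hS2⟩ := exists_sub (msr_le_one hδ hδ2) u hu1
  set S := tot μ F with hSdef
  refine ⟨F, fun q hq => (hu q (hFu hq)).1, by linarith, ?_⟩
  have hFpos : ∀ q ∈ F, 0 < δ q := fun q hq =>
    lt_of_le_of_ne (hδ q) (Ne.symm (hu q (hFu hq)).2)
  have h0 : 0 ∉ F := fun h => (hFpos 0 h).ne' hδ0
  refine (hmom γ (gainExp / 32) δ F (by norm_num [gainExp]) hδ h0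
    fun q hq => ⟨hFpos q hq, hδ16 q⟩).trans ?_
  rw [← hμdef, ← hSdef]
  set O := mass μ μ (offK γ (gainExp / 32) δ) F F
  have hpow : ∀ s : ℝ, 0 ≤ s → s ≤ 2 → s ^ (3 / 2 : ℝ) ≤ 2 * s := by
    intro s hs hs2
    rcases hs.eq_or_lt with h | h
    · rw [← h, Real.zero_rpow (by norm_num), mul_zero]
    · rw [show (3 / 2 : ℝ) = 1 / 2 + 1 by norm_num, Real.rpow_add_one h.ne']
      refine mul_le_mul_of_nonneg_right ?_ hs
      refine (Real.rpow_le_rpow hs (hs2.trans (by norm_num : (2 : ℝ) ≤ 4))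
        (by norm_num)).trans (le_of_eq ?_)
      rw [show (4 : ℝ) = 2 ^ (2 : ℝ) by norm_num, ← Real.rpow_mul (by norm_num)]
      norm_num
  have hO : O ≤ Ce * 6 + Cn * (1 + (B : ℝ) ^ 2) * 12 := by
    set M := F.sup (bandOf δ) + 1 with hM
    have hlo : ∀ q ∈ F, (1 / 2 : ℝ) ^ M ≤ δ q := fun q hq => by
      obtain ⟨h1, -⟩ := bandOf_spec (hFpos q hq) (lt_of_le_of_lt (hδ2 q) (by norm_num))
      exact (pow_le_pow_of_le_one (by norm_num) (by norm_num)
        (Nat.succ_le_succ (le_sup (f := bandOf δ) hq))).trans h1.le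
    have hpos : ∀ q ∈ F, 0 < q := fun q hq => Nat.pos_of_ne_zero fun h => h0 (h ▸ hq)
    set E := fun v w => ∑ e ∈ (range (M + 1) ×ˢ range (M + 1)).filter
        (fun e => Easy gainExp n₁ e.1 e.2), (2 : ℝ) ^ (min e.1 e.2 + 1) *
          level (gainExp / 32) 2 ((1 / 2 : ℝ) ^ e.1) ((1 / 2 : ℝ) ^ e.2) δ δ v w
    set G := fun i => F.filter fun q => i ≤ bwin B δ q ∧ bwin B δ q ≤ i + 1
    have hK0 : ∀ v ∈ F, ∀ w ∈ F, 0 ≤ offK γ (gainExp / 32) δ v w := fun v hv w hw => by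
      unfold offK; split_ifs
      · exact le_rfl
      · exact narrowK_nonneg (hFpos v hv) v (hpos w hw).ne'
    have hpt : ∀ v ∈ F, ∀ w ∈ F, offK γ (gainExp / 32) δ v w ≤ E v w +
        ∑ i ∈ F.image (bwin B δ), if v ∈ G i ∧ w ∈ G i then offK γ (gainExp / 32) δ v w else 0 := by
      intro v hv w hw
      refine (offK_split (γ := γ) (τ := gainExp / 32) hg1 hn₁ (hpos v hv) (hpos w hw)
        (hlo v hv) (hlo w hw)).trans (add_le_add le_rfl ?_)
      have hnn : ∀ i ∈ F.image (bwin B δ), (0 : ℝ) ≤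
          if v ∈ G i ∧ w ∈ G i then offK γ (gainExp / 32) δ v w else 0 := fun i _ => by
        split_ifs
        · exact hK0 v hv w hw
        · exact le_rfl
      split_ifs with hnear
      swap
      · exact sum_nonneg hnn
      have hK4 : 4 * K + 4 ≤ B := le_max_right _ _
      have hd : ∀ a ∈ F, ∀ b ∈ F, a ≤ b → Near δ a b →
          bwin B δ a ≤ bwin B δ b + 1 ∧ bwin B δ b ≤ bwin B δ a + 1 := fun a ha b hb hab hN =>
        bwin_near hK4 (hFpos a ha) (hFpos b hb) ((hδ16 a).trans (by norm_num))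
          ((hδ16 b).trans (by norm_num)) (hN hab).2
          (hmono a b hab (hFpos a ha).ne' (hFpos b hb).ne' (hN hab).1)
      have hclose : bwin B δ v ≤ bwin B δ w + 1 ∧ bwin B δ w ≤ bwin B δ v + 1 := by
        rcases le_total v w with h | h
        · exact hd v hv w hw h hnear.1
        · exact (hd w hw v hv h hnear.2).symm
      rcases le_total (bwin B δ v) (bwin B δ w) with h | h
      · refine le_trans (le_of_eq (if_pos ?_).symm)
          (single_le_sum hnn (mem_image_of_mem (bwin B δ) hv))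
        exact ⟨mem_filter.2 ⟨hv, le_rfl, by omega⟩, mem_filter.2 ⟨hw, h, hclose.2⟩⟩
      · refine le_trans (le_of_eq (if_pos ?_).symm)
          (single_le_sum hnn (mem_image_of_mem (bwin B δ) hw))
        exact ⟨mem_filter.2 ⟨hv, h, hclose.1⟩, mem_filter.2 ⟨hw, le_rfl, by omega⟩⟩
    refine (mass_mono hμ F hpt).trans ?_
    rw [mass_add]
    refine add_le_add ?_ ?_
    · simp only [E]
      rw [mass_comb]
      refine (heasy δ F M hδ h0).trans (mul_le_mul_of_nonneg_left ?_ hCe.le)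
      have := hpow S (Gcd.tot_nonneg hμ F) hS2
      linarith
    have hterm : ∀ i ∈ F.image (bwin B δ),
        mass μ μ (offK γ (gainExp / 32) δ) (G i) (G i) ≤
          Cn * (1 + (B : ℝ) ^ 2) * 3 * tot μ (G i) := by
      intro i hi
      obtain ⟨q, hq, rfl⟩ := mem_image.1 hi
      obtain ⟨h2, -, -⟩ := hband q (hFpos q hq)
      set i := bwin B δ q
      set s := tot μ (G i)
      have hs : 0 ≤ s := Gcd.tot_nonneg hμ _
      have hs2 : s ≤ 2 :=
        (sum_le_sum_of_subset_of_nonneg (filter_subset _ _) fun q _ _ => hμ q).trans hS2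
      refine (hnar γ δ (B ^ i) (B ^ (i + 2)) (G i) hδ (fun h => h0 (mem_filter.1 h).1) ?_
        (Nat.pow_le_pow_right (by omega) (by omega)) ?_ fun p hp => ?_).trans ?_
      · exact le_trans (le_max_left _ _) (Nat.le_self_pow (by omega) B)
      · rw [← pow_mul]; exact Nat.pow_le_pow_right (by omega) (by omega)
      · obtain ⟨hpF, hp1, hp2⟩ := mem_filter.1 hp
        obtain ⟨-, hl1, hl2⟩ := hband p (hFpos p hpF)
        obtain ⟨b1, b2⟩ := bandOf_spec (hFpos p hpF) (lt_of_le_of_lt (hδ2 p) (by norm_num))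
        exact ⟨(pow_le_pow_of_le_one (by norm_num) (by norm_num) (hl2.trans
          (Nat.pow_le_pow_right (by omega) (by omega)))).trans b1.le,
          b2.trans (pow_le_pow_of_le_one (by norm_num) (by norm_num)
            ((Nat.pow_le_pow_right (by omega) hp1).trans hl1))⟩
      have hB0 : (0 : ℝ) < B := by exact_mod_cast (by omega : 0 < B)
      have hratio : ((B ^ (i + 2) : ℕ) : ℝ) / ((B ^ i : ℕ) : ℝ) = (B : ℝ) ^ 2 := by
        push_cast
        rw [pow_add, mul_div_cancel_left₀ _ (pow_ne_zero _ hB0.ne')]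
      rw [hratio, Real.rpow_one]
      have hB1 : (1 : ℝ) ≤ (B : ℝ) ^ 2 := one_le_pow₀ (by exact_mod_cast (by omega : 1 ≤ B))
      have hlog : 1 + Real.log ((B : ℝ) ^ 2) ≤ 1 + (B : ℝ) ^ 2 := by
        have := Real.log_le_sub_one_of_pos (show (0 : ℝ) < (B : ℝ) ^ 2 by positivity)
        linarith
      have hlog0 : 0 ≤ 1 + Real.log ((B : ℝ) ^ 2) := add_nonneg zero_le_one (Real.log_nonneg hB1)
      have := hpow s hs hs2
      calc Cn * (1 + Real.log ((B : ℝ) ^ 2)) * (s + s ^ (3 / 2 : ℝ))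
          ≤ Cn * (1 + (B : ℝ) ^ 2) * (s + 2 * s) := by gcongr
        _ = _ := by ring
    have e : mass μ μ (fun v w => ∑ i ∈ F.image (bwin B δ),
        if v ∈ G i ∧ w ∈ G i then offK γ (gainExp / 32) δ v w else 0) F F =
        ∑ i ∈ F.image (bwin B δ), mass μ μ (offK γ (gainExp / 32) δ) (G i) (G i) := by
      simp only [mass, mul_sum]
      refine (sum_congr rfl fun v _ => sum_comm).trans ?_
      rw [sum_comm]
      refine sum_congr rfl fun i _ => ?_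
      simp only [G, sum_filter, mem_filter, ite_and]
      refine sum_congr rfl fun v hv => ?_
      simp only [hv, if_true]
      split_ifs with h1 h2
      all_goals simp
    rw [e]
    refine (sum_le_sum hterm).trans ?_
    rw [← mul_sum]
    have hcount : ∑ i ∈ F.image (bwin B δ), tot μ (G i) ≤ 2 * S := by
      simp only [G, tot, sum_filter, hSdef]
      rw [sum_comm, mul_sum]
      refine sum_le_sum fun q _ => ?_
      rw [← sum_filter, sum_const, nsmul_eq_mul]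
      refine mul_le_mul_of_nonneg_right ?_ (hμ q)
      have hsub : (F.image (bwin B δ)).filter
          (fun i => i ≤ bwin B δ q ∧ bwin B δ q ≤ i + 1) ⊆
          Icc (bwin B δ q - 1) (bwin B δ q) := fun i hi =>
        mem_Icc.2 ⟨by have := (mem_filter.1 hi).2.2; omega, (mem_filter.1 hi).2.1⟩
      have := (card_le_card hsub).trans_eq (Nat.card_Icc _ _)
      exact_mod_cast (show _ ≤ 2 by omega)
    have : 0 ≤ Cn * (1 + (B : ℝ) ^ 2) * 3 := by positivity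
    nlinarith
  have hSS : 1 ≤ S ^ 2 := one_le_pow₀ hS1
  calc Cm * (S + S ^ 2 + O) ≤ Cm * (2 + 2 ^ 2 + (Ce * 6 + Cn * (1 + (B : ℝ) ^ 2) * 12)) := by
        gcongr
    _ = Cm * (6 + Ce * 6 + Cn * (1 + (B : ℝ) ^ 2) * 12) * 1 := by ring
    _ ≤ _ := by gcongr

/-- Q1 when `ψ` is log-monotone along the relevant part of its support. -/
theorem ae_mono (γ : ℝ) (ψ : ℕ → ℝ) (hψ : ∀ q, 0 ≤ ψ q) (K : ℝ)
    (hK : ∀ᶠ v : ℕ in Filter.atTop, ∀ w : ℕ, v ≤ w → (w : ℝ) * ψ v ≤ v →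
      1 / (v : ℝ) ^ 2 ≤ ψ v → 0 < ψ w → ψ w ^ K ≤ ψ v)
    (h : ¬ Summable fun q : ℕ => rho q * ψ q) :
    ∀ᵐ x : ℝ, {q : ℕ | 1 ≤ q ∧ ∃ a : ℤ, |(q : ℝ) * x - a - γ| < ψ q}.Infinite := by
  set K' := ⌈K⌉₊
  obtain ⟨L, hL4, hsmall⟩ := ae_mono_small K'
  set c := (1 / 2 : ℝ) ^ L with hc
  have hc0 : 0 < c := by positivity
  have hc1 : c ≤ 1 := pow_le_one₀ (by norm_num) (by norm_num)
  obtain ⟨V₀, hV₀⟩ := Filter.eventually_atTop.1 hK
  by_cases hbig : Summable fun q : ℕ => rho q * (if c < ψ q then ψ q else 0)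
  · set δ : ℕ → ℝ := fun q =>
      if max V₀ 1 ≤ q ∧ 1 / (q : ℝ) ^ 2 ≤ ψ q ∧ ψ q ≤ c then ψ q else 0 with hδdef
    have hδ : ∀ q, 0 ≤ δ q := fun q => by simp only [hδdef]; split_ifs <;> simp [hψ q]
    have hδc : ∀ q, δ q ≤ c := fun q => by
      simp only [hδdef]; split_ifs with h1
      · exact h1.2.2
      · exact hc0.le
    have hspec : ∀ q, δ q ≠ 0 →
        (max V₀ 1 ≤ q ∧ 1 / (q : ℝ) ^ 2 ≤ ψ q ∧ ψ q ≤ c) ∧ δ q = ψ q := by
      intro q hq
      simp only [hδdef] at hq ⊢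
      split_ifs at hq ⊢ with h1
      · exact ⟨h1, rfl⟩
      · exact absurd rfl hq
    have hmono : ∀ v w : ℕ, v ≤ w → δ v ≠ 0 → δ w ≠ 0 → (w : ℝ) * δ v ≤ v → δ w ^ K' ≤ δ v := by
      intro v w hvw hv hw hwv
      obtain ⟨⟨hv1, hv2, -⟩, ev⟩ := hspec v hv
      obtain ⟨⟨-, -, hw3⟩, ew⟩ := hspec w hw
      rw [ev] at hwv ⊢
      rw [ew] at hw ⊢
      have hw0 : 0 < ψ w := lt_of_le_of_ne (hψ w) (Ne.symm hw)
      refine le_trans ?_ (hV₀ v (le_trans (le_max_left _ _) hv1) w hvw hwv hv2 hw0)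
      rw [← Real.rpow_natCast]
      exact Real.rpow_le_rpow_of_exponent_ge hw0 (hw3.trans hc1) (Nat.le_ceil K)
    have hdiv : ¬ Summable fun q : ℕ => rho q * δ q := by
      intro hs
      apply h
      refine (summable_nat_add_iff (max V₀ 1)).1 ?_
      refine Summable.of_nonneg_of_le (fun n => mul_nonneg (Gcd.rho_nonneg _) (hψ _)) (fun n => ?_)
        ((summable_nat_add_iff (max V₀ 1)).2
          ((hs.add hbig).add (Real.summable_one_div_nat_pow.2 (by norm_num : 1 < 2))))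
      set q := n + max V₀ 1
      have hρ := Gcd.rho_nonneg q
      have hq2 : (0 : ℝ) ≤ 1 / (q : ℝ) ^ 2 := by positivity
      have hρψ : 0 ≤ rho q * ψ q := mul_nonneg hρ (hψ q)
      simp only [hδdef]
      split_ifs with h1 h2 h2
      · linarith
      · linarith
      · linarith
      · have hlt := not_le.1 fun h3 => h1 ⟨Nat.le_add_left _ _, h3, not_lt.1 h2⟩
        rw [mul_zero, zero_add, zero_add]
        exact (mul_le_of_le_one_left (hψ _) rho_le_one).trans hlt.le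
    have hδ0 : δ 0 = 0 := by
      simp only [hδdef]
      rw [if_neg fun h => by have := h.1; simp at this]
    filter_upwards [hsmall γ δ hδ hδc hδ0 hmono hdiv] with x hx
    refine hx.mono ?_
    rintro q ⟨hq, a, ha⟩
    refine ⟨hq, a, lt_of_lt_of_le ha ?_⟩
    simp only [hδdef]; split_ifs <;> simp [hψ q]
  · refine ae_infinite_extra_power (fun _ => γ) ψ hψ 1 one_pos fun hs => hbig ?_
    refine Summable.of_nonneg_of_le (fun q => mul_nonneg (Gcd.rho_nonneg q) ?_) (fun q => ?_)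
      (hs.mul_left c⁻¹)
    · split_ifs <;> simp [hψ q]
    split_ifs with h1
    · show rho q * ψ q ≤ c⁻¹ * (rho q * ψ q ^ ((1 : ℝ) + 1))
      rw [show (1 : ℝ) + 1 = (2 : ℕ) by norm_num, Real.rpow_natCast,
        show c⁻¹ * (rho q * ψ q ^ 2) = rho q * ψ q * (c⁻¹ * ψ q) by ring]
      refine le_mul_of_one_le_right (mul_nonneg (Gcd.rho_nonneg q) (hψ q)) ?_
      rw [inv_mul_eq_div, one_le_div hc0]
      exact h1.le
    · rw [mul_zero]
      exact mul_nonneg (inv_nonneg.2 hc0.le)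
        (mul_nonneg (Gcd.rho_nonneg q) (Real.rpow_nonneg (hψ q) _))

end

end Vale.Agent.P028.Sel
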