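import Vale.Agent.P028.Sel.Moment
import Vale.Agent.P028.Gcd.Master

/-!
# Overlap of two weighted families, resolved by the lattice parameter
-/

open MeasureTheory Set Finset

namespace Vale.Agent.P028.Sel

noncomputable section

/-- `a q' - b q` divided by the gcd. -/
def lat (q q' : ℕ) (p : ℤ × ℤ) : ℤ :=
  p.1 * (Gcd.quo q' q : ℤ) - p.2 * (Gcd.quo q q' : ℤ)

lemma quo_mul_gcd (q q' : ℕ) : Gcd.quo q q' * q.gcd q' = q :=
  Nat.div_mul_cancel (Nat.gcd_dvd_left q q')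

lemma lat_mul_gcd (q q' : ℕ) (p : ℤ × ℤ) :
    lat q q' p * (q.gcd q' : ℤ) = p.1 * (q' : ℤ) - p.2 * (q : ℤ) := by
  have h1 : (Gcd.quo q q' : ℤ) * (q.gcd q' : ℤ) = q := by exact_mod_cast quo_mul_gcd q q'
  have h2 : (Gcd.quo q' q : ℤ) * (q.gcd q' : ℤ) = q' := by
    rw [Nat.gcd_comm]; exact_mod_cast quo_mul_gcd q' q
  unfold lat
  linear_combination p.1 * h2 - p.2 * h1

open Classical in
/-- The pairs of numerators with a given lattice parameter. -/
def fibre (γ γ' : ℝ) (q q' : ℕ) (k : ℤ) : Finset (ℤ × ℤ) :=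
  (idx γ q ×ˢ idx γ' q').filter fun p => lat q q' p = k

lemma fibre_card (γ γ' : ℝ) (q q' : ℕ) (hq : 0 < q) (hq' : 0 < q') (k : ℤ) :
    ((fibre γ γ' q q' k).card : ℝ) ≤ 6 * (q.gcd q' : ℝ) := by
  refine fiber_card γ q q' hq hq' (k * (q.gcd q' : ℤ)) _ fun p hp => ?_
  obtain ⟨hp1, hp2⟩ := Finset.mem_filter.1 hp
  exact ⟨(Finset.mem_product.1 hp1).1, by rw [← hp2, lat_mul_gcd]⟩

/-- The admissible lattice parameters. -/
def window (γ γ' δ δ' : ℝ) (q q' : ℕ) : Finset ℤ :=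
  (Finset.Icc ⌊γ' * Gcd.quo q q' - γ * Gcd.quo q' q - (Gcd.quo q' q * δ + Gcd.quo q q' * δ')⌋
    ⌈γ' * Gcd.quo q q' - γ * Gcd.quo q' q + (Gcd.quo q' q * δ + Gcd.quo q q' * δ')⌉).filter
    fun k : ℤ => |(k : ℝ) - (γ' * Gcd.quo q q' - γ * Gcd.quo q' q)|
      < Gcd.quo q' q * δ + Gcd.quo q q' * δ'

lemma window_card (γ γ' δ δ' : ℝ) (q q' : ℕ) (hδ : 0 ≤ δ) (hδ' : 0 ≤ δ') :
    ((window γ γ' δ δ' q q').card : ℝ) ≤ 2 * (Gcd.quo q' q * δ + Gcd.quo q q' * δ') + 1 :=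
  card_int_window _ _ _ (by positivity) fun _ hk => (Finset.mem_filter.1 hk).2

/-- The smaller of the two interval lengths. -/
def minlen (δ δ' : ℝ) (q q' : ℕ) : ℝ := min (2 * δ / q) (2 * δ' / q')

lemma minlen_nonneg {δ δ' : ℝ} (hδ : 0 ≤ δ) (hδ' : 0 ≤ δ') (q q' : ℕ) :
    0 ≤ minlen δ δ' q q' := le_min (by positivity) (by positivity)

/-- Overlaps reduce to sums over lattice parameters in the window. -/
lemma ovl_le (γ γ' δ δ' : ℝ) (c c' : ℤ → ℝ) (q q' : ℕ) (hq : 0 < q) (hq' : 0 < q')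
    (hδ : 0 ≤ δ) (hδ' : 0 ≤ δ') (hc : ∀ a, 0 ≤ c a) (hc' : ∀ a, 0 ≤ c' a) :
    ovl γ γ' δ δ' c c' q q' ≤ minlen δ δ' q q' *
      ∑ k ∈ window γ γ' δ δ' q q', ∑ p ∈ fibre γ γ' q q' k, c p.1 * c' p.2 := by
  classical
  have hqR : (0 : ℝ) < q := by exact_mod_cast hq
  have hq'R : (0 : ℝ) < q' := by exact_mod_cast hq'
  have hin : ∀ p : ℤ × ℤ, (ivl γ δ q p.1 ∩ ivl γ' δ' q' p.2).Nonempty →
      lat q q' p ∈ window γ γ' δ δ' q q' := by
    intro p hp
    obtain ⟨x, hx1, hx2⟩ := hp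
    simp only [ivl, Set.mem_Ioo] at hx1 hx2
    rw [div_lt_iff₀ hqR, lt_div_iff₀ hqR] at hx1
    rw [div_lt_iff₀ hq'R, lt_div_iff₀ hq'R] at hx2
    set g : ℝ := (q.gcd q' : ℝ) with hg
    have hg0 : 0 < g := by
      rw [hg]; exact_mod_cast Nat.gcd_pos_of_pos_left q' hq
    have e1 : (Gcd.quo q q' : ℝ) * g = q := by rw [hg]; exact_mod_cast quo_mul_gcd q q'
    have e2 : (Gcd.quo q' q : ℝ) * g = q' := by
      rw [hg, Nat.gcd_comm]; exact_mod_cast quo_mul_gcd q' q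
    have e3 : (lat q q' p : ℝ) * g = (p.1 : ℝ) * q' - (p.2 : ℝ) * q := by
      rw [hg]; exact_mod_cast lat_mul_gcd q q' p
    set x' : ℝ := (Gcd.quo q q' : ℝ)
    set y' : ℝ := (Gcd.quo q' q : ℝ)
    have key : |(lat q q' p : ℝ) - (γ' * x' - γ * y')| < y' * δ + x' * δ' := by
      refine lt_of_mul_lt_mul_right ?_ hg0.le
      rw [← abs_of_pos hg0, ← abs_mul, abs_of_pos hg0, sub_mul, sub_mul, add_mul, e3,
        mul_assoc γ', mul_assoc γ, e1, e2, mul_right_comm y', mul_right_comm x', e1, e2, abs_lt]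
      constructor <;> nlinarith [hx1.1, hx1.2, hx2.1, hx2.2]
    refine Finset.mem_filter.2 ⟨?_, key⟩
    rw [abs_lt] at key
    rw [Finset.mem_Icc]
    constructor
    · exact Int.floor_le_iff.2 (by linarith [key.1])
    · exact Int.le_ceil_iff.2 (by linarith [key.2])
  have hterm : ∀ p : ℤ × ℤ, c p.1 * c' p.2 * volume.real (ivl γ δ q p.1 ∩ ivl γ' δ' q' p.2) ≤
      if lat q q' p ∈ window γ γ' δ δ' q q' then c p.1 * c' p.2 * minlen δ δ' q q' else 0 := by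
    intro p
    by_cases hne : (ivl γ δ q p.1 ∩ ivl γ' δ' q' p.2).Nonempty
    · rw [if_pos (hin p hne)]
      refine mul_le_mul_of_nonneg_left (le_min ?_ ?_) (mul_nonneg (hc _) (hc' _))
      · refine (measureReal_mono Set.inter_subset_left (by simp [ivl])).trans (le_of_eq ?_)
        exact volume_ivl γ δ q p.1 hδ
      · refine (measureReal_mono Set.inter_subset_right (by simp [ivl])).trans (le_of_eq ?_)
        exact volume_ivl γ' δ' q' p.2 hδ'
    · rw [Set.not_nonempty_iff_eq_empty.1 hne]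
      simp only [measureReal_empty, mul_zero]
      split_ifs
      · exact mul_nonneg (mul_nonneg (hc _) (hc' _)) (minlen_nonneg hδ hδ' q q')
      · exact le_rfl
  unfold ovl
  rw [← Finset.sum_product']
  refine (Finset.sum_le_sum fun p _ => hterm p).trans (le_of_eq ?_)
  rw [Finset.mul_sum, ← Finset.sum_filter,
    ← Finset.sum_fiberwise_of_maps_to (g := lat q q') (t := window γ γ' δ δ' q q')
      (fun p hp => (Finset.mem_filter.1 hp).2)]
  refine Finset.sum_congr rfl fun k hk => ?_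
  rw [Finset.mul_sum, Finset.filter_filter]
  refine Finset.sum_congr (Finset.filter_congr fun p _ => ?_) fun p _ => by ring
  exact ⟨fun h => h.2, fun h => ⟨h ▸ hk, h⟩⟩

lemma minlen_le {δ δ' : ℝ} (hδ : 0 ≤ δ) (hδ' : 0 ≤ δ') (q q' : ℕ) (hq : 0 < q) (hq' : 0 < q') :
    minlen δ δ' q q' * (q.gcd q' : ℝ) *
      max (Gcd.quo q' q * δ) (Gcd.quo q q' * δ') ≤ 2 * (δ * δ') := by
  have hqR : (0 : ℝ) < q := by exact_mod_cast hq
  have hq'R : (0 : ℝ) < q' := by exact_mod_cast hq'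
  have hg0 : (0 : ℝ) ≤ (q.gcd q' : ℝ) := Nat.cast_nonneg _
  have e1 : (Gcd.quo q q' : ℝ) * (q.gcd q' : ℝ) = q := by exact_mod_cast quo_mul_gcd q q'
  have e2 : (Gcd.quo q' q : ℝ) * (q.gcd q' : ℝ) = q' := by
    rw [Nat.gcd_comm]; exact_mod_cast quo_mul_gcd q' q
  rw [mul_max_of_nonneg _ _ (mul_nonneg (minlen_nonneg hδ hδ' q q') hg0)]
  refine max_le ?_ ?_
  · calc _ = minlen δ δ' q q' * ((Gcd.quo q' q : ℝ) * (q.gcd q' : ℝ) * δ) := by ring
      _ = minlen δ δ' q q' * (q' * δ) := by rw [e2]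
      _ ≤ 2 * δ' / q' * (q' * δ) := mul_le_mul_of_nonneg_right (min_le_right _ _) (by positivity)
      _ = _ := by field_simp
  · calc _ = minlen δ δ' q q' * ((Gcd.quo q q' : ℝ) * (q.gcd q' : ℝ) * δ') := by ring
      _ = minlen δ δ' q q' * (q * δ') := by rw [e1]
      _ ≤ 2 * δ / q * (q * δ') := mul_le_mul_of_nonneg_right (min_le_left _ _) (by positivity)
      _ = _ := by field_simp

/-- Overlap with constant weights `φ(q)/q`. -/
lemma ovl_const_le (γ γ' δ δ' : ℝ) (q q' : ℕ) (hq : 0 < q) (hq' : 0 < q') (hδ : 0 < δ)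
    (hδ' : 0 < δ') :
    ovl γ γ' δ δ' (fun _ => Gcd.rho q) (fun _ => Gcd.rho q') q q' ≤
      48 * ((Gcd.rho q * δ) * (Gcd.rho q' * δ')) *
        (1 + 1 / max (Gcd.quo q' q * δ) (Gcd.quo q q' * δ')) := by
  set P := (Gcd.quo q' q : ℝ) * δ with hP
  set Q := (Gcd.quo q q' : ℝ) * δ' with hQ
  have hP0 : 0 < P := by
    have := Gcd.quo_pos (w := q) (Nat.pos_iff_ne_zero.1 hq'); positivity
  have hQ0 : 0 < Q := by
    have := Gcd.quo_pos (w := q') (Nat.pos_iff_ne_zero.1 hq); positivity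
  set R := Gcd.rho q * Gcd.rho q'
  have hR : 0 ≤ R := mul_nonneg (Gcd.rho_nonneg _) (Gcd.rho_nonneg _)
  have hmax : 0 < max P Q := lt_of_lt_of_le hP0 (le_max_left _ _)
  have hml := minlen_nonneg hδ.le hδ'.le q q'
  refine (ovl_le γ γ' δ δ' _ _ q q' hq hq' hδ.le hδ'.le (fun _ => Gcd.rho_nonneg _)
    (fun _ => Gcd.rho_nonneg _)).trans ?_
  have h1 : ∑ k ∈ window γ γ' δ δ' q q', ∑ _p ∈ fibre γ γ' q q' k, R ≤
      (2 * (P + Q) + 1) * (6 * (q.gcd q' : ℝ) * R) := by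
    calc _ ≤ ∑ _k ∈ window γ γ' δ δ' q q', 6 * (q.gcd q' : ℝ) * R := by
          refine Finset.sum_le_sum fun k _ => ?_
          rw [Finset.sum_const, nsmul_eq_mul]
          exact mul_le_mul_of_nonneg_right (fibre_card γ γ' q q' hq hq' k) hR
      _ ≤ _ := by
          rw [Finset.sum_const, nsmul_eq_mul]
          exact mul_le_mul_of_nonneg_right (window_card γ γ' δ δ' q q' hδ.le hδ'.le)
            (mul_nonneg (by positivity) hR)
  refine (mul_le_mul_of_nonneg_left h1 hml).trans ?_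
  have h2 : minlen δ δ' q q' * (q.gcd q' : ℝ) ≤ 2 * (δ * δ') / max P Q := by
    rw [le_div_iff₀ hmax]; exact minlen_le hδ.le hδ'.le q q' hq hq'
  have h3 : 2 * (P + Q) + 1 ≤ 4 * max P Q + 1 := by
    linarith [le_max_left P Q, le_max_right P Q]
  calc minlen δ δ' q q' * ((2 * (P + Q) + 1) * (6 * (q.gcd q' : ℝ) * R))
      = minlen δ δ' q q' * (q.gcd q' : ℝ) * (2 * (P + Q) + 1) * (6 * R) := by ring
    _ ≤ 2 * (δ * δ') / max P Q * (4 * max P Q + 1) * (6 * R) := by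
        refine mul_le_mul_of_nonneg_right (mul_le_mul h2 h3 (by linarith) ?_) (by linarith)
        positivity
    _ = 48 * (R * (δ * δ')) + 12 * (R * (δ * δ')) * (1 / max P Q) := by field_simp; ring
    _ ≤ 48 * (R * (δ * δ')) + 48 * (R * (δ * δ')) * (1 / max P Q) := by gcongr; norm_num
    _ = _ := by ring

end

end Vale.Agent.P028.Sel
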