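import Vale.Agent.P028.Sel.Wide
import Vale.Agent.P028.Sel.Linear
import Vale.Agent.P028.Gcd.Plain

/-!
# Overlaps of two selected denominators
-/

open Finset

namespace Vale.Agent.P028.Sel

noncomputable section

open Gcd (rho quo wt msr tot mass level)
open scoped Classical

/-- The lattice parameter `k` is exceptional. -/
def Exc (γ ψ ψ' : ℝ) (v w : ℕ) (k : ℤ) : Prop :=
  HasReg γ ψ ∧ HasReg γ ψ' ∧
    coF (reg γ ψ).1 (reg γ ψ').1 (reg γ ψ).2 (reg γ ψ').2 (quo v w) (quo w v) k = 0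

/-- Some unexceptional lattice parameter lies in the window. -/
def Hit (γ ψ ψ' : ℝ) (v w : ℕ) : Prop :=
  ∃ k : ℤ, |(k : ℝ) - γ * ((quo v w : ℝ) - quo w v)| < (quo w v : ℝ) * ψ + (quo v w : ℝ) * ψ' ∧
    ¬ Exc γ ψ ψ' v w k

/-- The scale of a pair. -/
def scaleD (ψ ψ' : ℝ) (v w : ℕ) : ℝ := max ((quo w v : ℝ) * ψ) ((quo v w : ℝ) * ψ')

/-- The main part of the kernel of a pair at levels `D ≥ 1`. -/
def wideK (ψ ψ' : ℝ) (v w : ℕ) : ℝ :=
  if 1 ≤ scaleD ψ ψ' v w then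
    1 + scaleD ψ ψ' v w ^ (-(7 / 12) : ℝ) * wt (1 / 8) 2 (quo v w * quo w v)
  else 0

/-- The kernel of a pair at levels `D < 1`. -/
def narrowK (γ τ ψ ψ' : ℝ) (v w : ℕ) : ℝ :=
  if scaleD ψ ψ' v w < 1 ∧ Hit γ ψ ψ' v w then
    wt τ 2 (quo v w * quo w v) / scaleD ψ ψ' v w
  else 0

lemma scaleD_pos {ψ ψ' : ℝ} (hψ : 0 < ψ) {v w : ℕ} (hw : w ≠ 0) : 0 < scaleD ψ ψ' v w :=
  lt_of_lt_of_le (mul_pos (by exact_mod_cast Gcd.quo_pos hw) hψ) (le_max_left _ _)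

lemma wideK_nonneg {ψ ψ' : ℝ} (hψ : 0 < ψ) (v : ℕ) {w : ℕ} (hw : w ≠ 0) :
    0 ≤ wideK ψ ψ' v w := by
  unfold wideK; split_ifs
  · exact add_nonneg zero_le_one (mul_nonneg (Real.rpow_nonneg (scaleD_pos hψ hw).le _)
      (Gcd.wt_nonneg zero_le_two _))
  · exact le_rfl

lemma narrowK_nonneg {γ τ ψ ψ' : ℝ} (hψ : 0 < ψ) (v : ℕ) {w : ℕ} (hw : w ≠ 0) :
    0 ≤ narrowK γ τ ψ ψ' v w := by
  unfold narrowK; split_ifs
  · exact div_nonneg (Gcd.wt_nonneg zero_le_two _) (scaleD_pos hψ hw).le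
  · exact le_rfl

lemma coinc_nonneg (γ ψ ψ' : ℝ) (v w : ℕ) (A A' : ℤ) (B B' x y : ℕ) (k : ℤ) :
    0 ≤ coinc (avoid γ ψ v) (avoid γ ψ' w) A A' B B' x y k :=
  prod_nonneg fun _ hp => zero_le_one.trans (div_pred_le (Nat.prime_of_mem_primeFactors
    (avoid_subset _ _ _ (mem_inter.1 (mem_filter.1 (mem_filter.1 hp).1).1).1))).1

lemma killX_nonneg (γ ψ ψ' : ℝ) (v w x y : ℕ) :
    0 ≤ killX (avoid γ ψ v) (avoid γ ψ' w) x y :=
  mul_nonneg (stepLoss_nonneg (fun _ hp => Nat.prime_of_mem_primeFactors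
      (avoid_subset _ _ _ hp)) x)
    (stepLoss_nonneg (fun _ hp => Nat.prime_of_mem_primeFactors (avoid_subset _ _ _ hp)) y)

/-- Overlaps reduce to sums over the surviving lattice parameters. -/
lemma pair_raw (γ ψ ψ' : ℝ) (v w : ℕ) (hv : 0 < v) (hw : 0 < w) (hψ : 0 < ψ) (hψ' : 0 < ψ') :
    ovl γ γ ψ ψ' (sel γ ψ v) (sel γ ψ' w) v w ≤
      16 * (ψ * ψ' / scaleD ψ ψ' v w * (rho v * rho w) *
        ∑ k ∈ (window γ γ ψ ψ' v w).filter (fun k => Kill (avoid γ ψ v) (avoid γ ψ' w) (reg γ ψ).1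
            (reg γ ψ').1 (reg γ ψ).2 (reg γ ψ').2 (quo v w) (quo w v) k),
          killX (avoid γ ψ v) (avoid γ ψ' w) (quo v w) (quo w v) *
            coinc (avoid γ ψ v) (avoid γ ψ' w) (reg γ ψ).1 (reg γ ψ').1 (reg γ ψ).2 (reg γ ψ').2
              (quo v w) (quo w v) k) := by
  refine (ovl_le γ γ ψ ψ' (sel γ ψ v) (sel γ ψ' w) v w hv hw hψ.le hψ'.le (sel_nonneg γ ψ v)
    (sel_nonneg γ ψ' w)).trans ?_
  have hfib : ∀ k ∈ window γ γ ψ ψ' v w,
      ∑ p ∈ fibre γ γ v w k, sel γ ψ v p.1 * sel γ ψ' w p.2 ≤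
      if Kill (avoid γ ψ v) (avoid γ ψ' w) (reg γ ψ).1 (reg γ ψ').1 (reg γ ψ).2 (reg γ ψ').2
          (quo v w) (quo w v) k then
        8 * (v.gcd w : ℝ) * (rho v * rho w) *
          (killX (avoid γ ψ v) (avoid γ ψ' w) (quo v w) (quo w v) *
          coinc (avoid γ ψ v) (avoid γ ψ' w) (reg γ ψ).1 (reg γ ψ').1 (reg γ ψ).2 (reg γ ψ').2
            (quo v w) (quo w v) k)
      else 0 := fun k _ => by
    refine (fibre_sum γ v w hv hw _ _ (avoid_subset γ ψ v) (avoid_subset γ ψ' w) _ _ _ _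
      (fun p hp => (avoid_spec hp).2.2.1) (fun p hp => (avoid_spec hp).2.2.1) k).trans
      (le_of_eq ?_)
    split_ifs
    · ring
    · rfl
  refine (mul_le_mul_of_nonneg_left (sum_le_sum hfib) (minlen_nonneg hψ.le hψ'.le v w)).trans ?_
  rw [← sum_filter, ← mul_sum]
  set sg := ∑ k ∈ _, killX _ _ _ _ * coinc _ _ _ _ _ _ _ _ k
  have hS : 0 ≤ sg := sum_nonneg fun k _ =>
    mul_nonneg (killX_nonneg ..) (coinc_nonneg ..)
  have h2 : minlen ψ ψ' v w * (v.gcd w : ℝ) ≤ 2 * (ψ * ψ') / scaleD ψ ψ' v w := by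
    rw [le_div_iff₀ (scaleD_pos hψ hw.ne')]
    exact minlen_le hψ.le hψ'.le v w hv hw
  calc minlen ψ ψ' v w * (8 * (v.gcd w : ℝ) * (rho v * rho w) * sg)
      = minlen ψ ψ' v w * (v.gcd w : ℝ) * (8 * ((rho v * rho w) * sg)) := by ring
    _ ≤ 2 * (ψ * ψ') / scaleD ψ ψ' v w * (8 * ((rho v * rho w) * sg)) :=
        mul_le_mul_of_nonneg_right h2 (mul_nonneg (by norm_num)
          (mul_nonneg (mul_nonneg (Gcd.rho_nonneg v) (Gcd.rho_nonneg w)) hS))
    _ = _ := by ring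

lemma mem_window_iff {γ ψ ψ' : ℝ} {v w : ℕ} {k : ℤ} (h : k ∈ window γ γ ψ ψ' v w) :
    |(k : ℝ) - γ * ((quo v w : ℝ) - quo w v)| < (quo w v : ℝ) * ψ + (quo v w : ℝ) * ψ' := by
  have := (mem_filter.1 h).2
  rwa [← mul_sub] at this

lemma quo_self {v : ℕ} (hv : 0 < v) : quo v v = 1 := by
  unfold quo
  rw [Nat.gcd_self, Nat.div_self hv]

/-- A denominator with itself. -/
lemma pair_diag (γ ψ : ℝ) (v : ℕ) (hv : 0 < v) (hψ : 0 < ψ) (hψs : ψ ≤ 1 / 16) :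
    ovl γ γ ψ ψ (sel γ ψ v) (sel γ ψ v) v v ≤ 16 * (rho v * ψ) := by
  refine (pair_raw γ ψ ψ v v hv hv hψ hψ).trans ?_
  rw [quo_self hv, scaleD, quo_self hv, Nat.cast_one, one_mul, max_self]
  set P := avoid γ ψ v with hP
  have hPp : ∀ p ∈ P, p.Prime := fun p hp =>
    Nat.prime_of_mem_primeFactors (avoid_subset _ _ _ hp)
  set S := (window γ γ ψ ψ v v).filter fun k => Kill P P (reg γ ψ).1 (reg γ ψ).1 (reg γ ψ).2
    (reg γ ψ).2 1 1 k
  have hS : S.card ≤ 1 := by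
    refine card_le_one.2 fun a ha b hb => ?_
    have h0 : ∀ k ∈ S, k = 0 := fun k hk => by
      have h := mem_window_iff (mem_filter.1 hk).1
      rw [quo_self hv, Nat.cast_one, sub_self, mul_zero, sub_zero, one_mul] at h
      have h1 : |(k : ℝ)| < 1 := by linarith
      by_contra hk0
      exact absurd h1 (not_lt.2 (by exact_mod_cast Int.one_le_abs hk0))
    rw [h0 a ha, h0 b hb]
  have hterm : ∀ k, killX P P 1 1 * coinc P P (reg γ ψ).1 (reg γ ψ).1 (reg γ ψ).2 (reg γ ψ).2 1 1 k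
      ≤ ∏ p ∈ P, (p : ℝ) / ((p : ℝ) - 1) := fun k => by
    have hX : killX P P 1 1 = 1 := by
      have : stepLoss P 1 = 1 := by
        rw [stepLoss, filter_false_of_mem fun p hp h => (hPp p hp).ne_one (Nat.dvd_one.1 h),
          prod_empty]
      rw [killX, this, mul_one]
    rw [hX, one_mul]
    refine prod_le_prod_of_subset_of_one_le (fun p hp => (mem_inter.1 (mem_filter.1
      (mem_filter.1 hp).1).1).1) (fun p hp => ?_) fun p hp _ => (div_pred_le (hPp p hp)).1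
    exact zero_le_one.trans (div_pred_le (hPp p (mem_inter.1 (mem_filter.1
      (mem_filter.1 hp).1).1).1)).1
  set pr := ∏ p ∈ P, (p : ℝ) / ((p : ℝ) - 1)
  have hpr : 0 ≤ pr := prod_nonneg fun p hp => zero_le_one.trans (div_pred_le (hPp p hp)).1
  have hρpr : rho v * pr ≤ 1 := by
    rw [← keepW_mul P hv.ne' (avoid_subset γ ψ v), mul_assoc, ← prod_mul_distrib,
      prod_eq_one fun p hp => ?_, mul_one]
    · exact prod_le_one (fun p hp => (Gcd.one_sub_inv_pos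
        (Nat.prime_of_mem_primeFactors (mem_sdiff.1 hp).1)).le) fun p _ => Gcd.one_sub_inv_le_one p
    · have h1 : (1 : ℝ) < p := by exact_mod_cast (hPp p hp).one_lt
      field_simp [show (p : ℝ) - 1 ≠ 0 by linarith]
  have hρ := Gcd.rho_nonneg v
  have hc : (S.card : ℝ) ≤ 1 := by exact_mod_cast hS
  have hsum : ∑ k ∈ S, killX P P 1 1 *
      coinc P P (reg γ ψ).1 (reg γ ψ).1 (reg γ ψ).2 (reg γ ψ).2 1 1 k ≤ pr := by
    refine (sum_le_sum fun k _ => hterm k).trans ?_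
    rw [sum_const, nsmul_eq_mul]
    exact mul_le_of_le_one_left hpr hc
  rw [mul_div_cancel_right₀ _ hψ.ne']
  refine mul_le_mul_of_nonneg_left ?_ (by norm_num)
  calc ψ * (rho v * rho v) * _ ≤ ψ * (rho v * rho v) * pr :=
        mul_le_mul_of_nonneg_left hsum (by positivity)
    _ = rho v * ψ * (rho v * pr) := by ring
    _ ≤ rho v * ψ * 1 := mul_le_mul_of_nonneg_left hρpr (by positivity)
    _ = _ := mul_one _

/-- At most one exceptional parameter. -/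
lemma exc_unique {γ ψ ψ' : ℝ} {v w : ℕ} {a b : ℤ} (ha : Exc γ ψ ψ' v w a)
    (hb : Exc γ ψ ψ' v w b) : a = b := by
  have h1 := ha.2.2
  have h2 := hb.2.2
  have hB : (((reg γ ψ).2 : ℤ) * (reg γ ψ').2) ≠ 0 := by
    have := reg_pos γ ψ
    have := reg_pos γ ψ'
    positivity
  unfold coF at h1 h2
  exact mul_right_cancel₀ hB (by linear_combination h1 - h2)

/-- A pair at a level `D < 1`. -/
lemma narrow_pair : ∃ C : ℝ, 0 < C ∧ ∀ (γ τ ψ ψ' : ℝ), τ ≤ 1 → 0 < ψ → 0 < ψ' → ∀ (v w : ℕ),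
    0 < v → 0 < w → scaleD ψ ψ' v w < 1 → ∀ S : Finset ℤ,
    (∀ k ∈ S, k ∈ window γ γ ψ ψ' v w ∧ ¬ Exc γ ψ ψ' v w k) →
    ψ * ψ' / scaleD ψ ψ' v w * (rho v * rho w) *
      ∑ k ∈ S, killX (avoid γ ψ v) (avoid γ ψ' w) (quo v w) (quo w v) *
        coinc (avoid γ ψ v) (avoid γ ψ' w) (reg γ ψ).1 (reg γ ψ').1 (reg γ ψ).2 (reg γ ψ').2
          (quo v w) (quo w v) k ≤
      C * (rho v * ψ * (rho w * ψ') * narrowK γ τ ψ ψ' v w) := by
  obtain ⟨K, hK1, hco⟩ := coinc_le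
  refine ⟨5 * (3 * K), by positivity, ?_⟩
  intro γ τ ψ ψ' hτ hψ hψ' v w hv hw hD S hS
  have hD0 : 0 < scaleD ψ ψ' v w := scaleD_pos hψ hw.ne'
  have hρ : 0 ≤ rho v * rho w := mul_nonneg (Gcd.rho_nonneg v) (Gcd.rho_nonneg w)
  have hN := narrowK_nonneg (γ := γ) (τ := τ) (ψ' := ψ') hψ v hw.ne'
  rcases S.eq_empty_or_nonempty with rfl | ⟨k₀, hk₀⟩
  · simp only [sum_empty, mul_zero]
    exact mul_nonneg (by positivity)
      (mul_nonneg (mul_nonneg (mul_nonneg (Gcd.rho_nonneg v) hψ.le)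
        (mul_nonneg (Gcd.rho_nonneg w) hψ'.le)) hN)
  have hhit : Hit γ ψ ψ' v w := ⟨k₀, mem_window_iff (hS k₀ hk₀).1, (hS k₀ hk₀).2⟩
  rw [narrowK, if_pos ⟨hD, hhit⟩]
  set x := quo v w
  set y := quo w v
  set P := avoid γ ψ v
  set P' := avoid γ ψ' w
  set D := scaleD ψ ψ' v w with hDdef
  have hPp : ∀ p ∈ P, p.Prime := fun p hp =>
    Nat.prime_of_mem_primeFactors (avoid_subset _ _ _ hp)
  have hP'p : ∀ p ∈ P', p.Prime := fun p hp =>
    Nat.prime_of_mem_primeFactors (avoid_subset _ _ _ hp)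
  have hxy : Nat.Coprime x y := by
    simp only [x, y]; unfold quo
    rw [Nat.gcd_comm w v]
    exact Nat.coprime_div_gcd_div_gcd (Nat.gcd_pos_of_pos_left _ hv)
  have hW : (y : ℝ) * ψ + (x : ℝ) * ψ' ≤ 2 * D := by
    rw [hDdef, scaleD]
    linarith [le_max_left ((y : ℝ) * ψ) ((x : ℝ) * ψ'), le_max_right ((y : ℝ) * ψ) ((x : ℝ) * ψ')]
  have hcard : (S.card : ℝ) ≤ 5 := by
    refine (card_int_window S _ _ (by positivity) fun k hk => mem_window_iff (hS k hk).1).trans ?_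
    linarith
  have hterm : ∀ k ∈ S, killX P P' x y *
      coinc P P' (reg γ ψ).1 (reg γ ψ').1 (reg γ ψ).2 (reg γ ψ').2 x y k ≤
      wt τ 2 (x * y) * (3 * K) := by
    intro k hk
    refine mul_le_mul (killX_le_wt hPp hP'p hxy (Gcd.quo_pos hv.ne') (Gcd.quo_pos hw.ne') hτ) ?_
      (coinc_nonneg ..) (Gcd.wt_nonneg zero_le_two _)
    refine (hco γ ψ ψ' hψ hψ' v w k hv hw (fun hne h0 => ?_)
      (mem_window_iff (hS k hk).1)).trans ?_
    · obtain ⟨p, hp⟩ := hne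
      exact (hS k hk).2 ⟨(avoid_spec (mem_inter.1 hp).1).1, (avoid_spec (mem_inter.1 hp).2).1, h0⟩
    rw [mul_comm (3 : ℝ) K]
    refine mul_le_mul_of_nonneg_left ?_ (by linarith)
    set T := (coPrimes P P' x y D).filter fun p : ℕ => (p : ℤ) ∣
      coF (reg γ ψ).1 (reg γ ψ').1 (reg γ ψ).2 (reg γ ψ').2 x y k
    have hTp : ∀ p ∈ T, p.Prime := fun p hp =>
      hPp p (mem_inter.1 (mem_filter.1 (mem_filter.1 (mem_filter.1 hp).1).1).1).1
    refine (prod_ratio_le_card T hTp).trans ?_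
    have hl : Real.log (1 + D) ≤ 1 := by
      have := Real.log_le_sub_one_of_pos (show (0 : ℝ) < 1 + D by linarith)
      linarith
    have hsub : T ⊆ Icc 2 3 := fun p hp => by
      refine mem_Icc.2 ⟨(hTp p hp).two_le, ?_⟩
      have h := (mem_filter.1 (mem_filter.1 hp).1).2
      exact_mod_cast (show (p : ℝ) ≤ 3 by linarith)
    have : (T.card : ℝ) ≤ 2 := by exact_mod_cast (card_le_card hsub).trans_eq (by simp)
    linarith
  calc ψ * ψ' / D * (rho v * rho w) * _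
      ≤ ψ * ψ' / D * (rho v * rho w) * (5 * (wt τ 2 (x * y) * (3 * K))) := by
        refine mul_le_mul_of_nonneg_left ((sum_le_sum hterm).trans ?_) (by positivity)
        rw [sum_const, nsmul_eq_mul]
        have := Gcd.wt_nonneg (τ := τ) zero_le_two (x * y)
        gcongr
    _ = _ := by ring

/-- The overlap of two distinct selected denominators. -/
theorem pair_bound : ∃ C : ℝ, 0 < C ∧ ∀ (γ τ ψ ψ' : ℝ), τ ≤ 1 → 0 < ψ → 0 < ψ' →
    ψ ≤ 1 / 16 → ψ' ≤ 1 / 16 → ∀ (v w : ℕ), 0 < v → 0 < w → v ≠ w →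
    ovl γ γ ψ ψ' (sel γ ψ v) (sel γ ψ' w) v w ≤
      C * ((rho v * ψ + rho w * ψ') * (omg (quo v w) * omg (quo w v)) +
        rho v * ψ * (rho w * ψ') * (wideK ψ ψ' v w + narrowK γ τ ψ ψ' v w)) := by
  obtain ⟨Ce, hCe, hexc⟩ := exc_bound
  obtain ⟨Cw, hCw, hwide⟩ := wide_pair
  obtain ⟨Cn, hCn, hnarrow⟩ := narrow_pair
  refine ⟨16 * (Ce + Cw + Cn), by positivity, ?_⟩
  intro γ τ ψ ψ' hτ hψ hψ' hψs hψs' v w hv hw hne
  refine (pair_raw γ ψ ψ' v w hv hw hψ hψ').trans ?_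
  set S := (window γ γ ψ ψ' v w).filter fun k => Kill (avoid γ ψ v) (avoid γ ψ' w) (reg γ ψ).1
    (reg γ ψ').1 (reg γ ψ).2 (reg γ ψ').2 (quo v w) (quo w v) k
  set D := scaleD ψ ψ' v w with hDdef
  have hD0 : 0 < D := scaleD_pos hψ hw.ne'
  set f := fun k => killX (avoid γ ψ v) (avoid γ ψ' w) (quo v w) (quo w v) *
    coinc (avoid γ ψ v) (avoid γ ψ' w) (reg γ ψ).1 (reg γ ψ').1 (reg γ ψ).2 (reg γ ψ').2
      (quo v w) (quo w v) k
  set c := ψ * ψ' / D * (rho v * rho w)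
  have hρ : 0 ≤ rho v * rho w := mul_nonneg (Gcd.rho_nonneg v) (Gcd.rho_nonneg w)
  have hμ : 0 ≤ rho v * ψ * (rho w * ψ') :=
    mul_nonneg (mul_nonneg (Gcd.rho_nonneg v) hψ.le) (mul_nonneg (Gcd.rho_nonneg w) hψ'.le)
  set lin := (rho v * ψ + rho w * ψ') * (omg (quo v w) * omg (quo w v))
  have hlin : 0 ≤ lin := mul_nonneg (add_nonneg (mul_nonneg (Gcd.rho_nonneg v) hψ.le)
    (mul_nonneg (Gcd.rho_nonneg w) hψ'.le)) (mul_nonneg (omg_nonneg _) (omg_nonneg _))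
  have hW := wideK_nonneg (ψ' := ψ') hψ v hw.ne'
  have hN := narrowK_nonneg (γ := γ) (τ := τ) (ψ' := ψ') hψ v hw.ne'
  have hE : c * ∑ k ∈ S.filter (fun k => Exc γ ψ ψ' v w k), f k ≤ Ce * lin := by
    rcases (S.filter fun k => Exc γ ψ ψ' v w k).eq_empty_or_nonempty with h0 | ⟨k, hk⟩
    · rw [h0, sum_empty, mul_zero]; exact mul_nonneg hCe.le hlin
    rw [show (S.filter fun k => Exc γ ψ ψ' v w k) = {k} from eq_singleton_iff_unique_mem.2
      ⟨hk, fun b hb => exc_unique (mem_filter.1 hb).2 (mem_filter.1 hk).2⟩, sum_singleton]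
    obtain ⟨hkS, h, h', h0⟩ := mem_filter.1 hk
    obtain ⟨hwin, hkill⟩ := mem_filter.1 hkS
    simp only [f, c]
    rw [← mul_assoc]
    exact hexc γ ψ ψ' hψ hψ' hψs hψs' h h' v w hv hw hne k h0 hkill (mem_window_iff hwin)
  have hR : c * ∑ k ∈ S.filter (fun k => ¬ Exc γ ψ ψ' v w k), f k ≤
      (Cw + Cn) * (rho v * ψ * (rho w * ψ') * (wideK ψ ψ' v w + narrowK γ τ ψ ψ' v w)) := by
    by_cases hD1 : 1 ≤ D
    · have h := hwide γ ψ ψ' hψ hψ' v w hv hw hD1 (S.filter fun k => ¬ Exc γ ψ ψ' v w k)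
        (fun k hk => mem_window_iff (mem_filter.1 (mem_filter.1 hk).1).1)
        (fun k hk => (mem_filter.1 (mem_filter.1 hk).1).2) fun k hk hne h0 => by
          obtain ⟨p, hp⟩ := hne
          exact (mem_filter.1 hk).2
            ⟨(avoid_spec (mem_inter.1 hp).1).1, (avoid_spec (mem_inter.1 hp).2).1, h0⟩
      refine (mul_le_mul_of_nonneg_left h (by positivity)).trans ?_
      have hw1 : wideK ψ ψ' v w =
          1 + D ^ (-(7 / 12) : ℝ) * wt (1 / 8) 2 (quo v w * quo w v) := by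
        rw [wideK, if_pos hD1]
      change ψ * ψ' / D * (rho v * rho w) * (Cw * D *
        (1 + D ^ (-(7 / 12) : ℝ) * wt (1 / 8) 2 (quo v w * quo w v))) ≤ _
      rw [← hw1]
      calc ψ * ψ' / D * (rho v * rho w) * (Cw * D * wideK ψ ψ' v w)
          = Cw * (rho v * ψ * (rho w * ψ') * wideK ψ ψ' v w) := by field_simp
        _ ≤ (Cw + Cn) * (rho v * ψ * (rho w * ψ') * (wideK ψ ψ' v w + narrowK γ τ ψ ψ' v w)) :=
            mul_le_mul (by linarith) (mul_le_mul_of_nonneg_left (by linarith) hμ)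
              (mul_nonneg hμ hW) (by positivity)
    · refine (hnarrow γ τ ψ ψ' hτ hψ hψ' v w hv hw (not_le.1 hD1) _ fun k hk =>
        ⟨(mem_filter.1 (mem_filter.1 hk).1).1, (mem_filter.1 hk).2⟩).trans ?_
      exact mul_le_mul (by linarith) (mul_le_mul_of_nonneg_left (by linarith) hμ)
        (mul_nonneg hμ hN) (by positivity)
  rw [← sum_filter_add_sum_filter_not S (fun k => Exc γ ψ ψ' v w k), mul_add]
  have h1 : 0 ≤ rho v * ψ * (rho w * ψ') * (wideK ψ ψ' v w + narrowK γ τ ψ ψ' v w) :=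
    mul_nonneg hμ (by linarith)
  calc 16 * (_ + _) ≤ 16 * (Ce * lin + (Cw + Cn) *
        (rho v * ψ * (rho w * ψ') * (wideK ψ ψ' v w + narrowK γ τ ψ ψ' v w))) := by
        gcongr
    _ ≤ 16 * ((Ce + Cw + Cn) * lin + (Ce + Cw + Cn) *
        (rho v * ψ * (rho w * ψ') * (wideK ψ ψ' v w + narrowK γ τ ψ ψ' v w))) := by
        gcongr <;> linarith
    _ = _ := by ring

/-- The exceptional pairs. -/
lemma lin_sum : ∃ C : ℝ, 0 < C ∧ ∀ (μ : ℕ → ℝ) (F : Finset ℕ), (∀ q, 0 ≤ μ q) → 0 ∉ F →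
    ∑ v ∈ F, ∑ w ∈ F, (μ v + μ w) * (omg (quo v w) * omg (quo w v)) ≤ C * tot μ F := by
  obtain ⟨C, hC, homg⟩ := omg_sum
  refine ⟨2 * (C * C), by positivity, fun μ F hμ h0 => ?_⟩
  have hpos : ∀ q ∈ F, 0 < q := fun q hq => Nat.pos_of_ne_zero fun h => h0 (h ▸ hq)
  have hrow : ∀ v ∈ F, ∑ w ∈ F, omg (quo v w) * omg (quo w v) ≤ C * C := by
    intro v hv
    have hinj : Set.InjOn (fun w => (quo v w, quo w v)) F := by
      intro a ha b hb h
      obtain ⟨h1, h2⟩ := Prod.ext_iff.1 h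
      have ea := quo_mul_gcd v a
      have eb := quo_mul_gcd v b
      have fa := quo_mul_gcd a v
      have fb := quo_mul_gcd b v
      simp only at h1 h2
      rw [h1] at ea
      have hg : v.gcd a = v.gcd b :=
        Nat.eq_of_mul_eq_mul_left (Gcd.quo_pos (hpos v hv).ne') (ea.trans eb.symm)
      rw [h2, Nat.gcd_comm, hg, Nat.gcd_comm, fb] at fa
      exact fa.symm
    rw [← sum_image (f := fun e : ℕ × ℕ => omg e.1 * omg e.2) hinj]
    refine le_trans (sum_le_sum_of_subset_of_nonneg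
      (t := (F.image fun w => quo v w) ×ˢ (F.image fun w => quo w v)) (fun e he => ?_)
      fun e _ _ => mul_nonneg (omg_nonneg _) (omg_nonneg _)) ?_
    · obtain ⟨w, hw, rfl⟩ := mem_image.1 he
      exact mem_product.2 ⟨mem_image_of_mem _ hw, mem_image_of_mem _ hw⟩
    · rw [sum_product, ← sum_mul_sum]
      refine mul_le_mul (homg _ fun n hn => ?_) (homg _ fun n hn => ?_)
        (sum_nonneg fun n _ => omg_nonneg n) hC.le
      · obtain ⟨w, -, rfl⟩ := mem_image.1 hn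
        exact Gcd.quo_pos (hpos v hv).ne'
      · obtain ⟨w, hw, rfl⟩ := mem_image.1 hn
        exact Gcd.quo_pos (hpos w hw).ne'
  have h1 : ∑ v ∈ F, ∑ w ∈ F, μ v * (omg (quo v w) * omg (quo w v)) ≤ C * C * tot μ F := by
    simp only [← mul_sum, tot]
    rw [mul_sum]
    exact sum_le_sum fun v hv => by
      rw [mul_comm (C * C)]; exact mul_le_mul_of_nonneg_left (hrow v hv) (hμ v)
  have h2 : ∑ v ∈ F, ∑ w ∈ F, μ w * (omg (quo v w) * omg (quo w v)) ≤ C * C * tot μ F := by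
    rw [sum_comm]
    refine le_trans (le_of_eq (sum_congr rfl fun w _ => sum_congr rfl fun v _ => ?_)) h1
    ring
  simp only [add_mul, sum_add_distrib]
  linarith

end

end Vale.Agent.P028.Sel
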