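import Vale.Agent.P028.Sel.ExtraPower
import Vale.Agent.P028.Sel.Legendre

/-!
# Weights avoiding one class per large prime

A vertex `q` with `γ` close to a rational `A / B` of small height avoids the numerators `a` with
`p ∣ a B + A` for its large primes `p`.
-/

open Finset

namespace Vale.Agent.P028.Sel

noncomputable section

open Gcd (rho)
open scoped Classical

/-- `r` is the regime of scale `ψ`. -/
def InReg (γ ψ : ℝ) (r : ℤ × ℕ) : Prop :=
  0 < r.2 ∧ r.1.natAbs.Coprime r.2 ∧ (r.2 : ℝ) ≤ ψ ^ (-(1 / 64) : ℝ) ∧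
    |γ - r.1 / r.2| ≤ ψ ^ (3 / 4 : ℝ)

/-- Some regime exists. -/
def HasReg (γ ψ : ℝ) : Prop := ∃ r, InReg γ ψ r

/-- The regime, `0/1` by default. -/
def reg (γ ψ : ℝ) : ℤ × ℕ := if h : HasReg γ ψ then h.choose else (0, 1)

lemma reg_spec {γ ψ : ℝ} (h : HasReg γ ψ) : InReg γ ψ (reg γ ψ) := by
  rw [reg, dif_pos h]; exact h.choose_spec

lemma reg_pos (γ ψ : ℝ) : 0 < (reg γ ψ).2 := by
  by_cases h : HasReg γ ψ
  · exact (reg_spec h).1
  · rw [reg, dif_neg h]; exact one_pos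

lemma reg_coprime (γ ψ : ℝ) : (reg γ ψ).1.natAbs.Coprime (reg γ ψ).2 := by
  by_cases h : HasReg γ ψ
  · exact (reg_spec h).2.1
  · rw [reg, dif_neg h]; exact Nat.coprime_one_right _

/-- Two distinct rationals are far apart. -/
lemma rat_gap {r r' : ℤ × ℕ} (h : 0 < r.2) (h' : 0 < r'.2) (hc : r.1.natAbs.Coprime r.2)
    (hc' : r'.1.natAbs.Coprime r'.2) (hne : r ≠ r') :
    1 / ((r.2 : ℝ) * r'.2) ≤ |(r.1 : ℝ) / r.2 - (r'.1 : ℝ) / r'.2| := by
  have hR : (0 : ℝ) < r.2 := by exact_mod_cast h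
  have hR' : (0 : ℝ) < r'.2 := by exact_mod_cast h'
  have hnum : r.1 * (r'.2 : ℤ) - r'.1 * (r.2 : ℤ) ≠ 0 := by
    intro h0
    have e : r.1 * (r'.2 : ℤ) = r'.1 * (r.2 : ℤ) := sub_eq_zero.1 h0
    have e2 : r.1.natAbs * r'.2 = r'.1.natAbs * r.2 := by
      have := congrArg Int.natAbs e
      simpa [Int.natAbs_mul] using this
    have d1 : r.2 ∣ r'.2 := hc.symm.dvd_of_dvd_mul_left ⟨r'.1.natAbs, by rw [e2, mul_comm]⟩
    have d2 : r'.2 ∣ r.2 := hc'.symm.dvd_of_dvd_mul_left ⟨r.1.natAbs, by rw [← e2, mul_comm]⟩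
    have e3 : r.2 = r'.2 := Nat.dvd_antisymm d1 d2
    rw [e3] at e
    exact hne (Prod.ext (mul_right_cancel₀ (by exact_mod_cast h'.ne') e) e3)
  have h1 : (1 : ℝ) ≤ |(r.1 : ℝ) * r'.2 - r'.1 * r.2| := by
    exact_mod_cast Int.one_le_abs hnum
  rw [show (r.1 : ℝ) / r.2 - (r'.1 : ℝ) / r'.2 =
    ((r.1 : ℝ) * r'.2 - r'.1 * r.2) / (r.2 * r'.2) by field_simp, abs_div,
    abs_of_pos (mul_pos hR hR')]
  exact div_le_div_of_nonneg_right h1 (by positivity)

lemma reg_eq {γ ψ : ℝ} (hψ : 0 < ψ) (hψ' : ψ ≤ 1 / 4) {r : ℤ × ℕ} (hr : InReg γ ψ r) :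
    reg γ ψ = r := by
  by_contra hne
  obtain ⟨h1, h2, h3, h4⟩ := reg_spec ⟨r, hr⟩
  obtain ⟨g1, g2, g3, g4⟩ := hr
  have hgap := rat_gap h1 g1 h2 g2 hne
  set s := reg γ ψ
  have hs : (0 : ℝ) < s.2 := by exact_mod_cast h1
  have hr' : (0 : ℝ) < r.2 := by exact_mod_cast g1
  have hB : (s.2 : ℝ) * r.2 ≤ ψ ^ (-(1 / 32) : ℝ) := by
    refine (mul_le_mul h3 g3 hr'.le (by positivity)).trans (le_of_eq ?_)
    rw [← Real.rpow_add hψ]; norm_num
  have hdiff : |(s.1 : ℝ) / s.2 - (r.1 : ℝ) / r.2| ≤ 2 * ψ ^ (3 / 4 : ℝ) := by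
    rw [show (s.1 : ℝ) / s.2 - (r.1 : ℝ) / r.2 = (γ - (r.1 : ℝ) / r.2) - (γ - (s.1 : ℝ) / s.2) by
      ring]
    exact (abs_sub _ _).trans (by linarith)
  have h5 := hgap.trans hdiff
  rw [div_le_iff₀ (by positivity)] at h5
  have h6 : ψ ^ (3 / 4 : ℝ) * ψ ^ (-(1 / 32) : ℝ) < 1 / 2 := by
    rw [← Real.rpow_add hψ]
    refine lt_of_le_of_lt (Real.rpow_le_rpow hψ.le hψ' (by norm_num)) ?_
    rw [show (1 / 4 : ℝ) = (1 / 2) ^ (2 : ℝ) by norm_num, ← Real.rpow_mul (by norm_num)]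
    nth_rewrite 2 [← Real.rpow_one (1 / 2 : ℝ)]
    exact Real.rpow_lt_rpow_of_exponent_gt (by norm_num) (by norm_num) (by norm_num)
  have h7 := mul_le_mul_of_nonneg_left hB (show 0 ≤ 2 * ψ ^ (3 / 4 : ℝ) by positivity)
  linarith

/-- Smooth bound of the regime. -/
def zreg (γ ψ : ℝ) : ℝ :=
  (1 + Real.log (1 + ((reg γ ψ).2 : ℝ) * (1 + |γ - (reg γ ψ).1 / (reg γ ψ).2| / ψ))) / 64

/-- The avoided primes of `q`. -/
def avoid (γ ψ : ℝ) (q : ℕ) : Finset ℕ :=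
  if HasReg γ ψ then q.primeFactors.filter fun p => ¬ p ∣ (reg γ ψ).2 ∧ zreg γ ψ < p else ∅

lemma avoid_spec {γ ψ : ℝ} {q p : ℕ} (hp : p ∈ avoid γ ψ q) :
    HasReg γ ψ ∧ p ∈ q.primeFactors ∧ ¬ p ∣ (reg γ ψ).2 ∧ zreg γ ψ < p := by
  unfold avoid at hp
  split_ifs at hp with h
  · exact ⟨h, (mem_filter.1 hp).1, (mem_filter.1 hp).2⟩
  · simp at hp

lemma avoid_subset (γ ψ : ℝ) (q : ℕ) : avoid γ ψ q ⊆ q.primeFactors := fun _ hp =>
  (avoid_spec hp).2.1

/-- The Euler factor of the primes not avoided. -/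
def keepW (P : Finset ℕ) (q : ℕ) : ℝ := ∏ p ∈ q.primeFactors \ P, (1 - (p : ℝ)⁻¹)

lemma keepW_nonneg (P : Finset ℕ) (q : ℕ) : 0 ≤ keepW P q := prod_nonneg fun _ hp =>
  (Gcd.one_sub_inv_pos (Nat.prime_of_mem_primeFactors (mem_sdiff.1 hp).1)).le

/-- The weight avoiding the class `a B + A ≡ 0` modulo the primes of `P`. -/
def selW (P : Finset ℕ) (A : ℤ) (B q : ℕ) (a : ℤ) : ℝ :=
  if ∀ p ∈ P, ¬ (p : ℤ) ∣ a * B + A then keepW P q else 0

lemma selW_nonneg (P : Finset ℕ) (A : ℤ) (B q : ℕ) (a : ℤ) : 0 ≤ selW P A B q a := by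
  unfold selW; split_ifs
  · exact keepW_nonneg P q
  · exact le_rfl

/-- The weights of the selection. -/
def sel (γ ψ : ℝ) (q : ℕ) (a : ℤ) : ℝ :=
  selW (avoid γ ψ q) (reg γ ψ).1 (reg γ ψ).2 q a

lemma sel_nonneg (γ ψ : ℝ) (q : ℕ) (a : ℤ) : 0 ≤ sel γ ψ q a := selW_nonneg _ _ _ _ _

lemma keepW_mul (P : Finset ℕ) {q : ℕ} (hq : q ≠ 0) (hP : P ⊆ q.primeFactors) :
    keepW P q * ∏ p ∈ P, (1 - (p : ℝ)⁻¹) = rho q := by
  rw [keepW, Gcd.rho_eq_prod hq, prod_sdiff hP]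

lemma four_pow_omega : ∃ C : ℝ, 0 < C ∧ ∀ q : ℕ, 0 < q →
    (4 : ℝ) ^ q.primeFactors.card ≤ C * (q : ℝ) ^ (1 / 2 : ℝ) := by
  refine ⟨(4 : ℝ) ^ 16, by positivity, fun q hq => ?_⟩
  set S := q.primeFactors.filter fun p => p < 16
  have hS : S.card ≤ 16 := le_trans (card_le_card fun p hp => mem_range.2 (mem_filter.1 hp).2)
    (card_range 16).le
  rw [← card_filter_add_card_filter_not (s := q.primeFactors) (fun p => p < 16), pow_add]
  refine mul_le_mul (pow_le_pow_right₀ (by norm_num) hS) ?_ (by positivity) (by positivity)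
  set T := q.primeFactors.filter fun p => ¬ p < 16
  have h1 : (16 : ℕ) ^ T.card ≤ q := by
    refine le_trans ?_ (Nat.le_of_dvd hq (Nat.prod_primeFactors_dvd q))
    rw [← prod_const]
    exact (prod_le_prod' fun p hp => not_lt.1 (mem_filter.1 hp).2).trans
      (prod_le_prod_of_subset_of_one_le' (filter_subset _ _) fun p hp _ =>
        (Nat.prime_of_mem_primeFactors hp).one_lt.le)
  have h2 : (16 : ℝ) ^ T.card ≤ q := by exact_mod_cast h1
  calc (4 : ℝ) ^ T.card = ((16 : ℝ) ^ T.card) ^ (1 / 2 : ℝ) := by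
        rw [← Real.rpow_natCast (16 : ℝ), ← Real.rpow_natCast (4 : ℝ), ← Real.rpow_mul (by norm_num),
          show (16 : ℝ) = (4 : ℝ) ^ (2 : ℝ) by norm_num, ← Real.rpow_mul (by norm_num)]
        ring_nf
    _ ≤ _ := Real.rpow_le_rpow (by positivity) h2 (by norm_num)

/-- The selection weights are equidistributed. -/
lemma equi_sel (γ : ℝ) (δ : ℕ → ℝ) : Equi (fun _ => γ) (fun q a => sel γ (δ q) q a) := by
  obtain ⟨C, hC, hω⟩ := four_pow_omega
  refine ⟨1 / 4, by norm_num, fun M hM => ?_⟩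
  obtain ⟨N, hN⟩ := exists_nat_gt ((4 * M * C) ^ 2)
  refine ⟨max N (2 * M + 1), fun q hq i hi => ?_⟩
  have hq2 : 2 * M ≤ q := by have := le_trans (le_max_right _ _) hq; omega
  have hqN : ((4 * M * C) ^ 2 : ℝ) ≤ q :=
    hN.le.trans (by exact_mod_cast le_trans (le_max_left _ _) hq)
  have hq0 : 0 < q := by omega
  have hMR : (0 : ℝ) < M := by exact_mod_cast hM
  have hqR : (0 : ℝ) < q := by exact_mod_cast hq0
  set P := avoid γ (δ q) q with hP
  set A := (reg γ (δ q)).1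
  set B := (reg γ (δ q)).2
  have hPp : ∀ p ∈ P, p.Prime := fun p hp =>
    Nat.prime_of_mem_primeFactors (avoid_subset _ _ _ hp)
  set A0 : ℝ := q * i / M - γ with hA0def
  set a0 : ℤ := ⌈A0⌉
  set n : ℕ := (⌈A0 + q / M⌉ - a0).toNat with hn
  have hL : 2 ≤ (q : ℝ) / M := by rw [le_div_iff₀ hMR]; exact_mod_cast hq2
  have hnlow : (q : ℝ) / M / 2 ≤ n := by
    have h3 : ((⌈A0 + q / M⌉ - a0 : ℤ) : ℝ) ≤ (n : ℝ) := by
      rw [hn]; exact_mod_cast Int.self_le_toNat _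
    have h4 := Int.le_ceil (A0 + q / M)
    have h5 := Int.ceil_lt_add_one A0
    push_cast at h3
    linarith
  obtain ⟨u, v, huv⟩ : IsCoprime (B : ℤ) ((∏ p ∈ P, p : ℕ) : ℤ) := by
    refine Int.isCoprime_iff_nat_coprime.2 ?_
    simp only [Int.natAbs_natCast]
    exact Nat.Coprime.prod_right fun p hp =>
      ((hPp p hp).coprime_iff_not_dvd.2 (avoid_spec hp).2.2.1).symm
  have hclass : ∀ p ∈ P, ∀ a : ℤ, (p : ℤ) ∣ a * B + A → (p : ℤ) ∣ a + A * u := by
    intro p hp a h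
    have hpd : (p : ℤ) ∣ ((∏ p ∈ P, p : ℕ) : ℤ) :=
      Int.natCast_dvd_natCast.2 (dvd_prod_of_mem (fun p => p) hp)
    have h1 := dvd_add (h.mul_left u) (dvd_mul_of_dvd_right hpd (a * v))
    rwa [show u * (a * B + A) + a * v * ((∏ p ∈ P, p : ℕ) : ℤ) = a + A * u by
      linear_combination a * huv] at h1
  set G := rough P (a0 + A * u) n
  have hsub : G.image (fun j : ℕ => a0 + (j : ℤ)) ⊆
      (cell γ q M i).filter fun a => ∀ p ∈ P, ¬ (p : ℤ) ∣ a * B + A := by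
    intro a ha
    obtain ⟨j, hj, rfl⟩ := mem_image.1 ha
    obtain ⟨hj1, hj2⟩ := mem_filter.1 hj
    refine mem_filter.2 ⟨?_, fun p hp h => hj2 p hp ?_⟩
    · have hjn := mem_range.1 hj1
      have hlt : a0 + (j : ℤ) < ⌈A0 + q / M⌉ := by omega
      have h1 : A0 ≤ ((a0 + (j : ℤ) : ℤ) : ℝ) :=
        (Int.le_ceil A0).trans (by exact_mod_cast (le_add_of_nonneg_right (Int.natCast_nonneg j)))
      have h2 : ((a0 + (j : ℤ) : ℤ) : ℝ) < A0 + q / M := Int.lt_ceil.1 hlt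
      set a := a0 + (j : ℤ)
      have hA0 : -γ ≤ A0 := by
        have : 0 ≤ (q : ℝ) * i / M := by positivity
        rw [hA0def]; linarith
      have hA1 : A0 + q / M ≤ q - γ := by
        have : (i : ℝ) + 1 ≤ M := by exact_mod_cast hi
        have e : (q : ℝ) * i / M + q / M = q * ((i + 1) / M) := by ring
        have : (q : ℝ) * ((i + 1) / M) ≤ q :=
          mul_le_of_le_one_right hqR.le ((div_le_one hMR).2 this)
        rw [hA0def]; linarith
      refine mem_filter.2 ⟨?_, ?_, ?_⟩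
      · rw [idx, Finset.mem_Icc]
        constructor
        · have : ⌊-γ⌋ ≤ a := Int.cast_le.1 ((Int.floor_le (-γ)).trans (hA0.trans h1))
          omega
        · have : a ≤ ⌊(q : ℝ) - γ⌋ := Int.le_floor.2 (h2.le.trans hA1)
          omega
      · rw [div_le_div_iff₀ hMR hqR]
        have := mul_le_mul_of_nonneg_right h1 hMR.le
        rw [hA0def, sub_mul, div_mul_cancel₀ _ hMR.ne'] at this
        linarith
      · rw [div_lt_div_iff₀ hqR hMR]
        have := mul_lt_mul_of_pos_right h2 hMR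
        rw [hA0def, add_mul, sub_mul, div_mul_cancel₀ _ hMR.ne', div_mul_cancel₀ _ hMR.ne'] at this
        linarith
    · have := hclass p hp _ h
      rwa [add_right_comm] at this
  have hcard : (G.card : ℝ) * keepW P q ≤ ∑ a ∈ cell γ q M i, sel γ (δ q) q a := by
    show _ ≤ ∑ a ∈ cell γ q M i, selW P A B q a
    simp only [selW]
    rw [← sum_filter, sum_const, nsmul_eq_mul]
    refine mul_le_mul_of_nonneg_right ?_ (keepW_nonneg P q)
    have := card_le_card hsub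
    rw [card_image_of_injective _ fun a b h => Int.natCast_inj.1 (add_left_cancel h)] at this
    exact_mod_cast this
  refine le_trans ?_ hcard
  set Pr := ∏ p ∈ P, (1 - (p : ℝ)⁻¹)
  have hlow : (n : ℝ) * Pr - 2 ^ P.card ≤ (G.card : ℝ) := by
    have := (abs_le.1 (rough_abs P hPp (a0 + A * u) n)).1
    linarith
  have herr : (2 : ℝ) ^ P.card * keepW P q ≤ 1 / 4 * rho q * (q / M) := by
    set t := q.primeFactors.card
    have hpt : ((2 : ℝ) ^ P.card) ≤ (2 : ℝ) ^ t :=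
      pow_le_pow_right₀ (by norm_num) (card_le_card (avoid_subset _ _ _))
    have hk : keepW P q ≤ (2 : ℝ) ^ t * rho q := by
      have h1 : keepW P q ≤ 1 := prod_le_one (fun p hp =>
        (Gcd.one_sub_inv_pos (Nat.prime_of_mem_primeFactors (mem_sdiff.1 hp).1)).le)
        fun p _ => Gcd.one_sub_inv_le_one p
      have h2 : (1 / 2 : ℝ) ^ t ≤ rho q := by
        rw [Gcd.rho_eq_prod hq0.ne', ← prod_const]
        refine prod_le_prod (fun _ _ => by norm_num) fun p hp => ?_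
        have : (2 : ℝ) ≤ p := by exact_mod_cast (Nat.prime_of_mem_primeFactors hp).two_le
        have := inv_anti₀ (by norm_num) this
        linarith
      calc keepW P q ≤ 1 := h1
        _ = (2 : ℝ) ^ t * (1 / 2 : ℝ) ^ t := by rw [← mul_pow]; norm_num
        _ ≤ _ := by gcongr
    calc (2 : ℝ) ^ P.card * keepW P q ≤ (2 : ℝ) ^ t * ((2 : ℝ) ^ t * rho q) :=
          mul_le_mul hpt hk (keepW_nonneg P q) (by positivity)
      _ = (4 : ℝ) ^ t * rho q := by rw [← mul_assoc, ← mul_pow]; norm_num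
      _ ≤ C * (q : ℝ) ^ (1 / 2 : ℝ) * rho q :=
          mul_le_mul_of_nonneg_right (hω q hq0) (Gcd.rho_nonneg q)
      _ ≤ 1 / 4 * (q / M) * rho q := by
          refine mul_le_mul_of_nonneg_right ?_ (Gcd.rho_nonneg q)
          have hs : 4 * M * C ≤ (q : ℝ) ^ (1 / 2 : ℝ) := by
            refine le_trans (le_of_eq ?_) (Real.rpow_le_rpow (sq_nonneg _) hqN (by norm_num))
            rw [← Real.rpow_natCast, ← Real.rpow_mul (by positivity)]; norm_num
          have hss : (q : ℝ) ^ (1 / 2 : ℝ) * (q : ℝ) ^ (1 / 2 : ℝ) = q := by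
            rw [← Real.rpow_add hqR]; norm_num
          have h3 := mul_le_mul_of_nonneg_right hs (Real.rpow_nonneg hqR.le (1 / 2 : ℝ))
          rw [hss] at h3
          rw [← mul_div_assoc, le_div_iff₀ hMR]
          nlinarith
      _ = _ := by ring
  have h1 : (q : ℝ) / M / 2 * rho q ≤ (n : ℝ) * Pr * keepW P q := by
    rw [mul_assoc, mul_comm Pr, keepW_mul P hq0.ne' (avoid_subset _ _ _)]
    exact mul_le_mul_of_nonneg_right hnlow (Gcd.rho_nonneg q)
  have h2 := mul_le_mul_of_nonneg_right hlow (keepW_nonneg P q)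
  linarith

end

end Vale.Agent.P028.Sel
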