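import Vale.Agent.P028.Sel.Law

/-!
# Resonances contradict the distance to rationals with small denominators
-/

open Finset

namespace Vale.Agent.P028.Sel

noncomputable section

/-- `γ` is not explained at scale `y` by a rational with denominator at most `δ ^ (-40000 θ)`. -/
def Far (γ θ δ y : ℝ) : Prop :=
  ∀ (A : ℤ) (B : ℕ), 0 < B → (B : ℝ) ≤ δ ^ (-(40000 * θ)) →
    δ ^ (1 - 40000 * θ) ≤ |γ - A / B| * y

/-- The small parameters. -/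
structure Small (θ δ : ℝ) : Prop where
  hθ : 0 < θ
  hθ' : θ ≤ 1 / 1000000
  hδ : 0 < δ
  hδ' : δ ^ θ ≤ 1 / 8

namespace Small

variable {θ δ : ℝ} (h : Small θ δ)
include h

lemma lt_one : δ < 1 := by
  by_contra hc
  have := Real.one_le_rpow (not_lt.1 hc) h.hθ.le
  linarith [h.hδ']

lemma mono {a b : ℝ} (hab : b ≤ a) : δ ^ a ≤ δ ^ b :=
  Real.rpow_le_rpow_of_exponent_ge h.hδ h.lt_one.le hab

/-- A margin of `θ` in the exponent absorbs the factor `8`. -/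
lemma absorb {c a b : ℝ} (hc : c ≤ 8) (hab : b + θ ≤ a) : c * δ ^ a ≤ δ ^ b := by
  have h0 : 0 < δ ^ a := Real.rpow_pos_of_pos h.hδ _
  have h1 : δ ^ a ≤ δ ^ b * δ ^ θ := by
    rw [← Real.rpow_add h.hδ]; exact h.mono hab
  have h2 : δ ^ b * δ ^ θ ≤ δ ^ b * (1 / 8) :=
    mul_le_mul_of_nonneg_left h.hδ' (Real.rpow_nonneg h.hδ.le _)
  nlinarith

lemma mul_pow (a b : ℝ) : δ ^ a * δ ^ b = δ ^ (a + b) := (Real.rpow_add h.hδ a b).symm

end Small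

/-- Solutions up to `n₀` without resonance. -/
lemma count_upto : ∃ K : ℝ, 0 < K ∧ ∀ (T : Finset ℕ) (n₀ : ℕ) (α r w g : ℝ),
    0 < g → g ≤ 1 → 0 < w → w ≤ g ^ (1 / 2 : ℝ) → g ^ (-8 : ℝ) ≤ g ^ (1 / 16 : ℝ) * n₀ →
    (∀ n ∈ T, 1 ≤ n ∧ n ≤ n₀) → (∀ n ∈ T, NearInt (α * (n : ℕ) - r) w) →
    (∀ q : ℕ, 0 < q → (q : ℝ) ≤ g ^ (-(1 / 8) : ℝ) → ∀ a : ℤ,
      w * g ^ (-(1 / 2) : ℝ) ≤ |(q : ℝ) * α - a| * (g ^ (1 / 16 : ℝ) * n₀ / q)) →
    (T.card : ℝ) ≤ K * g ^ (1 / 16 : ℝ) * n₀ := by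
  classical
  obtain ⟨Kc, hKc, hcount⟩ := hits_le
  refine ⟨2 + 4 * Kc, by positivity, ?_⟩
  intro T n₀ α r w g hg hg1 hw hwg hn₀ hT hnear hres
  set G := g ^ (1 / 16 : ℝ) with hG
  have hG0 : 0 < G := Real.rpow_pos_of_pos hg _
  have hG1 : G ≤ 1 := Real.rpow_le_one hg.le hg1 (by norm_num)
  have hbig : 1 ≤ G * (n₀ : ℝ) :=
    (Real.one_le_rpow_of_pos_of_le_one_of_nonpos hg hg1 (by norm_num)).trans hn₀
  have hn1 : 1 ≤ n₀ := by
    by_contra hc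
    rw [show n₀ = 0 by omega, Nat.cast_zero, mul_zero] at hbig
    linarith
  set J := Nat.log 2 n₀
  have hsmall : ((T.filter fun n : ℕ => (n : ℝ) < 2 * (G * n₀)).card : ℝ) ≤ 2 * (G * n₀) := by
    have hsub : (T.filter fun n : ℕ => (n : ℝ) < 2 * (G * n₀)) ⊆ Icc 1 ⌊2 * (G * n₀)⌋₊ :=
      fun n hn => mem_Icc.2 ⟨(hT n (mem_filter.1 hn).1).1, Nat.le_floor (mem_filter.1 hn).2.le⟩
    refine le_trans ?_ (Nat.floor_le (by positivity))
    exact_mod_cast (card_le_card hsub).trans_eq (by simp)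
  set Tb := T.filter fun n : ℕ => ¬ (n : ℝ) < 2 * (G * n₀) with hTb
  have hblock : ∀ j ∈ range (J + 1),
      ((Tb.filter fun n => Nat.log 2 n = j).card : ℝ) ≤ 2 * Kc * G * (2 : ℝ) ^ j := by
    intro j _
    rcases (Tb.filter fun n => Nat.log 2 n = j).eq_empty_or_nonempty with h0 | ⟨n, hn⟩
    · rw [h0, card_empty, Nat.cast_zero]; positivity
    set S := 2 ^ j with hS
    have hb : ∀ k ∈ Tb.filter (fun n => Nat.log 2 n = j), S ≤ k ∧ k < 2 * S := by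
      intro k hk
      obtain ⟨hkT, hkj⟩ := mem_filter.1 hk
      have h1 := Nat.pow_log_le_self 2 (show k ≠ 0 by
        have := (hT k (mem_filter.1 hkT).1).1; omega)
      have h2 := Nat.lt_pow_succ_log_self (show 1 < 2 by norm_num) k
      rw [hkj] at h1 h2
      rw [pow_succ'] at h2
      exact ⟨h1, h2⟩
    have hGS : G * n₀ ≤ (S : ℝ) := by
      have h1 : (n : ℝ) < 2 * (S : ℝ) := by exact_mod_cast (hb n hn).2
      have h2 := not_lt.1 (mem_filter.1 (mem_filter.1 hn).1).2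
      linarith
    have hS8 : g ^ (-8 : ℝ) ≤ (S : ℝ) := hn₀.trans hGS
    have hr : ∀ q : ℕ, 0 < q → (q : ℝ) ≤ g ^ (-(1 / 8) : ℝ) → ∀ a : ℤ,
        w * g ^ (-(1 / 2) : ℝ) ≤ |(q : ℝ) * α - a| * ((S : ℝ) / q) := fun q hq hqg a =>
      (hres q hq hqg a).trans (mul_le_mul_of_nonneg_left
        (div_le_div_of_nonneg_right hGS (Nat.cast_nonneg q)) (abs_nonneg _))
    have hsub : Tb.filter (fun n => Nat.log 2 n = j) ⊆ hits ∅ α r w S := fun k hk =>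
      mem_filter.2 ⟨Finset.mem_Ico.2 (hb k hk), by simp,
        hnear k (mem_filter.1 (mem_filter.1 hk).1).1⟩
    have hc := hcount ∅ 1 1 sieveOk_empty α r w g S hg hg1 hw hwg hS8 hr
    rw [div_one, mul_one] at hc
    have hS1 : (1 : ℝ) ≤ S := hbig.trans hGS
    have hroot : (S : ℝ) ^ (1 / 2 : ℝ) ≤ G * S := by
      have h1 : (S : ℝ) ^ (1 / 2 : ℝ) * (S : ℝ) ^ (1 / 2 : ℝ) = S := by
        rw [← Real.rpow_add (by linarith)]; norm_num
      have h2 : 1 ≤ G * (S : ℝ) ^ (1 / 2 : ℝ) := by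
        calc (1 : ℝ) ≤ G * (g ^ (-8 : ℝ)) ^ (1 / 2 : ℝ) := by
              rw [hG, ← Real.rpow_mul hg.le, ← Real.rpow_add hg]
              exact Real.one_le_rpow_of_pos_of_le_one_of_nonpos hg hg1 (by norm_num)
          _ ≤ _ := by gcongr
      calc (S : ℝ) ^ (1 / 2 : ℝ)
          ≤ G * (S : ℝ) ^ (1 / 2 : ℝ) * (S : ℝ) ^ (1 / 2 : ℝ) :=
            le_mul_of_one_le_left (by positivity) h2
        _ = _ := by rw [mul_assoc, h1]
    refine ((Nat.cast_le (α := ℝ)).2 (card_le_card hsub)).trans (hc.trans ?_)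
    rw [← hG]
    have e : (S : ℝ) = (2 : ℝ) ^ j := by rw [hS]; push_cast; ring
    calc Kc * G * S + Kc * (S : ℝ) ^ (1 / 2 : ℝ) ≤ Kc * G * S + Kc * (G * S) := by gcongr
      _ = _ := by rw [e]; ring
  have hmaps : ∀ n ∈ Tb, Nat.log 2 n ∈ range (J + 1) := fun n hn =>
    mem_range.2 (Nat.lt_succ_of_le (Nat.log_mono_right (hT n (mem_filter.1 hn).1).2))
  have hpow : ∑ j ∈ range (J + 1), (2 : ℝ) ^ j ≤ 2 * n₀ := by
    rw [geom_sum_eq (by norm_num), div_le_iff₀ (by norm_num)]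
    have h1 : ((2 ^ J : ℕ) : ℝ) ≤ n₀ := by
      exact_mod_cast Nat.pow_log_le_self 2 (by omega)
    push_cast at h1
    rw [pow_succ]
    linarith
  have hTcard : (T.card : ℝ) =
      ((T.filter fun n : ℕ => (n : ℝ) < 2 * (G * n₀)).card : ℝ) + (Tb.card : ℝ) := by
    rw [← Nat.cast_add, hTb, card_filter_add_card_filter_not]
  rw [hTcard, card_eq_sum_card_fiberwise hmaps]
  push_cast
  refine (add_le_add hsmall (sum_le_sum hblock)).trans ?_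
  rw [← mul_sum]
  have := mul_le_mul_of_nonneg_left hpow (by positivity : (0 : ℝ) ≤ 2 * Kc * G)
  nlinarith

/-- The law of a resonance-free set: the plain and the sieved bound. -/
lemma law_far : ∃ K : ℝ, 0 < K ∧ ∀ (θ δ γ : ℝ), Small θ δ → ∀ (A : ℕ), 0 < A →
    ∀ (T : Finset ℕ), T ⊆ A.divisors → ∀ (ν : ℕ) (r w κ : ℝ) (M : ℕ), 0 < ν →
      (ν : ℝ) ≤ δ ^ (-(5100 * θ)) → 0 < w → w ≤ δ ^ (1 - 401 * θ) → 0 ≤ κ →
      w * κ / ν ≤ δ ^ (1 - 401 * θ) →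
      (∀ s ∈ T, NearInt (γ * ν * (s : ℕ) - r) w) →
      (∀ s ∈ T, δ ^ (-(32769 * θ)) ≤ (s : ℕ)) → (∀ s ∈ T, s < 2 ^ (M + 1)) →
      (∀ s ∈ T, Far γ θ δ (κ * (s : ℕ))) →
      ∑ s ∈ T, law A s ≤ K * δ ^ (128 * θ) * (M + 1) ∧
        ∀ m : ℕ, 1 ≤ m → m ≤ M → (∀ s ∈ T, 2 ^ m ≤ s) →
          ∑ s ∈ T, law A s ≤ K * δ ^ (128 * θ) * (1 + Real.log ((M : ℝ) / m)) := by
  obtain ⟨K, hK, hlaw⟩ := law_near_le
  refine ⟨K, hK, ?_⟩
  intro θ δ γ h A hA T hT ν r w κ M hν hνle hw hwle hκ hwκ hnear hlow hup hfar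
  have hθ := h.hθ
  have hθ' := h.hθ'
  have hδ := h.hδ
  set g := δ ^ (4096 * θ) with hgdef
  have hg : 0 < g := Real.rpow_pos_of_pos hδ _
  have hg1 : g ≤ 1 := Real.rpow_le_one hδ.le h.lt_one.le (by positivity)
  have e32 : g ^ (1 / 32 : ℝ) = δ ^ (128 * θ) := by
    rw [hgdef, ← Real.rpow_mul hδ.le]; ring_nf
  rw [← e32]
  refine hlaw A hA T hT (γ * ν) r w g M hg hg1 hw ?_ hnear (fun s hs => ?_) hup
    fun s hs q hq hqg a => ?_
  · rw [hgdef, ← Real.rpow_mul hδ.le]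
    exact hwle.trans (h.mono (by linarith))
  · refine le_trans ?_ (hlow s hs)
    rw [hgdef, ← Real.rpow_mul hδ.le]
    exact h.absorb (by norm_num) (by linarith)
  by_contra hcon
  rw [not_le] at hcon
  have hqR : (0 : ℝ) < q := by exact_mod_cast hq
  have hνR : (0 : ℝ) < ν := by exact_mod_cast hν
  have hB : ((q * ν : ℕ) : ℝ) ≤ δ ^ (-(40000 * θ)) := by
    push_cast
    refine (mul_le_mul hqg hνle hνR.le (by positivity)).trans ?_
    rw [hgdef, ← Real.rpow_mul hδ.le, h.mul_pow]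
    exact h.mono (by linarith)
  have hf := hfar s hs a (q * ν) (Nat.mul_pos hq hν) hB
  have e : |γ - (a : ℝ) / ((q * ν : ℕ) : ℝ)| * (κ * (s : ℕ)) =
      |(q : ℝ) * (γ * ν) - a| * ((s : ℕ) / (q : ℝ)) * (κ / ν) := by
    push_cast
    rw [show γ - (a : ℝ) / ((q : ℝ) * ν) = ((q : ℝ) * (γ * ν) - a) / (q * ν) by field_simp,
      abs_div, abs_of_pos (mul_pos hqR hνR)]
    field_simp
  rw [e] at hf
  have h1 : |(q : ℝ) * (γ * ν) - a| * ((s : ℕ) / (q : ℝ)) * (κ / ν) ≤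
      2 * (δ ^ (1 - 401 * θ) * δ ^ (-(2048 * θ))) := by
    refine (mul_le_mul_of_nonneg_right hcon.le (div_nonneg hκ hνR.le)).trans ?_
    rw [show g ^ (-(1 / 2) : ℝ) = δ ^ (-(2048 * θ)) by
      rw [hgdef, ← Real.rpow_mul hδ.le]; ring_nf]
    rw [mul_assoc, mul_assoc, mul_left_comm w]
    refine mul_le_mul_of_nonneg_left ?_ (by norm_num)
    rw [mul_comm (δ ^ (1 - 401 * θ))]
    refine mul_le_mul_of_nonneg_left ?_ (by positivity)
    rw [← mul_div_assoc]; exact hwκ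
  have h2 : 4 * (δ ^ (1 - 401 * θ) * δ ^ (-(2048 * θ))) ≤ δ ^ (1 - 40000 * θ) := by
    rw [h.mul_pow]; exact h.absorb (by norm_num) (by linarith)
  have h3 : 0 < δ ^ (1 - 401 * θ) * δ ^ (-(2048 * θ)) := by positivity
  linarith

end

end Vale.Agent.P028.Sel
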