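import Vale.Agent.P028.Sel.Fibre
import Vale.Agent.P028.Sel.Sieve
import Vale.Agent.P013.Mertens

/-!
# Coinciding classes, and pairs at levels `D ≥ 1`
-/

open Finset

namespace Vale.Agent.P028.Sel

noncomputable section

open Gcd (rho quo wt)
open scoped Classical

/-- `∏ p/(p-1)` over a set of primes. -/
lemma prod_ratio_le_card (T : Finset ℕ) (hT : ∀ p ∈ T, p.Prime) :
    ∏ p ∈ T, (p : ℝ) / ((p : ℝ) - 1) ≤ T.card + 1 := by
  induction T using Finset.induction_on_max with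
  | empty => simp
  | insert p T hlt ih =>
    have hpT : p ∉ T := fun h => lt_irrefl p (hlt p h)
    have hcard : T.card + 2 ≤ p := by
      have hsub : T ⊆ Finset.Ico 2 p := fun q hq =>
        Finset.mem_Ico.2 ⟨(hT q (mem_insert_of_mem hq)).two_le, hlt q hq⟩
      have := card_le_card hsub
      rw [Nat.card_Ico] at this
      have := (hT p (mem_insert_self p T)).two_le
      omega
    have hpR : (T.card : ℝ) + 2 ≤ p := by exact_mod_cast hcard
    have hT0 : (0 : ℝ) ≤ T.card := Nat.cast_nonneg _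
    rw [prod_insert hpT, card_insert_of_notMem hpT]
    refine (mul_le_mul_of_nonneg_left (ih fun q hq => hT q (mem_insert_of_mem hq))
      (div_nonneg (Nat.cast_nonneg p) (by linarith))).trans ?_
    push_cast
    rw [div_mul_eq_mul_div, div_le_iff₀ (by linarith)]
    nlinarith

/-- Large primes dividing an integer of bounded logarithm. -/
lemma large_prime_factors (n : ℤ) (hn : n ≠ 0) (Y c : ℝ) (hY : 2 ≤ Y) (hc : 0 ≤ c)
    (hlog : Real.log |(n : ℝ)| ≤ c * Y) (T : Finset ℕ) (hT : ∀ p ∈ T, p.Prime)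
    (hTY : ∀ p ∈ T, Y < p) (hTn : ∀ p ∈ T, (p : ℤ) ∣ n) :
    ∏ p ∈ T, (p : ℝ) / ((p : ℝ) - 1) ≤ Real.exp (3 * c) := by
  have hnat : ∏ p ∈ T, p ≤ n.natAbs :=
    Nat.le_of_dvd (Int.natAbs_pos.2 hn) (Finset.prod_primes_dvd _ (fun p hp => (hT p hp).prime)
      fun p hp => Int.natCast_dvd.1 (hTn p hp))
  have hcard : (T.card : ℝ) * Real.log 2 ≤ c * Y := by
    rw [← Real.log_pow]
    refine le_trans (Real.log_le_log (by positivity) ?_) hlog
    have h2 : 2 ^ T.card ≤ n.natAbs := by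
      refine le_trans ?_ hnat
      rw [← prod_const]
      exact prod_le_prod' fun p hp => (hT p hp).two_le
    calc (2 : ℝ) ^ T.card ≤ (n.natAbs : ℝ) := by exact_mod_cast h2
      _ = |(n : ℝ)| := by rw [Nat.cast_natAbs, Int.cast_abs]
  calc ∏ p ∈ T, (p : ℝ) / ((p : ℝ) - 1) ≤ ∏ p ∈ T, Real.exp (2 / Y) := by
        refine prod_le_prod (fun p hp => zero_le_one.trans (div_pred_le (hT p hp)).1) fun p hp => ?_
        have hp2 : (2 : ℝ) ≤ p := by exact_mod_cast (hT p hp).two_le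
        refine le_trans ?_ ((add_comm _ _).le.trans (Real.add_one_le_exp _))
        rw [show (p : ℝ) / ((p : ℝ) - 1) = 1 + 1 / ((p : ℝ) - 1) by
          field_simp [show (p : ℝ) - 1 ≠ 0 by linarith]; ring]
        refine add_le_add le_rfl ?_
        have := hTY p hp
        rw [div_le_div_iff₀ (by linarith) (by linarith)]
        linarith
    _ = Real.exp (T.card * (2 / Y)) := by rw [prod_const, ← Real.exp_nat_mul]
    _ ≤ _ := by
        refine Real.exp_le_exp.2 ?_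
        rw [← mul_div_assoc, div_le_iff₀ (by linarith)]
        have h0 : (0 : ℝ) ≤ T.card := Nat.cast_nonneg _
        nlinarith [Real.log_two_gt_d9, mul_nonneg hc (by linarith : (0 : ℝ) ≤ Y)]

/-- The small coinciding primes. -/
def coPrimes (P P' : Finset ℕ) (x y : ℕ) (D : ℝ) : Finset ℕ :=
  ((P ∩ P').filter fun p => ¬ p ∣ x ∧ ¬ p ∣ y).filter fun p : ℕ =>
    (p : ℝ) ≤ 2 + Real.log (1 + D)

/-- Only small primes matter among the coinciding classes. -/
theorem coinc_le : ∃ K : ℝ, 1 ≤ K ∧ ∀ (γ ψ ψ' : ℝ), 0 < ψ → 0 < ψ' → ∀ (v w : ℕ) (k : ℤ),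
    0 < v → 0 < w →
    ((avoid γ ψ v ∩ avoid γ ψ' w).Nonempty →
      coF (reg γ ψ).1 (reg γ ψ').1 (reg γ ψ).2 (reg γ ψ').2 (quo v w) (quo w v) k ≠ 0) →
    |(k : ℝ) - γ * ((quo v w : ℝ) - quo w v)| < (quo w v : ℝ) * ψ + (quo v w : ℝ) * ψ' →
    coinc (avoid γ ψ v) (avoid γ ψ' w) (reg γ ψ).1 (reg γ ψ').1 (reg γ ψ).2 (reg γ ψ').2
        (quo v w) (quo w v) k ≤
      K * ∏ p ∈ (coPrimes (avoid γ ψ v) (avoid γ ψ' w) (quo v w) (quo w v)
            (max ((quo w v : ℝ) * ψ) ((quo v w : ℝ) * ψ'))).filter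
          (fun p : ℕ => (p : ℤ) ∣
            coF (reg γ ψ).1 (reg γ ψ').1 (reg γ ψ).2 (reg γ ψ').2 (quo v w) (quo w v) k),
        (p : ℝ) / ((p : ℝ) - 1) := by
  refine ⟨Real.exp (3 * 130), Real.one_le_exp (by norm_num), ?_⟩
  intro γ ψ ψ' hψ hψ' v w k hv hw hco hwin
  set x := quo v w
  set y := quo w v
  set P := avoid γ ψ v with hP
  set P' := avoid γ ψ' w with hP'
  set A := (reg γ ψ).1
  set B := (reg γ ψ).2
  set A' := (reg γ ψ').1
  set B' := (reg γ ψ').2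
  set D := max ((y : ℝ) * ψ) ((x : ℝ) * ψ') with hD
  set F := coF A A' B B' x y k
  set T0 := ((P ∩ P').filter fun p => ¬ p ∣ x ∧ ¬ p ∣ y).filter (fun p : ℕ => (p : ℤ) ∣ F)
  have hT0p : ∀ p ∈ T0, p.Prime := fun p hp => Nat.prime_of_mem_primeFactors
    (avoid_subset _ _ _ (mem_inter.1 (mem_filter.1 (mem_filter.1 hp).1).1).1)
  set lim := 2 + Real.log (1 + D)
  unfold coinc
  rw [← prod_filter_mul_prod_filter_not T0 (fun p : ℕ => (p : ℝ) ≤ lim), mul_comm]
  refine mul_le_mul ?_ ?_ (prod_nonneg fun p hp =>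
    zero_le_one.trans (div_pred_le (hT0p p (mem_filter.1 hp).1)).1) (Real.exp_nonneg _)
  swap
  · refine le_of_eq (prod_congr ?_ fun _ _ => rfl)
    simp only [T0, coPrimes, filter_filter]
    refine filter_congr fun p _ => ?_
    tauto
  set T := T0.filter fun p : ℕ => ¬ (p : ℝ) ≤ lim
  rcases T.eq_empty_or_nonempty with h0 | ⟨p₀, hp₀⟩
  · rw [h0, prod_empty]; exact Real.one_le_exp (by norm_num)
  have hne : (P ∩ P').Nonempty := ⟨p₀, (mem_filter.1 (mem_filter.1 (mem_filter.1 hp₀).1).1).1⟩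
  have hF := hco hne
  obtain ⟨q, hq⟩ := hne
  have hreg : HasReg γ ψ := (avoid_spec (mem_inter.1 hq).1).1
  have hreg' : HasReg γ ψ' := (avoid_spec (mem_inter.1 hq).2).1
  have hB : (0 : ℝ) < B := by exact_mod_cast reg_pos γ ψ
  have hB' : (0 : ℝ) < B' := by exact_mod_cast reg_pos γ ψ'
  have hx0 : 0 < x := Gcd.quo_pos hv.ne'
  have hy0 : 0 < y := Gcd.quo_pos hw.ne'
  have hxR : (1 : ℝ) ≤ x := by exact_mod_cast hx0
  have hyR : (1 : ℝ) ≤ y := by exact_mod_cast hy0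
  set β := γ - (A : ℝ) / B
  set β' := γ - (A' : ℝ) / B'
  set a := |β| / ψ
  set a' := |β'| / ψ'
  have ha : 0 ≤ a := by positivity
  have ha' : 0 ≤ a' := by positivity
  have hD0 : 0 < D := lt_of_lt_of_le (by positivity) (le_max_left _ _)
  have habs : |(F : ℝ)| ≤ 2 * D * ((1 + (B : ℝ) * (1 + a)) * (1 + (B' : ℝ) * (1 + a'))) := by
    have e : (F : ℝ) = (B : ℝ) * B' * (((k : ℝ) - γ * ((x : ℝ) - y)) - β * y + β' * x) := by
      simp only [F, coF, β, β']
      push_cast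
      field_simp
      ring
    have h1 : |β| * y ≤ a * D := by
      calc |β| * y = a * ((y : ℝ) * ψ) := by simp only [a]; field_simp
        _ ≤ a * D := mul_le_mul_of_nonneg_left (le_max_left _ _) ha
    have h2 : |β'| * x ≤ a' * D := by
      calc |β'| * x = a' * ((x : ℝ) * ψ') := by simp only [a']; field_simp
        _ ≤ a' * D := mul_le_mul_of_nonneg_left (le_max_right _ _) ha'
    have h3 : |((k : ℝ) - γ * ((x : ℝ) - y)) - β * y + β' * x| ≤ D * (2 + a + a') := by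
      refine (abs_add_le _ _).trans ?_
      refine (add_le_add (abs_sub _ _) le_rfl).trans ?_
      rw [abs_mul, abs_mul, Nat.abs_cast, Nat.abs_cast]
      linarith [le_max_left ((y : ℝ) * ψ) ((x : ℝ) * ψ'), le_max_right ((y : ℝ) * ψ) ((x : ℝ) * ψ')]
    rw [e, abs_mul, abs_of_pos (mul_pos hB hB')]
    refine (mul_le_mul_of_nonneg_left h3 (by positivity)).trans ?_
    have h4 : (B : ℝ) * B' * (2 + a + a') ≤ 2 * ((1 + (B : ℝ) * (1 + a)) * (1 + (B' : ℝ) * (1 + a'))) := by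
      nlinarith [mul_pos hB hB', mul_nonneg (mul_pos hB hB').le (mul_nonneg ha ha'),
        mul_nonneg (mul_pos hB hB').le ha, mul_nonneg (mul_pos hB hB').le ha',
        mul_nonneg hB.le ha, mul_nonneg hB'.le ha']
    calc (B : ℝ) * B' * (D * (2 + a + a')) = D * ((B : ℝ) * B' * (2 + a + a')) := by ring
      _ ≤ D * (2 * ((1 + (B : ℝ) * (1 + a)) * (1 + (B' : ℝ) * (1 + a')))) :=
          mul_le_mul_of_nonneg_left h4 hD0.le
      _ = _ := by ring
  set Y := max (max (zreg γ ψ) (zreg γ ψ')) lim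
  have hl1 : 0 ≤ Real.log (1 + D) := Real.log_nonneg (by linarith)
  have hY2 : 2 ≤ Y := le_max_of_le_right (by simp only [lim]; linarith)
  have hlogF : Real.log |(F : ℝ)| ≤ 130 * Y := by
    have hFpos : 0 < |(F : ℝ)| := abs_pos.2 (by exact_mod_cast hF)
    have hP1 : 0 < 1 + (B : ℝ) * (1 + a) := by positivity
    have hP2 : 0 < 1 + (B' : ℝ) * (1 + a') := by positivity
    refine (Real.log_le_log hFpos habs).trans ?_
    rw [Real.log_mul (by positivity) (by positivity), Real.log_mul hP1.ne' hP2.ne']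
    have h2D : Real.log (2 * D) ≤ 1 + Real.log (1 + D) := by
      rw [Real.log_mul (by norm_num) hD0.ne']
      have := Real.log_two_lt_d9
      have := Real.log_le_log hD0 (by linarith : D ≤ 1 + D)
      linarith
    have e1 : Real.log (1 + (B : ℝ) * (1 + a)) = 64 * zreg γ ψ - 1 := by
      simp only [zreg, B, a, β, A]; ring
    have e2 : Real.log (1 + (B' : ℝ) * (1 + a')) = 64 * zreg γ ψ' - 1 := by
      simp only [zreg, B', a', β', A']; ring
    rw [e1, e2]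
    have : zreg γ ψ ≤ Y := le_max_of_le_left (le_max_left _ _)
    have : zreg γ ψ' ≤ Y := le_max_of_le_left (le_max_right _ _)
    have : lim ≤ Y := le_max_right _ _
    simp only [lim] at this
    linarith
  refine large_prime_factors F hF Y 130 hY2 (by norm_num) hlogF T
    (fun p hp => hT0p p (mem_filter.1 hp).1) (fun p hp => ?_) fun p hp =>
    (mem_filter.1 (mem_filter.1 hp).1).2
  obtain ⟨hpT, hplim⟩ := mem_filter.1 hp
  obtain ⟨hpP, hpP'⟩ := mem_inter.1 (mem_filter.1 (mem_filter.1 hpT).1).1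
  exact max_lt (max_lt (avoid_spec hpP).2.2.2 (avoid_spec hpP').2.2.2) (not_le.1 hplim)

/-- One integer class for affine congruences. -/
lemma exists_class (T : Finset ℕ) (hT : ∀ p ∈ T, p.Prime) (a b : ℕ → ℤ)
    (ha : ∀ p ∈ T, ¬ (p : ℤ) ∣ a p) :
    ∃ c : ℤ, ∀ p ∈ T, ∀ k : ℤ, (p : ℤ) ∣ a p * k + b p ↔ (p : ℤ) ∣ k - c := by
  suffices h : ∃ c : ℤ, ∀ p ∈ T, (p : ℤ) ∣ a p * c + b p by
    obtain ⟨c, hc⟩ := h
    refine ⟨c, fun p hp k => ?_⟩
    have e : a p * k + b p = a p * (k - c) + (a p * c + b p) := by ring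
    rw [e, dvd_add_left (hc p hp)]
    exact ⟨fun h => ((Nat.prime_iff_prime_int.1 (hT p hp)).dvd_or_dvd h).resolve_left (ha p hp),
      fun h => h.mul_left _⟩
  induction T using Finset.induction_on with
  | empty => exact ⟨0, by simp⟩
  | @insert p T hpT ih =>
    obtain ⟨c, hc⟩ := ih (fun q hq => hT q (mem_insert_of_mem hq))
      fun q hq => ha q (mem_insert_of_mem hq)
    have hp := hT p (mem_insert_self p T)
    set M : ℤ := ((∏ q ∈ T, q : ℕ) : ℤ)
    have hcop : IsCoprime (a p * M) (p : ℤ) := by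
      refine IsCoprime.mul_left ?_ ?_
      · refine Int.isCoprime_iff_nat_coprime.2 ?_
        simp only [Int.natAbs_natCast]
        exact ((hp.coprime_iff_not_dvd).2 fun h =>
          ha p (mem_insert_self p T) (Int.natCast_dvd.2 h)).symm
      · refine Int.isCoprime_iff_nat_coprime.2 ?_
        simp only [M, Int.natAbs_natCast]
        exact Nat.Coprime.prod_left fun q hq => (Nat.coprime_primes (hT q (mem_insert_of_mem hq))
          hp).2 fun h => hpT (h ▸ hq)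
    obtain ⟨u, t, hut⟩ := hcop
    refine ⟨c + M * (-(u * (a p * c + b p))), fun q hq => ?_⟩
    rcases mem_insert.1 hq with rfl | hq'
    · exact ⟨t * (a q * c + b q), by linear_combination -(a q * c + b q) * hut⟩
    · have h1 : (q : ℤ) ∣ M := Int.natCast_dvd_natCast.2 (dvd_prod_of_mem (fun q => q) hq')
      rw [show a q * (c + M * (-(u * (a p * c + b p)))) + b q =
        (a q * c + b q) + M * (a q * (-(u * (a p * c + b p)))) by ring]
      exact dvd_add (hc q hq') (h1.mul_right _)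

/-- Survivors in a window of integers on a class modulo `d`. -/
lemma window_survivors (K1 : Finset ℕ) (hK1 : ∀ p ∈ K1, p.Prime) (R : ℕ) (hR : 1 ≤ R)
    (hL : 0 < sieveL K1 R) (d : ℕ) (hd : 0 < d) (S : Finset ℤ) (c : ℤ) (m W : ℝ) (hW : 0 ≤ W)
    (hwin : ∀ k ∈ S, |(k : ℝ) - m| < W) (hmod : ∀ k ∈ S, (d : ℤ) ∣ k - c)
    (hsift : ∀ k ∈ S, ∀ p ∈ K1, ¬ (p : ℤ) ∣ k - c) :
    (S.card : ℝ) ≤ (2 * W / d + 1) / sieveL K1 R + (R : ℝ) ^ 6 := by
  rcases S.eq_empty_or_nonempty with rfl | hne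
  · simp only [card_empty, Nat.cast_zero]; positivity
  set lo := S.min' hne
  set hi := S.max' hne
  obtain ⟨jlo, hjlo⟩ := hmod lo (S.min'_mem hne)
  set N := ((hi - lo) / (d : ℤ)).toNat + 1 with hN
  have hlh : lo ≤ hi := S.min'_le _ (S.max'_mem hne)
  have hdZ : (0 : ℤ) < d := by exact_mod_cast hd
  have hNR : (N : ℝ) ≤ 2 * W / d + 1 := by
    have h1 : (((hi - lo) / (d : ℤ) : ℤ) : ℝ) ≤ 2 * W / d := by
      rw [le_div_iff₀ (by exact_mod_cast hd)]
      have h2 : (((hi - lo) / (d : ℤ) * (d : ℤ) : ℤ) : ℝ) ≤ ((hi - lo : ℤ) : ℝ) := by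
        exact_mod_cast Int.ediv_mul_le (hi - lo) hdZ.ne'
      push_cast at h2
      have b1 := abs_lt.1 (hwin lo (S.min'_mem hne))
      have b2 := abs_lt.1 (hwin hi (S.max'_mem hne))
      linarith [b1.1, b2.2]
    have h3 : (((hi - lo) / (d : ℤ)).toNat : ℝ) = (((hi - lo) / (d : ℤ) : ℤ) : ℝ) := by
      exact_mod_cast Int.toNat_of_nonneg (Int.ediv_nonneg (by omega) hdZ.le)
    rw [hN]; push_cast; linarith
  have hcard : S.card ≤
      ((range N).filter fun i : ℕ => ∀ p ∈ K1, ¬ (p : ℤ) ∣ jlo + (i : ℤ) * (1 : ℕ)).card := by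
    refine card_le_card_of_injOn (fun k => ((k - lo) / (d : ℤ)).toNat) (fun k hk => ?_)
      fun a ha b hb h => ?_
    · have h1 : lo ≤ k := S.min'_le _ hk
      have h2 : k ≤ hi := S.le_max' _ hk
      have h3 : 0 ≤ (k - lo) / (d : ℤ) := Int.ediv_nonneg (by omega) hdZ.le
      have h4 : (k - lo) / (d : ℤ) ≤ (hi - lo) / (d : ℤ) := Int.ediv_le_ediv hdZ (by omega)
      refine mem_filter.2 ⟨mem_range.2 ?_, fun p hp hdvd => hsift k hk p hp ?_⟩
      · show ((k - lo) / (d : ℤ)).toNat < N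
        omega
      · rw [Int.toNat_of_nonneg h3, Nat.cast_one, mul_one] at hdvd
        obtain ⟨j, hj⟩ := hmod k hk
        have e : k - lo = (d : ℤ) * (j - jlo) := by linear_combination hj - hjlo
        rw [e, Int.mul_ediv_cancel_left _ hdZ.ne', add_sub_cancel] at hdvd
        rw [hj]; exact hdvd.mul_left _
    · have h1 : lo ≤ a := S.min'_le _ ha
      have h2 : lo ≤ b := S.min'_le _ hb
      obtain ⟨ja, hja⟩ := hmod a ha
      obtain ⟨jb, hjb⟩ := hmod b hb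
      have ea : a - lo = (d : ℤ) * (ja - jlo) := by linear_combination hja - hjlo
      have eb : b - lo = (d : ℤ) * (jb - jlo) := by linear_combination hjb - hjlo
      simp only at h
      rw [ea, eb, Int.mul_ediv_cancel_left _ hdZ.ne', Int.mul_ediv_cancel_left _ hdZ.ne'] at h
      have h3 : 0 ≤ ja - jlo := by
        by_contra hc
        nlinarith
      have h4 : 0 ≤ jb - jlo := by
        by_contra hc
        nlinarith
      have : ja = jb := by omega
      subst this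
      linarith
  refine ((Nat.cast_le (α := ℝ)).2 hcard).trans ((selberg_progression K1 hK1 R hR jlo 1
    (fun p hp => (hK1 p hp).not_dvd_one) N).trans ?_)
  exact add_le_add (div_le_div_of_nonneg_right hNR hL.le) le_rfl

lemma prod_scaled (T : Finset ℕ) (a : ℕ → ℝ) (ha : ∀ p ∈ T, 0 ≤ a p) (t : ℝ) (ht : 0 ≤ t)
    (ht1 : t ≤ 1) : ∏ p ∈ T, (1 + t * a p) ≤ 1 + t * (∏ p ∈ T, (1 + a p) - 1) := by
  induction T using Finset.induction_on with
  | empty => simp
  | @insert p T hp ih =>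
    have h0 := ha p (mem_insert_self p T)
    have hT : ∀ q ∈ T, 0 ≤ a q := fun q hq => ha q (mem_insert_of_mem hq)
    have hP : 1 ≤ ∏ q ∈ T, (1 + a q) := one_le_prod fun q hq => by linarith [hT q hq]
    rw [prod_insert hp, prod_insert hp]
    refine (mul_le_mul_of_nonneg_left (ih hT) (by positivity)).trans ?_
    nlinarith [mul_nonneg (mul_nonneg ht h0) (mul_nonneg (sub_nonneg.2 hP) (sub_nonneg.2 ht1))]

/-- The large primes of the quotients. -/
lemma big_ratio : ∀ r : ℝ, 1 ≤ r → ∃ C : ℝ, 0 < C ∧ ∀ (z D : ℝ) (T : Finset ℕ) (n : ℕ),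
    2 ≤ z → 1 ≤ D → D ^ (2 / 3 : ℝ) ≤ z ^ r → 0 < n → T ⊆ n.primeFactors →
    (∀ p ∈ T, z < p) →
    ∏ p ∈ T, (p : ℝ) / ((p : ℝ) - 1) ≤ C * (1 + D ^ (-(7 / 12) : ℝ) * wt (1 / 8) 2 n) := by
  intro r hr
  obtain ⟨K, hK0, hK⟩ := P013.prime_range
  set c := (r - 1) + K / Real.log 2
  have hl2 : 0 < Real.log 2 := Real.log_pos (by norm_num)
  refine ⟨Real.exp (2 * c), Real.exp_pos _, fun z D T n hz hD hzD hn hsub hTz => ?_⟩
  have hTp : ∀ p ∈ T, p.Prime := fun p hp => Nat.prime_of_mem_primeFactors (hsub hp)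
  have hr1 : ∀ p ∈ T, (p : ℝ) / ((p : ℝ) - 1) ≤ 1 + 2 * (1 / (p : ℝ)) := by
    intro p hp
    have h2 : (2 : ℝ) ≤ p := by exact_mod_cast (hTp p hp).two_le
    rw [mul_one_div, one_add_div (by linarith : (p : ℝ) ≠ 0),
      div_le_div_iff₀ (by linarith) (by linarith)]
    nlinarith
  have h0 : ∀ p ∈ T, 0 ≤ (p : ℝ) / ((p : ℝ) - 1) := fun p hp =>
    zero_le_one.trans (div_pred_le (hTp p hp)).1
  rw [← prod_filter_mul_prod_filter_not T (fun p : ℕ => (p : ℝ) ≤ z ^ r)]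
  refine mul_le_mul ?_ ?_ (prod_nonneg fun p hp => h0 p (mem_filter.1 hp).1) (Real.exp_nonneg _)
  · set T1 := T.filter fun p : ℕ => (p : ℝ) ≤ z ^ r
    have hsum : ∑ p ∈ T1, 1 / (p : ℝ) ≤ c := by
      refine (hK z r 1 T1 hz hr fun p hp => ⟨hTp p (mem_filter.1 hp).1, hTz p (mem_filter.1 hp).1,
        by rw [pow_one]; exact (mem_filter.1 hp).2⟩).trans ?_
      rw [Nat.cast_one, one_mul, one_mul]
      exact add_le_add le_rfl (div_le_div_of_nonneg_left hK0 hl2 (Real.log_le_log (by norm_num) hz))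
    calc ∏ p ∈ T1, (p : ℝ) / ((p : ℝ) - 1) ≤ ∏ p ∈ T1, Real.exp (2 * (1 / (p : ℝ))) := by
          refine prod_le_prod (fun p hp => h0 p (mem_filter.1 hp).1) fun p hp => ?_
          refine (hr1 p (mem_filter.1 hp).1).trans ?_
          rw [add_comm]; exact Real.add_one_le_exp _
      _ = Real.exp (2 * ∑ p ∈ T1, 1 / (p : ℝ)) := by rw [← Real.exp_sum, mul_sum]
      _ ≤ _ := Real.exp_le_exp.2 (by linarith)
  · set t := D ^ (-(7 / 12) : ℝ)
    set T2 := T.filter fun p : ℕ => ¬ (p : ℝ) ≤ z ^ r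
    have ht0 : 0 ≤ t := by positivity
    have ht1 : t ≤ 1 := Real.rpow_le_one_of_one_le_of_nonpos hD (by norm_num)
    have hterm : ∀ p ∈ T2, (p : ℝ) / ((p : ℝ) - 1) ≤ 1 + t * (2 * (p : ℝ) ^ (-(1 / 8) : ℝ)) := by
      intro p hp
      obtain ⟨hpT, hpz⟩ := mem_filter.1 hp
      have hp0 : (0 : ℝ) < p := by exact_mod_cast (hTp p hpT).pos
      have hDp : D ^ (2 / 3 : ℝ) ≤ p := hzD.trans (not_le.1 hpz).le
      refine (hr1 p hpT).trans (add_le_add le_rfl ?_)
      have h7 : (p : ℝ) ^ (-(7 / 8) : ℝ) ≤ t := by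
        refine (Real.rpow_le_rpow_of_nonpos (Real.rpow_pos_of_pos (by linarith) _) hDp
          (by norm_num)).trans (le_of_eq ?_)
        rw [← Real.rpow_mul (by linarith)]; norm_num [t]
      calc 2 * (1 / (p : ℝ)) = 2 * ((p : ℝ) ^ (-(7 / 8) : ℝ) * (p : ℝ) ^ (-(1 / 8) : ℝ)) := by
            rw [← Real.rpow_add hp0]; norm_num [Real.rpow_neg_one]
        _ ≤ 2 * (t * (p : ℝ) ^ (-(1 / 8) : ℝ)) := by gcongr
        _ = _ := by ring
    refine (prod_le_prod (fun p hp => h0 p (mem_filter.1 hp).1) hterm).trans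
      ((prod_scaled T2 _ (fun p _ => by positivity) t ht0 ht1).trans
        (add_le_add le_rfl (mul_le_mul_of_nonneg_left ?_ ht0)))
    refine (sub_le_self _ zero_le_one).trans ?_
    exact prod_le_prod_of_subset_of_one_le ((filter_subset _ _).trans hsub)
      (fun p _ => by positivity) fun p _ _ => le_add_of_nonneg_right (by positivity)

/-- The loss at the quotient primes is a weight. -/
lemma killX_le_wt {P P' : Finset ℕ} (hP : ∀ p ∈ P, p.Prime) (hP' : ∀ p ∈ P', p.Prime) {x y : ℕ}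
    (hco : Nat.Coprime x y) (hx : 0 < x) (hy : 0 < y) {τ : ℝ} (hτ : τ ≤ 1) :
    killX P P' x y ≤ wt τ 2 (x * y) := by
  have hd : Disjoint (P.filter fun p => p ∣ x) (P'.filter fun p => p ∣ y) := by
    refine disjoint_left.2 fun p hp hp' => (hP p (mem_filter.1 hp).1).ne_one ?_
    exact Nat.dvd_one.1 (hco ▸ Nat.dvd_gcd (mem_filter.1 hp).2 (mem_filter.1 hp').2)
  unfold killX stepLoss
  rw [← prod_union hd]
  set T := (P.filter fun p => p ∣ x) ∪ P'.filter fun p => p ∣ y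
  have hTp : ∀ p ∈ T, p.Prime := fun p hp => by
    rcases mem_union.1 hp with h | h
    · exact hP p (mem_filter.1 h).1
    · exact hP' p (mem_filter.1 h).1
  have hsub : T ⊆ (x * y).primeFactors := fun p hp => by
    refine Nat.mem_primeFactors.2 ⟨hTp p hp, ?_, (Nat.mul_pos hx hy).ne'⟩
    rcases mem_union.1 hp with h | h
    · exact (mem_filter.1 h).2.mul_right y
    · exact (mem_filter.1 h).2.mul_left x
  refine (prod_le_prod (fun p hp => zero_le_one.trans (div_pred_le (hTp p hp)).1)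
    fun p hp => ?_).trans (prod_le_prod_of_subset_of_one_le hsub (fun p _ => by positivity)
      fun p _ _ => le_add_of_nonneg_right (by positivity))
  have h2 : (2 : ℝ) ≤ p := by exact_mod_cast (hTp p hp).two_le
  have hp1 : (p : ℝ) ^ (-(1 : ℝ)) ≤ (p : ℝ) ^ (-τ) :=
    Real.rpow_le_rpow_of_exponent_le (by linarith) (by linarith)
  rw [Real.rpow_neg_one] at hp1
  have h3 : (p : ℝ) / ((p : ℝ) - 1) ≤ 1 + 2 * (p : ℝ)⁻¹ := by
    rw [← div_eq_mul_inv, one_add_div (by linarith : (p : ℝ) ≠ 0),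
      div_le_div_iff₀ (by linarith) (by linarith)]
    nlinarith
  linarith

/-- Expanding the coincidences into counts over sets of primes. -/
lemma class_expand (T : Finset ℕ) (hT : ∀ p ∈ T, p.Prime) (S : Finset ℤ) (F : ℤ → ℤ) (a b : ℝ)
    (ha : 0 ≤ a)
    (hcount : ∀ U ⊆ T, ((S.filter fun k => ∀ p ∈ U, (p : ℤ) ∣ F k).card : ℝ) ≤
      a / (∏ p ∈ U, (p : ℝ)) + b) :
    ∑ k ∈ S, ∏ p ∈ T.filter (fun p : ℕ => (p : ℤ) ∣ F k), (p : ℝ) / ((p : ℝ) - 1) ≤
      a * Real.exp 4 + b * ∏ p ∈ T, (p : ℝ) / ((p : ℝ) - 1) := by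
  set h := fun U : Finset ℕ => ∏ p ∈ U, 1 / ((p : ℝ) - 1) with hh
  have h2 : ∀ p ∈ T, (2 : ℝ) ≤ p := fun p hp => by exact_mod_cast (hT p hp).two_le
  have hprod : ∀ U ⊆ T, ∏ p ∈ U, (p : ℝ) / ((p : ℝ) - 1) = ∑ V ∈ U.powerset, h V := fun U hU => by
    rw [prod_congr rfl (g := fun p : ℕ => 1 + 1 / ((p : ℝ) - 1)) fun p hp => by
      field_simp [show (p : ℝ) - 1 ≠ 0 by linarith [h2 p (hU hp)]]; ring, prod_one_add]
  have hterm : ∀ k ∈ S, ∏ p ∈ T.filter (fun p : ℕ => (p : ℤ) ∣ F k), (p : ℝ) / ((p : ℝ) - 1) =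
      ∑ U ∈ T.powerset, if (∀ p ∈ U, (p : ℤ) ∣ F k) then h U else 0 := fun k _ => by
    rw [hprod _ (filter_subset _ T), ← sum_filter]
    refine sum_congr ?_ fun _ _ => rfl
    ext U
    simp only [mem_powerset, mem_filter, subset_iff]
    exact ⟨fun h1 => ⟨fun p hp => (h1 hp).1, fun p hp => (h1 hp).2⟩,
      fun h1 p hp => ⟨h1.1 hp, h1.2 p hp⟩⟩
  rw [sum_congr rfl hterm, sum_comm]
  have hh0 : ∀ U ⊆ T, 0 ≤ h U := fun U hU => prod_nonneg fun p hp =>
    div_nonneg zero_le_one (by linarith [h2 p (hU hp)])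
  refine le_trans (sum_le_sum (g := fun U => a * (h U / ∏ p ∈ U, (p : ℝ)) + b * h U)
    fun U hU => ?_) ?_
  · rw [← sum_filter, sum_const, nsmul_eq_mul]
    refine (mul_le_mul_of_nonneg_right (hcount U (mem_powerset.1 hU))
      (hh0 U (mem_powerset.1 hU))).trans (le_of_eq ?_)
    ring
  rw [sum_add_distrib, ← mul_sum, ← mul_sum, ← hprod T subset_rfl]
  refine add_le_add (mul_le_mul_of_nonneg_left ?_ ha) le_rfl
  simp only [hh, ← prod_div_distrib]
  rw [← prod_one_add]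
  calc ∏ p ∈ T, (1 + 1 / ((p : ℝ) - 1) / p) ≤ ∏ p ∈ T, Real.exp (2 * (1 / (p : ℝ) ^ 2)) := by
        refine prod_le_prod (fun p hp => ?_) fun p hp => ?_
        · have : (0 : ℝ) ≤ 1 / ((p : ℝ) - 1) / p :=
            div_nonneg (div_nonneg zero_le_one (by linarith [h2 p hp])) (by linarith [h2 p hp])
          linarith
        · refine le_trans (add_le_add le_rfl ?_)
            ((add_comm _ _).le.trans (Real.add_one_le_exp _))
          have := h2 p hp
          rw [div_div, mul_one_div, div_le_div_iff₀ (by nlinarith) (by positivity)]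
          nlinarith
    _ = Real.exp (2 * ∑ p ∈ T, 1 / (p : ℝ) ^ 2) := by rw [← Real.exp_sum, mul_sum]
    _ ≤ _ := Real.exp_le_exp.2 (by linarith [P031.sum_inv_sq_le T])

/-- The count on one class. -/
lemma window_class_count {γ ψ ψ' : ℝ} {v w : ℕ} {W : ℝ} (hW : 0 ≤ W) (hv : 0 < v) (S : Finset ℤ)
    (hwin : ∀ k ∈ S, |(k : ℝ) - γ * ((quo v w : ℝ) - quo w v)| < W)
    (hkill : ∀ k ∈ S, Kill (avoid γ ψ v) (avoid γ ψ' w) (reg γ ψ).1 (reg γ ψ').1 (reg γ ψ).2
      (reg γ ψ').2 (quo v w) (quo w v) k)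
    (T K1 : Finset ℕ)
    (hK1 : K1 ⊆ (avoid γ ψ v).filter (fun p => p ∣ quo v w) ∪
      (avoid γ ψ' w).filter fun p => p ∣ quo w v)
    (hT : T ⊆ (avoid γ ψ v ∩ avoid γ ψ' w).filter fun p => ¬ p ∣ quo v w ∧ ¬ p ∣ quo w v)
    (R : ℕ) (hR : 1 ≤ R) (hL : 0 < sieveL K1 R) :
    ∀ U ⊆ T, ((S.filter fun k => ∀ p ∈ U, (p : ℤ) ∣ coF (reg γ ψ).1 (reg γ ψ').1 (reg γ ψ).2
        (reg γ ψ').2 (quo v w) (quo w v) k).card : ℝ) ≤
      2 * W / sieveL K1 R / (∏ p ∈ U, (p : ℝ)) + (1 / sieveL K1 R + (R : ℝ) ^ 6) := by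
  set P := avoid γ ψ v
  set P' := avoid γ ψ' w
  set A := (reg γ ψ).1
  set B := (reg γ ψ).2
  set A' := (reg γ ψ').1
  set B' := (reg γ ψ').2
  set x := quo v w
  set y := quo w v
  have hxy : Nat.Coprime x y := by
    simp only [x, y]; unfold quo
    rw [Nat.gcd_comm w v]
    exact Nat.coprime_div_gcd_div_gcd (Nat.gcd_pos_of_pos_left _ hv)
  have hPp : ∀ p ∈ P, p.Prime := fun p hp =>
    Nat.prime_of_mem_primeFactors (avoid_subset _ _ _ hp)
  have hP'p : ∀ p ∈ P', p.Prime := fun p hp =>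
    Nat.prime_of_mem_primeFactors (avoid_subset _ _ _ hp)
  have hTp : ∀ p ∈ T, p.Prime := fun p hp => hPp p (mem_inter.1 (mem_filter.1 (hT hp)).1).1
  have hK1p : ∀ p ∈ K1, p.Prime := fun p hp => by
    rcases mem_union.1 (hK1 hp) with h | h
    · exact hPp p (mem_filter.1 h).1
    · exact hP'p p (mem_filter.1 h).1
  set af : ℕ → ℤ := fun p => if p ∈ P ∧ p ∣ x then (B : ℤ) else
    if p ∈ P' ∧ p ∣ y then (B' : ℤ) else (B : ℤ) * B' with haf
  set bf : ℕ → ℤ := fun p => if p ∈ P ∧ p ∣ x then A * y else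
    if p ∈ P' ∧ p ∣ y then -(A' * x) else A * B' * y - A' * B * x with hbf
  obtain ⟨c, hc⟩ := exists_class (K1 ∪ T) (fun p hp => by
    rcases mem_union.1 hp with h | h
    · exact hK1p p h
    · exact hTp p h) af bf (fun p hp => by
    simp only [haf]
    split_ifs with h1 h2
    · exact fun hd => (avoid_spec h1.1).2.2.1 (Int.natCast_dvd_natCast.1 hd)
    · exact fun hd => (avoid_spec h2.1).2.2.1 (Int.natCast_dvd_natCast.1 hd)
    · intro hd
      have hpT : p ∈ T := by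
        rcases mem_union.1 hp with h | h
        · exfalso
          rcases mem_union.1 (hK1 h) with h' | h'
          · exact h1 (mem_filter.1 h')
          · exact h2 (mem_filter.1 h')
        · exact h
      obtain ⟨hp1, hp2⟩ := mem_inter.1 (mem_filter.1 (hT hpT)).1
      rcases (Nat.prime_iff_prime_int.1 (hTp p hpT)).dvd_or_dvd hd with h | h
      · exact (avoid_spec hp1).2.2.1 (Int.natCast_dvd_natCast.1 h)
      · exact (avoid_spec hp2).2.2.1 (Int.natCast_dvd_natCast.1 h))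
  intro U hU
  set d := ∏ p ∈ U, p with hd
  have hd0 : 0 < d := prod_pos fun p hp => (hTp p (hU hp)).pos
  have h := window_survivors K1 hK1p R hR hL d hd0
    (S.filter fun k => ∀ p ∈ U, (p : ℤ) ∣ coF A A' B B' x y k) c
    (γ * ((x : ℝ) - y)) W hW (fun k hk => hwin k (mem_filter.1 hk).1)
    (fun k hk => by
      obtain ⟨hkS, hkU⟩ := mem_filter.1 hk
      rw [Int.natCast_dvd]
      refine Finset.prod_primes_dvd _ (fun p hp => (hTp p (hU hp)).prime) fun p hp => ?_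
      rw [← Int.natCast_dvd]
      obtain ⟨hn1, hn2⟩ := (mem_filter.1 (hT (hU hp))).2
      refine (hc p (mem_union_right _ (hU hp)) k).1 ?_
      simp only [haf, hbf, if_neg fun h : p ∈ P ∧ p ∣ x => hn1 h.2,
        if_neg fun h : p ∈ P' ∧ p ∣ y => hn2 h.2]
      have := hkU p hp
      unfold coF at this
      convert this using 1
      ring)
    (fun k hk p hp hd => by
      obtain ⟨hkS, -⟩ := mem_filter.1 hk
      have hd' := (hc p (mem_union_left _ hp) k).2 hd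
      simp only [haf, hbf] at hd'
      obtain ⟨hk1, hk2⟩ := hkill k hkS
      rcases mem_union.1 (hK1 hp) with h' | h'
      · obtain ⟨a1, a2⟩ := mem_filter.1 h'
        rw [if_pos ⟨a1, a2⟩, if_pos ⟨a1, a2⟩, mul_comm] at hd'
        exact hk1 p a1 a2 hd'
      · obtain ⟨a1, a2⟩ := mem_filter.1 h'
        have hn : ¬ (p ∈ P ∧ p ∣ x) := fun h => (hP'p p a1).ne_one
          (Nat.dvd_one.1 (hxy ▸ Nat.dvd_gcd h.2 a2))
        rw [if_neg hn, if_neg hn, if_pos ⟨a1, a2⟩, if_pos ⟨a1, a2⟩, mul_comm, ← sub_eq_add_neg]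
          at hd'
        exact hk2 p a1 a2 hd')
  refine h.trans (le_of_eq ?_)
  rw [← Nat.cast_prod, ← hd]
  ring

/-- The scale of the sieve at the level `D`. -/
lemma sieve_scale {e0 D : ℝ} (he0 : 0 < e0) (hD : (2 : ℝ) ^ (2 / e0) < D) :
    (2 : ℕ) ≤ ⌊D ^ e0⌋₊ ∧ (⌊D ^ e0⌋₊ : ℝ) ≤ D ^ e0 ∧ D ^ (e0 / 2) ≤ (⌊D ^ e0⌋₊ : ℝ) := by
  have hD0 : 0 < D := lt_trans (by positivity) hD
  have hDe : (4 : ℝ) ≤ D ^ e0 := by
    refine le_trans (le_of_eq ?_) (Real.rpow_le_rpow (by positivity) hD.le he0.le)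
    rw [← Real.rpow_mul (by norm_num), div_mul_cancel₀ _ he0.ne']
    norm_num
  have hfl : D ^ e0 - 1 ≤ (⌊D ^ e0⌋₊ : ℝ) := by linarith [Nat.lt_floor_add_one (D ^ e0)]
  refine ⟨?_, Nat.floor_le (by positivity), le_trans ?_ hfl⟩
  · have : (2 : ℝ) ≤ (⌊D ^ e0⌋₊ : ℝ) := by linarith
    exact_mod_cast this
  · have h2 : D ^ (e0 / 2) * D ^ (e0 / 2) = D ^ e0 := by
      rw [← Real.rpow_add hD0]; ring_nf
    have h3 : 2 ≤ D ^ (e0 / 2) := by
      nlinarith [Real.rpow_nonneg hD0.le (e0 / 2)]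
    nlinarith

/-- The arithmetic of the main count. -/
lemma wide_arith {D L cR X1 Q Rp : ℝ} (hD : 1 ≤ D) (hcR : 0 < cR) (hL : 0 < L)
    (hX1L : cR * X1 ≤ L) (hX10 : 0 ≤ X1) (hX1 : X1 ≤ 2 * D ^ (1 / 18 : ℝ))
    (hQ : Q ≤ 16 * D ^ (1 / 12 : ℝ)) (hRp0 : 0 ≤ Rp) (hRp : Rp ≤ D ^ (1 / 3 : ℝ)) :
    X1 * (4 * D / L * Real.exp 4 + (1 / L + Rp) * Q) ≤
      ((5 * Real.exp 4 + 16) / cR + 32) * D := by
  have hDp : ∀ s : ℝ, s ≤ 1 → D ^ s ≤ D := fun s hs => by
    conv_rhs => rw [← Real.rpow_one D]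
    exact Real.rpow_le_rpow_of_exponent_le hD hs
  have hd1 : X1 * (1 / L) ≤ 1 / cR := by
    rw [← mul_div_assoc, mul_one, div_le_div_iff₀ hL hcR]
    linarith
  have hD0 : 0 < D := by linarith
  have s1 : X1 * (1 / L) * (4 * D * Real.exp 4 + 16 * D ^ (1 / 12 : ℝ)) ≤
      1 / cR * (5 * D * Real.exp 4 + 16 * D) := by
    refine mul_le_mul hd1 (add_le_add (by nlinarith [Real.exp_pos 4])
      (mul_le_mul_of_nonneg_left (hDp _ (by norm_num)) (by norm_num))) (by positivity)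
      (by positivity)
  have s2 : X1 * (16 * (Rp * D ^ (1 / 12 : ℝ))) ≤ 32 * D := by
    calc X1 * (16 * (Rp * D ^ (1 / 12 : ℝ)))
        ≤ 2 * D ^ (1 / 18 : ℝ) * (16 * (D ^ (1 / 3 : ℝ) * D ^ (1 / 12 : ℝ))) := by gcongr
      _ = 32 * D ^ (1 / 18 + 1 / 3 + 1 / 12 : ℝ) := by
          rw [Real.rpow_add hD0, Real.rpow_add hD0]; ring
      _ ≤ 32 * D := mul_le_mul_of_nonneg_left (hDp _ (by norm_num)) (by norm_num)
  calc X1 * (4 * D / L * Real.exp 4 + (1 / L + Rp) * Q)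
      ≤ X1 * (4 * D / L * Real.exp 4 + (1 / L + Rp) * (16 * D ^ (1 / 12 : ℝ))) := by gcongr
    _ = X1 * (1 / L) * (4 * D * Real.exp 4 + 16 * D ^ (1 / 12 : ℝ)) +
          X1 * (16 * (Rp * D ^ (1 / 12 : ℝ))) := by ring
    _ ≤ 1 / cR * (5 * D * Real.exp 4 + 16 * D) + 32 * D := add_le_add s1 s2
    _ = _ := by ring

lemma prod_small_log {D : ℝ} (hD : 1 ≤ D) (T : Finset ℕ) (hT : ∀ p ∈ T, p.Prime)
    (hTD : ∀ p ∈ T, (p : ℝ) ≤ 2 + Real.log (1 + D)) :
    ∏ p ∈ T, (p : ℝ) / ((p : ℝ) - 1) ≤ 4 + D ∧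
      ∏ p ∈ T, (p : ℝ) / ((p : ℝ) - 1) ≤ 16 * D ^ (1 / 12 : ℝ) := by
  have hl0 := Real.log_nonneg (show (1 : ℝ) ≤ 1 + D by linarith)
  have hTcard : (T.card : ℝ) + 1 ≤ 3 + Real.log (1 + D) := by
    have hsub : T ⊆ Icc 1 ⌊2 + Real.log (1 + D)⌋₊ := fun p hp =>
      mem_Icc.2 ⟨(hT p hp).one_lt.le, Nat.le_floor (hTD p hp)⟩
    have h1 : (T.card : ℝ) ≤ (⌊2 + Real.log (1 + D)⌋₊ : ℝ) := by
      exact_mod_cast (card_le_card hsub).trans_eq (by simp)
    linarith [Nat.floor_le (by linarith : 0 ≤ 2 + Real.log (1 + D))]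
  refine ⟨(prod_ratio_le_card T hT).trans (hTcard.trans ?_),
    (prod_ratio_le_card T hT).trans (hTcard.trans ?_)⟩
  · have := Real.log_le_sub_one_of_pos (show (0 : ℝ) < 1 + D by linarith)
    linarith
  · have h1 := Real.log_le_rpow_div (show 0 ≤ D by linarith) (show (0 : ℝ) < 1 / 12 by norm_num)
    have h2 : Real.log (1 + D) ≤ Real.log 2 + Real.log D := by
      rw [← Real.log_mul (by norm_num) (by linarith)]
      exact Real.log_le_log (by linarith) (by linarith)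
    have h3 : 1 ≤ D ^ (1 / 12 : ℝ) := Real.one_le_rpow hD (by norm_num)
    have := Real.log_two_lt_d9
    linarith

/-- The sum over the window of a pair at a level `D ≥ 1`. -/
theorem wide_pair : ∃ C : ℝ, 0 < C ∧ ∀ (γ ψ ψ' : ℝ), 0 < ψ → 0 < ψ' → ∀ (v w : ℕ), 0 < v → 0 < w →
    1 ≤ max ((quo w v : ℝ) * ψ) ((quo v w : ℝ) * ψ') → ∀ S : Finset ℤ,
    (∀ k ∈ S, |(k : ℝ) - γ * ((quo v w : ℝ) - quo w v)| < (quo w v : ℝ) * ψ + (quo v w : ℝ) * ψ') →
    (∀ k ∈ S, Kill (avoid γ ψ v) (avoid γ ψ' w) (reg γ ψ).1 (reg γ ψ').1 (reg γ ψ).2 (reg γ ψ').2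
      (quo v w) (quo w v) k) →
    (∀ k ∈ S, (avoid γ ψ v ∩ avoid γ ψ' w).Nonempty →
      coF (reg γ ψ).1 (reg γ ψ').1 (reg γ ψ).2 (reg γ ψ').2 (quo v w) (quo w v) k ≠ 0) →
    ∑ k ∈ S, killX (avoid γ ψ v) (avoid γ ψ' w) (quo v w) (quo w v) *
        coinc (avoid γ ψ v) (avoid γ ψ' w) (reg γ ψ).1 (reg γ ψ').1 (reg γ ψ).2 (reg γ ψ').2
          (quo v w) (quo w v) k ≤
      C * max ((quo w v : ℝ) * ψ) ((quo v w : ℝ) * ψ') *
        (1 + (max ((quo w v : ℝ) * ψ) ((quo v w : ℝ) * ψ')) ^ (-(7 / 12) : ℝ) *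
          wt (1 / 8) 2 (quo v w * quo w v)) := by
  obtain ⟨K, hK1, hco⟩ := coinc_le
  obtain ⟨CR, cR, hcR, hrankin⟩ := sieveL_rankin
  set e0 : ℝ := 1 / (18 * ((CR : ℝ) + 1)) with he0
  have he0p : 0 < e0 := by rw [he0]; positivity
  obtain ⟨Cb, hCb, hbig⟩ := big_ratio (2 / e0) (by
    rw [le_div_iff₀ he0p, one_mul, he0, div_le_iff₀ (by positivity)]
    linarith [Nat.cast_nonneg (α := ℝ) CR])
  set D1 := (2 : ℝ) ^ (2 / e0) with hD1def
  have hD1 : 1 ≤ D1 := Real.one_le_rpow (by norm_num) (by positivity)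
  set Ksm := K * (4 + D1) * (5 * D1) with hKsm
  set Cbig := K * Cb * ((5 * Real.exp 4 + 16) / cR + 32) with hCbig
  have hKsm0 : 0 ≤ Ksm := by positivity
  have hCbig0 : 0 ≤ Cbig := by positivity
  refine ⟨Ksm + Cbig, by positivity, ?_⟩
  intro γ ψ ψ' hψ hψ' v w hv hw hD S hwin hkill hne
  set P := avoid γ ψ v
  set P' := avoid γ ψ' w
  set x := quo v w
  set y := quo w v
  set D := max ((y : ℝ) * ψ) ((x : ℝ) * ψ')
  set F := coF (reg γ ψ).1 (reg γ ψ').1 (reg γ ψ).2 (reg γ ψ').2 x y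
  have hPp : ∀ p ∈ P, p.Prime := fun p hp =>
    Nat.prime_of_mem_primeFactors (avoid_subset _ _ _ hp)
  have hP'p : ∀ p ∈ P', p.Prime := fun p hp =>
    Nat.prime_of_mem_primeFactors (avoid_subset _ _ _ hp)
  have hx0 : 0 < x := Gcd.quo_pos hv.ne'
  have hy0 : 0 < y := Gcd.quo_pos hw.ne'
  have hxy : Nat.Coprime x y := by
    simp only [x, y]; unfold quo
    rw [Nat.gcd_comm w v]
    exact Nat.coprime_div_gcd_div_gcd (Nat.gcd_pos_of_pos_left _ hv)
  set X := killX P P' x y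
  have hX0 : 0 ≤ X := mul_nonneg (stepLoss_nonneg hPp x) (stepLoss_nonneg hP'p y)
  set T := coPrimes P P' x y D
  have hTp : ∀ p ∈ T, p.Prime := fun p hp =>
    hPp p (mem_inter.1 (mem_filter.1 (mem_filter.1 hp).1).1).1
  obtain ⟨hT1, hT2⟩ := prod_small_log hD T hTp fun p hp => (mem_filter.1 hp).2
  have hT0 : ∀ k, 0 ≤ ∏ p ∈ T.filter (fun p : ℕ => (p : ℤ) ∣ F k), (p : ℝ) / ((p : ℝ) - 1) :=
    fun k => prod_nonneg fun p hp =>
      zero_le_one.trans (div_pred_le (hTp p (mem_filter.1 hp).1)).1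
  set wtt := wt (1 / 8) 2 (x * y)
  have hwt1 : 1 ≤ wtt := Gcd.one_le_wt (by norm_num) _
  have hW0 : 0 ≤ (y : ℝ) * ψ + (x : ℝ) * ψ' := by positivity
  have hW : (y : ℝ) * ψ + (x : ℝ) * ψ' ≤ 2 * D := by
    linarith [le_max_left ((y : ℝ) * ψ) ((x : ℝ) * ψ'), le_max_right ((y : ℝ) * ψ) ((x : ℝ) * ψ')]
  refine le_trans (sum_le_sum (g := fun k => X * K *
    ∏ p ∈ T.filter (fun p : ℕ => (p : ℤ) ∣ F k), (p : ℝ) / ((p : ℝ) - 1)) fun k hk => ?_) ?_
  · rw [mul_assoc X K]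
    exact mul_le_mul_of_nonneg_left (hco γ ψ ψ' hψ hψ' v w k hv hw (hne k hk) (hwin k hk)) hX0
  rw [← mul_sum]
  have hDw : 0 ≤ D ^ (-(7 / 12) : ℝ) * wtt := by positivity
  rcases le_or_gt D D1 with hsmall | hlarge
  · have hXw : X ≤ wtt := killX_le_wt hPp hP'p hxy hx0 hy0 (by norm_num)
    have hsum : ∑ k ∈ S, ∏ p ∈ T.filter (fun p : ℕ => (p : ℤ) ∣ F k), (p : ℝ) / ((p : ℝ) - 1) ≤
        (5 * D1) * (4 + D1) := by
      refine le_trans (sum_le_sum (g := fun _ => 4 + D1) fun k _ => ?_) ?_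
      · refine (prod_le_prod_of_subset_of_one_le (filter_subset _ T) (fun p hp =>
          zero_le_one.trans (div_pred_le (hTp p (mem_filter.1 hp).1)).1)
          fun p hp _ => (div_pred_le (hTp p hp)).1).trans (hT1.trans (by linarith))
      · rw [sum_const, nsmul_eq_mul]
        refine mul_le_mul_of_nonneg_right ?_ (by positivity)
        refine (card_int_window S _ _ hW0 hwin).trans ?_
        linarith
    have hs7 : 1 ≤ D * D ^ (-(7 / 12) : ℝ) := by
      rw [mul_comm, ← Real.rpow_add_one (by linarith)]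
      exact Real.one_le_rpow hD (by norm_num)
    calc X * K * _ ≤ wtt * K * ((5 * D1) * (4 + D1)) := by
          gcongr
          exact sum_nonneg fun k _ => hT0 k
      _ = Ksm * 1 * wtt := by rw [hKsm]; ring
      _ ≤ Ksm * (D * D ^ (-(7 / 12) : ℝ)) * wtt := by gcongr
      _ = Ksm * D * (D ^ (-(7 / 12) : ℝ) * wtt) := by ring
      _ ≤ (Ksm + Cbig) * D * (1 + D ^ (-(7 / 12) : ℝ) * wtt) := by gcongr <;> linarith
  obtain ⟨hz12, hz1le, hz1ge⟩ := sieve_scale he0p hlarge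
  set z1 := ⌊D ^ e0⌋₊
  set R := z1 ^ (CR + 1) with hR
  have hR6 : (R : ℝ) ^ 6 ≤ D ^ (1 / 3 : ℝ) := by
    rw [hR, Nat.cast_pow, ← pow_mul]
    refine (pow_le_pow_left₀ (Nat.cast_nonneg _) hz1le _).trans (le_of_eq ?_)
    rw [← Real.rpow_natCast, ← Real.rpow_mul (by linarith)]
    have hC : (CR : ℝ) + 1 ≠ 0 := by positivity
    have : e0 * (((CR + 1) * 6 : ℕ) : ℝ) = 1 / 3 := by
      rw [he0]; push_cast; field_simp; norm_num
    rw [this]
  set Ka := (P.filter fun p => p ∣ x) ∪ P'.filter fun p => p ∣ y with hKa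
  have hdisj : Disjoint (P.filter fun p => p ∣ x) (P'.filter fun p => p ∣ y) := by
    refine disjoint_left.2 fun p hp hp' => (hPp p (mem_filter.1 hp).1).ne_one ?_
    exact Nat.dvd_one.1 (hxy ▸ Nat.dvd_gcd (mem_filter.1 hp).2 (mem_filter.1 hp').2)
  have hKap : ∀ p ∈ Ka, p.Prime := fun p hp => by
    rcases mem_union.1 hp with h | h
    · exact hPp p (mem_filter.1 h).1
    · exact hP'p p (mem_filter.1 h).1
  set K1 := Ka.filter fun p : ℕ => p ≤ z1
  set X1 := ∏ p ∈ K1, (p : ℝ) / ((p : ℝ) - 1)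
  set X2 := ∏ p ∈ Ka.filter (fun p : ℕ => ¬ p ≤ z1), (p : ℝ) / ((p : ℝ) - 1)
  have hXe : X = X1 * X2 := by
    simp only [X1, X2, K1, X]
    rw [prod_filter_mul_prod_filter_not, hKa, prod_union hdisj]; rfl
  have hX10 : 0 < X1 := prod_pos fun p hp =>
    lt_of_lt_of_le one_pos (div_pred_le (hKap p (mem_filter.1 hp).1)).1
  have hX1le : X1 ≤ 2 * D ^ (1 / 18 : ℝ) := by
    refine (prod_ratio_le_card K1 fun p hp => hKap p (mem_filter.1 hp).1).trans ?_
    have h1 : (K1.card : ℝ) ≤ z1 := by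
      have : K1 ⊆ Icc 1 z1 := fun p hp =>
        mem_Icc.2 ⟨(hKap p (mem_filter.1 hp).1).one_lt.le, (mem_filter.1 hp).2⟩
      exact_mod_cast (card_le_card this).trans_eq (by simp)
    have h2 : D ^ e0 ≤ D ^ (1 / 18 : ℝ) := by
      refine Real.rpow_le_rpow_of_exponent_le hD ?_
      rw [he0]
      refine one_div_le_one_div_of_le (by norm_num) ?_
      linarith [Nat.cast_nonneg (α := ℝ) CR]
    have h3 : 1 ≤ D ^ (1 / 18 : ℝ) := Real.one_le_rpow hD (by norm_num)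
    linarith
  have hX20 : 0 ≤ X2 := prod_nonneg fun p hp =>
    zero_le_one.trans (div_pred_le (hKap p (mem_filter.1 hp).1)).1
  have hX2le : X2 ≤ Cb * (1 + D ^ (-(7 / 12) : ℝ) * wtt) := by
    refine hbig (z1 : ℝ) D _ (x * y) (by exact_mod_cast hz12) hD ?_ (Nat.mul_pos hx0 hy0)
      (fun p hp => ?_) fun p hp => by exact_mod_cast not_le.1 (mem_filter.1 hp).2
    · refine le_trans ?_ (Real.rpow_le_rpow (by positivity) hz1ge (by positivity))
      rw [← Real.rpow_mul (by linarith), div_mul_div_comm, mul_comm e0 2,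
        div_self (by positivity : (2 : ℝ) * e0 ≠ 0)]
      exact Real.rpow_le_rpow_of_exponent_le hD (by norm_num)
    · obtain ⟨hpK, -⟩ := mem_filter.1 hp
      refine Nat.mem_primeFactors.2 ⟨hKap p hpK, ?_, (Nat.mul_pos hx0 hy0).ne'⟩
      rcases mem_union.1 hpK with h | h
      · exact (mem_filter.1 h).2.mul_right y
      · exact (mem_filter.1 h).2.mul_left x
  have hLX : cR * X1 ≤ sieveL K1 R := hrankin z1 K1 hz12
    (fun p hp => ⟨hKap p (mem_filter.1 hp).1, (mem_filter.1 hp).2⟩) R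
    (Nat.pow_le_pow_right (by omega) (by omega))
  have hL0 : 0 < sieveL K1 R := lt_of_lt_of_le (by positivity) hLX
  have hexp := class_expand T hTp S F (2 * ((y : ℝ) * ψ + (x : ℝ) * ψ') / sieveL K1 R)
    (1 / sieveL K1 R + (R : ℝ) ^ 6) (by positivity)
    (window_class_count hW0 hv S hwin hkill T K1 (filter_subset _ _) (filter_subset _ _) R
      (Nat.one_le_pow _ _ (by omega)) hL0)
  calc X * K * _ ≤ X * K * (4 * D / sieveL K1 R * Real.exp 4 +
        (1 / sieveL K1 R + (R : ℝ) ^ 6) * ∏ p ∈ T, (p : ℝ) / ((p : ℝ) - 1)) := by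
        refine mul_le_mul_of_nonneg_left (hexp.trans (add_le_add ?_ le_rfl)) (by positivity)
        exact mul_le_mul_of_nonneg_right (div_le_div_of_nonneg_right (by linarith) hL0.le)
          (Real.exp_nonneg _)
    _ = X2 * K * (X1 * (4 * D / sieveL K1 R * Real.exp 4 +
        (1 / sieveL K1 R + (R : ℝ) ^ 6) * ∏ p ∈ T, (p : ℝ) / ((p : ℝ) - 1))) := by rw [hXe]; ring
    _ ≤ X2 * K * (((5 * Real.exp 4 + 16) / cR + 32) * D) :=
        mul_le_mul_of_nonneg_left (wide_arith hD hcR hL0 hLX hX10.le hX1le hT2 (by positivity) hR6)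
          (mul_nonneg hX20 (by linarith))
    _ ≤ Cb * (1 + D ^ (-(7 / 12) : ℝ) * wtt) * K * (((5 * Real.exp 4 + 16) / cR + 32) * D) := by
        gcongr
    _ = Cbig * D * (1 + D ^ (-(7 / 12) : ℝ) * wtt) := by rw [hCbig]; ring
    _ ≤ _ := by
        gcongr
        linarith

end

end Vale.Agent.P028.Sel
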